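import Vale.Agent.P269.Qrr.MainB
import Vale.Agent.P269.Prj.Tgt

/-!
# Quantum Riemann-Roch from its geometric inputs
-/

set_option linter.unusedSectionVars false

namespace Vale.Agent.P269

open P291Z Function Fock Finset

namespace Qrr.Asm

variable {Λ R J K : Type} [Fintype Λ] [Fintype R] [Fintype J] [Fintype K] [DecidableEq R]
  {F : Fam Empty Λ R J K} {k : ℕ}

theorem rec_one (hQ : St.QC) (hU : St.UcP) (hN : St.NdQ) (hI : St.UnQ) (hF : St.FacQ)
    (hW : St.Well) (hS : St.Spec) (h : F.One k) {C : Deg.Coh} {i : C.H →ₗ[ℂ] H (F.X F.cone)}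
    (hi : F.IsCoh C i) (he : F.IsCas (i ∘ C.fr.e) (i ∘ C.fr.f)) {A : Type} [CommRing A]
    [Algebra ℂ A] {ac : B.Act C.fr A} {φ : A →ₐ[ℂ] H (F.X F.cone)}
    (hac : ∀ x v, i (ac.act x v) = φ x * i v) {L : Type} (T : Finset L) (b : L → ℂ) {u : L → A}
    {y : L → J} (hφ : ∀ l ∈ T, φ (u l) = F.lc _ 0 (F.w (y l))) (β : R → ℤ) :
    Rec ac T b u (kap T b u fun r a m => F.corP k (fun m => m.Conn) (th T b y m) 0 0 ![(r, φ a)])
      fun j m => F.ser0 k (F.exT (th T b y m)) C.p i β j := by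
  have := h.good.fp
  obtain ⟨u', hu⟩ : ∃ u' : J → Ch.Hev (F.X F.cone), ∀ j, (u' j).1 = F.lc _ 0 (F.w j) :=
    ⟨fun j => ⟨_, Wt.lc_mem _ _⟩, fun _ => rfl⟩
  have hZ : ∀ Θ j {n : ℕ} (f : Fin n → ℕ × C.H), F.ser0 k (F.exT Θ) C.p i β j (monF C.p f) =
      F.corP k (fun _ => True) Θ β j (Prod.map id i ∘ f) := fun Θ j _ f =>
    h.ser0_exT hS Θ hi.ev β j f
  have hn := cI_nat (b := b) φ (Ch.Hev _).val (u := u) (u' := fun l => u' (y l))
    fun l hl => (hφ l hl).trans (hu _).symm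
  have h1 : ∀ m, (evC (fun j => 1 + PowerSeries.C (u' j) * PowerSeries.X) (th T b y m)).1 =
      φ (PowerSeries.coeff m (Ring.inverse (cI T b u))) := fun m => by
    rw [evC_th T b y fun _ => AlgA.cc_lin _, thC_lin, (hn m).2, Subalgebra.val_apply]
  have h2 : ∀ m, (evC (fun j => (1 + PowerSeries.C (u' j) * PowerSeries.X).invOfUnit 1)
      (th T b y m)).1 = φ (PowerSeries.coeff m (cI T b u)) := fun m => by
    rw [evC_th T b y fun _ => AlgA.cc_inv _, thC_inv, (hn m).1, Subalgebra.val_apply]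
  refine rec_of ac T b u _ _ (fun l n j m => F.ser0 k
    (F.exT (PowerSeries.coeff n (chT (cU (y l))) * th T b y m)) C.p i β j) (monF_span C.p) ?_ ?_ ?_
  · rintro _ ⟨n, f, rfl⟩ j m
    obtain ⟨G, hG⟩ := corP_lin hF hW h β j (Prod.map id i ∘ f)
    simpa only [hZ, hG, map_smul, map_sum, smul_eq_mul] using congrArg G (th_ode T b y m)
  · rintro _ ⟨n, f, rfl⟩ l _ j m
    obtain ⟨G, hG⟩ := corP_lin hF hW h β j (Prod.map id i ∘ f)
    rw [hZ, hG, coeff_zero_chT, zero_mul, map_zero]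
  rintro _ ⟨n, f, rfl⟩ l hl p j m
  rw [hZ, grr hQ hU hN hF hW h hu he (cop_th T b y m) β j _ (y l) (hφ l hl).symm]
  refine congrArg₂ _ (sum_congr rfl fun q _ => congrArg _ ?_) (congrArg _
    (sum_congr rfl fun q _ => sum_congr rfl fun a _ => congrArg _ (sum_congr rfl fun t _ => ?_)))
  · have h3 := hI F k C i u' _ _ _ _ h hi hu (cop_th T b y m).symm β j f q.1 (φ (u l ^ q.2))
      (fun t => f3 ac (u l ^ q.2 * PowerSeries.coeff t.2 (Ring.inverse (cI T b u))))
      (by rw [map_pow, hφ l hl]; exact pow_mem (Wt.lc_mem _ _) _) fun t _ x x' => by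
        rw [h1, ← map_mul, mul_comm (PowerSeries.coeff _ _), ← hac, ← hi.η]
        rfl
    have h4 : F.ser0 k (F.exT (th T b y m)) C.p i β j (tauC ac q.1 (u l ^ q.2) * monF C.p f) =
        F.corP k (fun _ => True) (th T b y m) β j
          (Fin.cons (q.1, φ (u l ^ q.2)) (Prod.map id i ∘ f)) := by
      rw [tauC_monF, hZ, Fin.comp_cons, Prod.map_apply, hac, hi.one, mul_one, id]
    have h5 : F.ser0 k (F.exT (th T b y m)) C.p i β j
        (dv _ (Frame.blk (zp ℂ C.H (q.1 - 1) * cst (ac.act (u l ^ q.2)))) (monF C.p f)) =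
        ∑ s, if ((Prod.map id i ∘ f) s).1 + q.1 = 0 then 0 else F.corP k (fun _ => True)
          (th T b y m) β j (update (Prod.map id i ∘ f) s (((Prod.map id i ∘ f) s).1 + q.1 - 1,
            φ (u l ^ q.2) * ((Prod.map id i ∘ f) s).2)) := by
      rw [dv_op, map_sum]
      refine sum_congr rfl fun s _ => ?_
      rw [apply_ite (F.ser0 k _ C.p i β j), map_zero, hZ, comp_update, Prod.map_apply, hac]
      rfl
    rw [uc, ← map_pow, h4, h5, h3]
    ring
  · rw [nd_monF, map_sum]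
    refine sum_congr rfl fun s _ => ?_
    rw [hZ, Fin.comp_cons, Fin.comp_cons, Prod.map_apply, Prod.map_apply, hac, map_mul, map_pow, h2]
    rfl

end Qrr.Asm

/-- **Quantum Riemann-Roch** from Grothendieck-Riemann-Roch on the moduli space and the integrals
over the universal curve and its nodes. -/
theorem St.qrr_of (hQ : St.QC) (hU : St.UcP) (hN : St.NdQ) (hI : St.UnQ) (hF : St.FacQ)
    (hW : St.Well) (hS : St.Spec) (hC : St.Cas) : St.Qrr := by
  intro Λ R J K _ _ _ _ _ V l₀ k C i A _ _ ac φ r w c n y hn ha hb hk hi _ hac hφ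
  simp only [Qrr.Asm.thV_eq]
  exact ⟨_, Qrr.kap_zero _ _ _ _, fun β m j x => Qrr.Asm.rec_one hQ hU hN hI hF hW hS
    ⟨hn, ha, ⟨l₀, hb⟩, hk⟩ hi (hC V l₀ C i hn hb hi) hac (univ.erase n) _
    (fun l hl => hφ l (ne_of_mem_erase hl)) β j m x⟩

end Vale.Agent.P269
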