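import Vale.Agent.P269.Qrr.Defs

/-! From Grothendieck-Riemann-Roch for correlators to the recursion. -/

set_option linter.unusedSectionVars false

namespace Vale.Agent.P269.Qrr

open Fock Finset

section rc

variable {H : Type} [AddCommGroup H] [Module ℂ H] {p : Par ℂ H} {ι : Type} [Fintype ι]
  {fr : Frame p ι} {C : Type} [CommRing C] [Algebra ℂ C] (ac : B.Act fr C)
  {L : Type} (T : Finset L) (b : L → ℂ) (u : L → C)

/-- The insertion `τ_r (y)`. -/
noncomputable def tauC (r : ℕ) (y : C) : S (p.fs ℕ) :=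
  Fock.ι _ (Finsupp.single r (ac.act y fr.one))

/-- Descendants at the two branches of a node, and the class `y` at the node. -/
noncomputable def nd (a a' : ℕ) (y : C) : S (p.fs ℕ) :=
  ∑ s, Fock.ι _ (Finsupp.single a (ac.act y (fr.e s))) * Fock.ι _ (Finsupp.single a' (fr.f s))

/-- The form `(τ_a α, τ_a' α') ↦ ∫ y α α'` for `a = a' = 0`. -/
noncomputable def f3 (y : C) : SymB (p.fs ℕ) :=
  ⟨fr.η.compl₁₂ (ac.act y ∘ₗ Finsupp.lapply 0) (Finsupp.lapply 0), fun _ _ =>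
    (fr.η_symm _ _).trans (ac.adj y _ _).symm⟩

/-- The integral of `x^r ev^* y` over the universal curve: `e r y m` is the contribution of a
contracted elliptic component with one marked point, `v` that of a contracted rational component with
three marked points. -/
noncomputable def uc (v : PowerSeries C) (e : ℕ → C → ℕ → ℂ) (Z : ℤ → ℕ → S (p.fs ℕ) →ₗ[ℂ] ℂ)
    (r : ℕ) (y : C) (j : ℤ) (m : ℕ) (x : S (p.fs ℕ)) : ℂ :=
  Z j m (tauC ac r y * x) - Z j m (dv _ (Frame.blk (zp ℂ H (r - 1) * cst (ac.act y))) x) -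
    (if r = 0 then ∑ q ∈ antidiagonal m,
      Z (j + 1) q.1 (con2 _ (f3 ac (y * PowerSeries.coeff q.2 v)) x) else 0) -
    ∑ q ∈ antidiagonal m, e r y q.2 * Z j q.1 x

/-- The constants of the recursion. -/
noncomputable def kap (e : ℕ → C → ℕ → ℂ) (n : ℕ) : ℂ :=
  -∑ k ∈ antidiagonal n, if k.1 = 0 then 0 else ∑ l ∈ T, ∑ q ∈ antidiagonal (k.1 + 1),
    (-1) ^ k.1 * k.1.factorial / b l ^ k.1 * (bernoulli q.1 : ℚ) /
      (q.1.factorial * q.2.factorial) * e q.1 (u l ^ q.2) k.2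

theorem kap_zero (e : ℕ → C → ℕ → ℂ) : kap T b u e 0 = 0 := by simp [kap]

namespace AlgB

lemma tri {M : Type*} [AddCommMonoid M] (F : ℕ → ℕ → ℕ → M) (m : ℕ) :
    ∑ q ∈ antidiagonal m, ∑ t ∈ antidiagonal q.1, F t.1 t.2 q.2 =
      ∑ q ∈ antidiagonal m, ∑ t ∈ antidiagonal q.2, F q.1 t.1 t.2 := by
  rw [sum_sigma', sum_sigma']
  refine sum_nbij' (fun x => ⟨(x.2.1, x.2.2 + x.1.2), (x.2.2, x.1.2)⟩)
    (fun x => ⟨(x.1.1 + x.2.1, x.2.2), (x.1.1, x.2.1)⟩) ?_ ?_ ?_ ?_ fun _ _ => rfl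
  all_goals
    rintro ⟨⟨a, b⟩, c, d⟩ h
    simp only [mem_sigma, mem_antidiagonal, Sigma.mk.injEq, Prod.mk.injEq, heq_eq_eq, and_true,
      true_and] at h ⊢
    omega

/-- The coefficients. -/
noncomputable def co (k : ℕ) (l : L) (q : ℕ × ℕ) : ℂ :=
  (-1) ^ k * k.factorial / b l ^ k * (bernoulli q.1 : ℚ) / (q.1.factorial * q.2.factorial)

/-- `z^(r - 1) y`. -/
noncomputable def op (r : ℕ) (y : C) : Module.End ℂ (LL H) := zp ℂ H (r - 1) * cst (ac.act y)

lemma op_single (r : ℕ) (y : C) (i : ℤ) (v : H) :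
    op ac r y (Finsupp.single i v) = Finsupp.single (i + (r - 1)) (ac.act y v) := by simp [op]

lemma cst_aK (w : C) (P : ℕ → Prop) [DecidablePred P] (k : ℕ) :
    cst (ac.act w) * aK ac T b u P k = if k = 0 then 0 else ∑ l ∈ T,
      ∑ q ∈ antidiagonal (k + 1) with P q.1, co b k l q • op ac q.1 (u l ^ q.2 * w) := by
  rw [aK]
  split_ifs
  · exact mul_zero _
  simp only [mul_sum, mul_smul_comm]
  refine sum_congr rfl fun l _ => sum_congr rfl fun q _ => congrArg _ ?_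
  rw [← mul_assoc, (cst_zp _ _).eq, mul_assoc, ← map_mul, ← map_mul, mul_comm w, op]

lemma q0_aK (k : ℕ) (x : S (p.fs ℕ)) : fr.q0 (aK ac T b u (fun _ => True) k) x =
    if k = 0 then 0 else ∑ l ∈ T, ∑ q ∈ antidiagonal (k + 1), co b k l q •
      (dv _ (Frame.blk (op ac q.1 (u l ^ q.2))) x - tauC ac q.1 (u l ^ q.2) * x) := by
  let F : Module.End ℂ (LL H) →ₗ[ℂ] Module.End ℂ (S (p.fs ℕ)) :=
    Q0 _ fr.dil ∘ₗ LinearMap.llcomp ℂ _ _ _ (pos ℂ H) ∘ₗ LinearMap.lcomp ℂ _ (up ℂ H)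
  change F (aK ac T b u (fun _ => True) k) x = _
  rw [aK]
  split_ifs
  · rw [map_zero, LinearMap.zero_apply]
  simp only [filter_true, map_sum, map_smul, LinearMap.sum_apply, LinearMap.smul_apply]
  refine sum_congr rfl fun l _ => sum_congr rfl fun q _ => congrArg _ ?_
  change dv _ _ x - Fock.ι _ (pos ℂ H (op ac q.1 (u l ^ q.2) (up ℂ H fr.dil))) * x = _
  rw [Frame.dil, up_single, op_single, Nat.cast_one, add_sub_cancel, pos_single_nat]
  rfl

lemma neg_op (r : ℕ) (y : C) :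
    fr.neg ∘ₗ op ac r y ∘ₗ up ℂ H = (if r = 0 then f3 ac y else 0 : SymB _).1 := by
  refine Finsupp.lhom_ext fun a v => ?_
  rw [LinearMap.comp_apply, LinearMap.comp_apply, up_single, op_single]
  rcases Nat.eq_zero_or_pos (a + r) with h | h
  · obtain ⟨rfl, rfl⟩ := Nat.add_eq_zero_iff.1 h
    exact LinearMap.ext fun w => by simpa [f3] using fr.neg_single 0 (ac.act y v) w
  rw [show (a : ℤ) + (r - 1) = (a + r - 1 : ℕ) by omega, ← up_single (K := ℂ), Frame.neg_up]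
  split_ifs with h0
  · exact LinearMap.ext fun w => by simp [f3, Finsupp.single_eq_of_ne (show 0 ≠ a by omega)]
  · rfl

/-- The quadratic form of `w * aK k`. -/
noncomputable def fm (w : C) (k : ℕ) : SymB (p.fs ℕ) :=
  if k = 0 then 0 else ∑ l ∈ T, ∑ q ∈ antidiagonal (k + 1), co b k l q •
    if q.1 = 0 then f3 ac (u l ^ q.2 * w) else 0

lemma qm_aT (v : PowerSeries C) (n : ℕ) : fr.qm (aT ac T b u v n) =
    ∑ q ∈ antidiagonal n, con2 _ (fm ac T b u (PowerSeries.coeff q.1 v) q.2) := by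
  let F : Module.End ℂ (LL H) →ₗ[ℂ] _ :=
    LinearMap.llcomp ℂ _ _ _ fr.neg ∘ₗ LinearMap.lcomp ℂ _ (up ℂ H)
  have e : F (aT ac T b u v n) =
      (∑ q ∈ antidiagonal n, fm ac T b u (PowerSeries.coeff q.1 v) q.2).1 := by
    rw [aT, map_sum, Submodule.coe_sum]
    refine sum_congr rfl fun q _ => ?_
    rw [cst_aK, fm]
    split_ifs
    · exact map_zero _
    simp only [map_sum, map_smul, Submodule.coe_sum, Submodule.coe_smul]
    refine sum_congr rfl fun l _ => (sum_congr rfl fun s _ => congrArg _ (neg_op ac _ _)).trans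
      (sum_filter_of_ne fun s _ h e => h ?_)
    rw [e, if_neg one_ne_zero, Submodule.coe_zero, smul_zero]
  have e0 : F (aT ac T b u v n) fr.dil = 0 := by
    simp only [aT, cst_aK, map_sum, LinearMap.sum_apply]
    refine sum_eq_zero fun q _ => ?_
    split_ifs
    · rw [map_zero, LinearMap.zero_apply]
    simp only [map_sum, map_smul, LinearMap.sum_apply, LinearMap.smul_apply]
    refine sum_eq_zero fun l _ => sum_eq_zero fun s _ => smul_eq_zero_of_right _ ?_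
    change fr.neg (op ac _ _ (up ℂ H fr.dil)) = 0
    rw [Frame.dil, up_single, op_single, Nat.cast_one, add_sub_cancel, ← up_single (K := ℂ),
      Frame.neg_up]
  have h : fr.neg ∘ₗ aT ac T b u v n ∘ₗ up ℂ H ∈ SymB (p.fs ℕ) :=
    (e ▸ Subtype.property _ : F _ ∈ _)
  rw [Frame.qm, show fr.neg (aT ac T b u v n (up ℂ H fr.dil)) = 0 from e0, map_zero, sub_zero, Frame.qf, dif_pos h, ← map_sum]
  exact congrArg _ (Subtype.ext e)

variable (fr) in
/-- `s` is the Casimir element of `A`, which has a finite mixing block. -/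
def Cs (A : Module.End ℂ (LL H)) (s : S (p.fs ℕ)) : Prop :=
  ∀ᶠ N in Filter.atTop, (∀ v, pos ℂ H (A (Finsupp.single (-((N : ℕ) : ℤ) - 1) v)) = 0) ∧
    hf ℂ • ∑ m ∈ range N, fr.casT A m = s

lemma Cs.eq {A : Module.End ℂ (LL H)} {s : S (p.fs ℕ)} (h : Cs fr A s) : fr.cas A = s := by
  obtain ⟨N, hN⟩ := Filter.eventually_atTop.1 h
  rw [Frame.cas_eq fun m hm => (hN m hm).1, (hN N le_rfl).2]

lemma Cs.zero : Cs fr 0 0 := .of_forall fun _ => ⟨fun _ => by simp, by simp [Frame.casT]⟩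

lemma Cs.smul {A : Module.End ℂ (LL H)} {s : S (p.fs ℕ)} (h : Cs fr A s) (c : ℂ) :
    Cs fr (c • A) (c • s) := h.mono fun N hN => ⟨fun v => by simp [hN.1], by
  rw [← hN.2, smul_comm c, smul_sum (r := c)]
  simp [Frame.casT, smul_sum, smul_comm c]⟩

lemma Cs.sum {α : Type*} (t : Finset α) {A : α → Module.End ℂ (LL H)} {s : α → S (p.fs ℕ)}
    (h : ∀ a ∈ t, Cs fr (A a) (s a)) : Cs fr (∑ a ∈ t, A a) (∑ a ∈ t, s a) :=
  ((Filter.eventually_all_finset t).2 h).mono fun N hN => ⟨fun v => by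
    rw [LinearMap.sum_apply, map_sum, sum_eq_zero fun a ha => (hN a ha).1 v], by
    rw [← sum_congr rfl fun a ha => (hN a ha).2, ← smul_sum (s := t), sum_comm]
    simp only [Frame.casT, LinearMap.sum_apply, map_sum, mul_sum, smul_sum]
    exact sum_congr rfl fun _ _ => sum_comm⟩

lemma nd_eq (a a' : ℕ) (y : C) : ∑ s, Fock.ι (p.fs ℕ) (Finsupp.single a (fr.e s)) *
    Fock.ι _ (Finsupp.single a' (ac.act y (fr.f s))) = nd ac a a' y := by
  let F : H →ₗ[ℂ] H →ₗ[ℂ] S (p.fs ℕ) := (LinearMap.mul ℂ _).compl₁₂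
    (Fock.ι _ ∘ₗ Finsupp.lsingle a) (Fock.ι _ ∘ₗ Finsupp.lsingle a')
  change ∑ s, F _ _ = ∑ s, F _ _
  rw [sum_congr rfl fun s _ => congrArg (F _) (fr.right (ac.act y (fr.f s))).symm,
    sum_congr rfl fun s _ => congrArg (F · _) (fr.left (ac.act y (fr.e s))).symm]
  simp only [map_sum, map_smul, LinearMap.sum_apply, LinearMap.smul_apply, ac.adj]
  exact sum_comm

lemma cs_op (r : ℕ) (y : C) : Cs fr (op ac r y) (-hf ℂ • ∑ a ∈ range (r - 1),
    (-1 : ℂ) ^ a • nd ac a (r - 2 - a) y) :=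
  (Filter.eventually_ge_atTop r).mono fun N hN => ⟨fun v => by
    rw [op_single, pos_single_neg (by omega)], by
    rw [← sum_subset (range_mono (show r - 1 ≤ N by omega)) fun m _ hm => by
      have := mem_range.not.1 hm
      simp only [Frame.casT, op_single, pos_single_neg (show -(m : ℤ) - 1 + (r - 1) < 0 by omega),
        map_zero, mul_zero, smul_zero, sum_const_zero], neg_smul, ← smul_neg, ← sum_neg_distrib]
    refine congrArg _ (sum_congr rfl fun m hm => ?_)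
    have := mem_range.1 hm
    simp only [Frame.casT, op_single, show -(m : ℤ) - 1 + (r - 1) = (r - 2 - m : ℕ) by omega,
      pos_single_nat]
    rw [← smul_sum, nd_eq, pow_succ, mul_neg_one, neg_smul]⟩

/-- The Casimir element of `w * aK k`. -/
noncomputable def cm (w : C) : ℕ → S (p.fs ℕ)
  | 0 => 0
  | n + 1 => -∑ l ∈ T, ∑ q ∈ antidiagonal n, ∑ a ∈ antidiagonal q.1,
      (co b (n + 1) l (q.1 + 2, q.2) * (1 / 2 * (-1) ^ a.1)) • nd ac a.1 a.2 (u l ^ q.2 * w)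

lemma cas_aT (v : PowerSeries C) (n : ℕ) : fr.cas (aT ac T b u v n) =
    ∑ q ∈ antidiagonal n, cm ac T b u (PowerSeries.coeff q.1 v) q.2 := by
  refine (Cs.sum _ fun q _ => ?_).eq
  rw [cst_aK]
  rcases q.2 with _ | k
  · exact Cs.zero
  rw [if_neg k.succ_ne_zero, cm, ← sum_neg_distrib]
  refine Cs.sum _ fun l _ => ?_
  refine (congrArg (Cs fr _) ?_).mp (Cs.sum _ fun s _ => (cs_op ac s.1 _).smul (co b (k + 1) l s))
  refine (sum_filter_of_ne (p := fun s : ℕ × ℕ => s.1 ≠ 1) fun s _ h e => h (by simp [e])).trans ?_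
  rw [Nat.sum_antidiagonal_succ, Nat.sum_antidiagonal_succ, ← sum_neg_distrib]
  simp only [Nat.zero_sub, range_zero, sum_empty, smul_zero, zero_add, Nat.sub_self]
  refine sum_congr rfl fun s _ => ?_
  rw [Nat.sum_antidiagonal_eq_sum_range_succ_mk, neg_smul, smul_neg, smul_sum, smul_sum]
  refine congrArg _ (sum_congr rfl fun a _ => ?_)
  rw [smul_smul, smul_smul, mul_assoc, hf]
  simp

lemma ext_rec {K V α : Type*} [CommRing K] [AddCommGroup V] [Module K V] {X : Set V}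
    (hX : Submodule.span K X = ⊤) {s : Finset α} {m : K} {κ : α → K} {Z : V →ₗ[K] K}
    {Z₀ Z₁ Z₂ : α → V →ₗ[K] K} {A₀ A₁ A₂ : α → Module.End K V} (h : ∀ x ∈ X, m * Z x = ∑ q ∈ s,
      (Z₀ q (κ q • x - A₀ q x) - Z₁ q (A₁ q x) - Z₂ q (A₂ q x))) (x : V) :
    m * Z x = ∑ q ∈ s, (Z₀ q (κ q • x - A₀ q x) - Z₁ q (A₁ q x) - Z₂ q (A₂ q x)) :=
  (LinearMap.congr_fun (LinearMap.ext_on hX (f := m • Z)
    (g := ∑ q ∈ s, (Z₀ q ∘ₗ (κ q • 1 - A₀ q) - Z₁ q ∘ₗ A₁ q - Z₂ q ∘ₗ A₂ q)) fun x hx => by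
      rw [LinearMap.sum_apply]; exact h x hx) x).trans (LinearMap.sum_apply _ _ _)

end AlgB

open AlgB

/-- `W l n j m` has the class `ch_n (E_l) Θ_m` inserted. -/
theorem rec_of (e : ℕ → C → ℕ → ℂ) (Z : ℤ → ℕ → S (p.fs ℕ) →ₗ[ℂ] ℂ)
    (W : L → ℕ → ℤ → ℕ → S (p.fs ℕ) → ℂ) {X : Set (S (p.fs ℕ))} (hX : Submodule.span ℂ X = ⊤)
    (ode : ∀ x ∈ X, ∀ j (m : ℕ), m * Z j m x = ∑ q ∈ antidiagonal m, ∑ l ∈ T,
      (-1) ^ q.2 * q.2.factorial / b l ^ q.2 * W l q.2 j q.1 x)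
    (h0 : ∀ x ∈ X, ∀ l ∈ T, ∀ j m, W l 0 j m x = 0)
    (grr : ∀ x ∈ X, ∀ l ∈ T, ∀ n j m, W l (n + 1) j m x =
      ∑ q ∈ antidiagonal (n + 2), (bernoulli q.1 : ℚ) / (q.1.factorial * q.2.factorial) *
        uc ac (Ring.inverse (cI T b u)) e Z q.1 (u l ^ q.2) j m x +
      1 / 2 * ∑ q ∈ antidiagonal n, ∑ a ∈ antidiagonal q.1,
        (-1) ^ a.1 * (bernoulli (q.1 + 2) : ℚ) / ((q.1 + 2).factorial * q.2.factorial) *
          ∑ s ∈ antidiagonal m, Z (j - 1) s.1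
            (nd ac a.1 a.2 (u l ^ q.2 * PowerSeries.coeff s.2 (cI T b u)) * x)) :
    Rec ac T b u (kap T b u e) Z := fun j m x => by
  refine ext_rec hX (fun x hx => ?_) x
  let F : ℕ → ℕ → ℕ → ℂ := fun t s k =>
    -(if k = 0 then 0 else ∑ l ∈ T, ∑ q ∈ antidiagonal (k + 1),
      co b k l q * e q.1 (u l ^ q.2) s) * Z j t x -
    Z (j - 1) t (cm ac T b u (PowerSeries.coeff s (cI T b u)) k * x) -
    Z (j + 1) t (con2 _ (fm ac T b u (PowerSeries.coeff s (Ring.inverse (cI T b u))) k) x)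
  have k1 : ∀ s k, ∑ l ∈ T, (-1) ^ k * k.factorial / b l ^ k * W l k j s x =
      ∑ t ∈ antidiagonal s, F t.1 t.2 k - Z j s (fr.q0 (aK ac T b u (fun _ => True) k) x) := by
    rintro s (_ | k)
    · simp [F, cm, fm, q0_aK, sum_eq_zero fun l hl => h0 x hx l hl j s]
    have hi : ∀ t (c : Prop) [Decidable c] Q, Z (j + 1) t (con2 _ (if c then Q else 0) x) =
        if c then Z (j + 1) t (con2 _ Q x) else 0 := fun t c _ Q => by split_ifs <;> simp
    rw [sum_congr rfl fun l hl => by rw [grr x hx l hl]]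
    simp only [F, fm, cm, q0_aK, k.succ_ne_zero, if_false, uc, map_sum, map_smul, map_neg, map_sub,
      LinearMap.sum_apply, LinearMap.smul_apply, smul_eq_mul, neg_mul, sum_mul, smul_mul_assoc,
      sum_sub_distrib, sum_neg_distrib, mul_add, mul_sub, mul_sum, sum_add_distrib, ite_sum_zero,
      sum_comm (s := antidiagonal s), hi, co, op]
    ring_nf
  rw [ode x hx]
  simp only [k1]
  rw [sum_sub_distrib, tri F, ← sum_sub_distrib]
  refine sum_congr rfl fun q _ => ?_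
  simp only [F, sum_sub_distrib, qm_aT, Frame.q1, cas_aT, kap, map_sub, map_smul, smul_eq_mul,
    LinearMap.mulLeft_apply, LinearMap.sum_apply, map_sum, sum_mul, neg_mul, sum_neg_distrib]
  rw [← Nat.sum_antidiagonal_swap]
  simp only [co, Prod.fst_swap, Prod.snd_swap]
  ring

end rc

end Vale.Agent.P269.Qrr
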