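import Vale.Agent.P269.Qrr.Stm
import Vale.Agent.P269.PA.Cop
import Vale.Agent.P269.Bas.Supp

/-!
# Quantum Riemann-Roch: basic facts on correlators
-/

set_option linter.unusedSectionVars false

namespace Vale.Agent.P269

open P291Z Set Function Topology Filter Fock PowerSeries

namespace Qrr

section mon

variable {V : Type} [AddCommGroup V] [Module ℂ V] {p : Par ℂ V} {n : ℕ}

theorem monF_eq (f : Fin n → ℕ × V) : monF p f = PA.mon p (List.ofFn f) := by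
  rw [PA.mon, List.map_ofFn]; rfl

theorem monF_get (l : List (ℕ × V)) : monF p l.get = PA.mon p l := by
  rw [monF_eq, List.ofFn_get]

theorem monF_zero (f : Fin 0 → ℕ × V) : monF p f = 1 := rfl

theorem monF_succ (f : Fin (n + 1) → ℕ × V) :
    monF p f = ι _ (Finsupp.single (f 0).1 (f 0).2) * monF p (Fin.tail f) := by
  rw [monF, List.ofFn_succ, List.prod_cons]; rfl

theorem monF_cons (x : ℕ × V) (f : Fin n → ℕ × V) :
    monF p (Fin.cons x f) = ι _ (Finsupp.single x.1 x.2) * monF p f := monF_succ _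

theorem monF_ind {P : Fock.S (p.fs ℕ) → Prop} (h : ∀ n (f : Fin n → ℕ × V), P (monF p f))
    (hadd : ∀ x y, P x → P y → P (x + y)) (hsmul : ∀ (a : ℂ) x, P x → P (a • x)) (y) : P y :=
  PA.mon_ind (fun l => monF_get (p := p) l ▸ h _ _) hadd hsmul y

variable (p) in
theorem monF_span : Submodule.span ℂ {x | ∃ n, ∃ f : Fin n → ℕ × V, x = monF p f} = ⊤ :=
  eq_top_iff.2 fun y _ => monF_ind (P := (· ∈ Submodule.span ℂ _))
    (fun n f => Submodule.subset_span (by exact ⟨n, f, rfl⟩))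
    (fun _ _ => add_mem) (fun a _ => Submodule.smul_mem _ a) y

end mon

variable {J L β : Type} {Θ : MvPolynomial (J × ℕ) ℂ} {T : Finset β}
  {Θ₁ Θ₂ : β → MvPolynomial (J × ℕ) ℂ}

theorem Cop.symm (h : Cop Θ T Θ₁ Θ₂) : Cop Θ T Θ₂ Θ₁ := fun A _ _ c c' a b => by
  simp only [mul_comm (c _), h A c' c b a, mul_comm (evC c' _)]

theorem cop_th (T : Finset L) (b : L → ℂ) (y : L → J) (m : ℕ) : Cop (th T b y m)
    (Finset.HasAntidiagonal.antidiagonal m) (fun t => th T b y t.1) fun t => th T b y t.2 :=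
  fun _ _ _ c c' h h' => by
    rw [evC_th T b y fun j => by rw [map_mul, h, h', mul_one], thC_mul T b y h h', coeff_mul]
    simp only [evC_th T b y h, evC_th T b y h']

theorem cop_one : Cop (1 : MvPolynomial (J × ℕ) ℂ) {()} (fun _ => 1) fun _ => 1 :=
  fun _ _ _ _ _ _ _ => by simp

end Qrr

variable {S Λ R J K : Type} [Fintype S] [Fintype Λ] [Fintype R] [Fintype J] [Fintype K]

theorem Wt.fsF_ok {F : Fam S Λ R J K} (Θ) {n : ℕ} (f : Fin n → ℕ × H (F.X F.cone)) (u) :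
    ∀ x ∈ F.fsF _ Θ f, x.Ok F u := by
  simp only [Wt.fsF, List.mem_cons, List.mem_flatten, List.mem_ofFn]
  rintro x (rfl | rfl | ⟨_, ⟨s, rfl⟩, h⟩)
  · trivial
  · exact subset_univ _
  rcases List.mem_append.1 h with h | h
  · rw [List.eq_of_mem_replicate h]; trivial
  · rw [List.mem_singleton.1 h]; exact fun _ h => h.1

namespace Fam

variable [DecidableEq R] {F : Fam Empty Λ R J K} {k : ℕ}

theorem Tg.one {F : Fam Empty Empty R J K} (h : F.Tg) (hN : F.Nice 0) (hk : F.Big k) : F.One k :=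
  ⟨hN, ⟨by simp [h.mov], h.E⟩, ⟨Empty.elim, h.B.trans (eq_singleton_iff_unique_mem.2
    ⟨trivial, fun _ _ => Subsingleton.elim _ _⟩)⟩, hk⟩

namespace One

variable (h : F.One k)
include h

theorem good : F.Good := h.nice.toGood

theorem cp : F.Cp := let ⟨_, e⟩ := h.pt; cp_of_subsingleton (e ▸ subsingleton_singleton)

theorem corP_ev (hW : St.Well) {n : ℕ} {P : AM Λ R J (Fin n ⊕ Fin 0) (Fin 0) → Prop} {d : R → ℤ}
    {j : ℤ} (hP : F.Sel k (j + 1) d 0 P) (Θ) (f : Fin n → ℕ × H (F.X F.cone)) :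
    ∀ᶠ D in atTop, F.corP k P Θ d j f =
      F.intg (F.vir (Fin 0) k D (j + 1) d 0) P (F.fsF _ Θ f) := by
  have e : (fun s => (0 : Fin n ⊕ Fin 0 → ℕ) s • (0 : J → ℕ)) = 0 := funext fun _ => smul_zero _
  have := hW F 0 k (j + 1) d 0 P (F.fsF _ Θ f) h.nice h.cp h.big (e ▸ hP) (Wt.fsF_ok Θ f _)
    fun q => q.elim0
  rwa [e] at this

theorem exOk_exT (Θ) : F.ExOk k (F.exT Θ) := PA.exOk St.selC h.good h.big Θ

theorem exOk_conn (Θ) : F.ExOk k ⟨fun _ _ m => m.Conn, Θ, univ, 1⟩ :=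
  (St.selC F k Θ univ 1 h.good h.big (subset_univ _) (one_mem _)).2

theorem exOk_exN (n Θ) : F.ExOk k (F.exN n Θ) :=
  ⟨fun _ _ _ _ _ _ _ => Sel.of_same fun _ _ a b => ⟨a.conn b.1, b.2⟩,
    fun ν κ ν' κ' a b m => and_congr ((h.exOk_conn Θ).re ν κ ν' κ' a b m)
      (by rw [Nat.card_congr (a.sumCongr (b.prodCongr (.refl Bool)))]), subset_univ _, one_mem _⟩

theorem ser0_monF (hS : St.Spec) {P : ∀ ν κ : Type, AM Λ R J ν κ → Prop} {Θ}
    (he : F.ExOk k ⟨P, Θ, univ, 1⟩) {V : Type} [AddCommGroup V] [Module ℂ V] {p : Par ℂ V}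
    {i : V →ₗ[ℂ] H (F.X F.cone)} (hi : IsEv p (parH _) i) (d j) {n : ℕ} (f : Fin n → ℕ × V) :
    F.ser0 k ⟨P, Θ, univ, 1⟩ p i d j (Qrr.monF p f) =
      F.corP k (P _ _) Θ d j (Prod.map id i ∘ f) := by
  rw [Qrr.monF_eq, PA.ser0_mon hS h.nice h.cp h.big he subset_rfl hi, List.map_ofFn, cor_ofFnP]

theorem ser0_exT (hS : St.Spec) (Θ) {V : Type} [AddCommGroup V] [Module ℂ V] {p : Par ℂ V}
    {i : V →ₗ[ℂ] H (F.X F.cone)} (hi : IsEv p (parH _) i) (d j) {n : ℕ} (f : Fin n → ℕ × V) :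
    F.ser0 k (F.exT Θ) p i d j (Qrr.monF p f) =
      F.corP k (fun _ => True) Θ d j (Prod.map id i ∘ f) :=
  h.ser0_monF hS (h.exOk_exT Θ) hi d j f

theorem ser0_exN (hS : St.Spec) (n₁ Θ) {V : Type} [AddCommGroup V] [Module ℂ V] {p : Par ℂ V}
    {i : V →ₗ[ℂ] H (F.X F.cone)} (hi : IsEv p (parH _) i) (d j) {n : ℕ} (f : Fin n → ℕ × V) :
    F.ser0 k (F.exN n₁ Θ) p i d j (Qrr.monF p f) =
      if n = n₁ then F.corP k (fun m => m.Conn) Θ d j (Prod.map id i ∘ f) else 0 := by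
  have e : Nat.card (Ch.Mk (Fin n ⊕ Fin 0) (Fin 0)) = n := by simp
  refine (h.ser0_monF hS (h.exOk_exN n₁ Θ) hi d j f).trans ?_
  split_ifs with a
  · simp only [e.trans a, and_true]
  · exact inv_eq_zero fun _ _ => eq_empty_of_forall_notMem fun _ ⟨_, _, b⟩ => a (e ▸ b.2)

end One

end Fam

end Vale.Agent.P269
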