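import Vale.Agent.P269.Qrr.Defs
import Vale.Agent.P269.Grr.Alg

/-!
# Quantum Riemann-Roch: twisting classes and the Chern character of a total Chern class
-/

namespace Vale.Agent.P269.Qrr

open Fock Finset

namespace AlgA

open PowerSeries

variable {A A' : Type*} [CommRing A] [CommRing A'] {c c' : PowerSeries A}

theorem mul_inv (h : constantCoeff c = 1) : c * c.invOfUnit 1 = 1 :=
  mul_invOfUnit _ _ (by rw [h, Units.val_one])

theorem inv_eq (h : constantCoeff c = 1) (h' : c * c' = 1) : c.invOfUnit 1 = c' := by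
  linear_combination c' * mul_inv h - c.invOfUnit 1 * h'

theorem cc_inv (c : PowerSeries A) : constantCoeff (c.invOfUnit 1) = 1 := by
  rw [constantCoeff_invOfUnit, inv_one, Units.val_one]

theorem inv_mul (h : constantCoeff c = 1) (h' : constantCoeff c' = 1) :
    (c * c').invOfUnit 1 = c.invOfUnit 1 * c'.invOfUnit 1 :=
  inv_eq (by rw [map_mul, h, h', mul_one])
    (by linear_combination (c' * c'.invOfUnit 1) * mul_inv h + mul_inv h')

theorem inv_inv (h : constantCoeff c = 1) : (c.invOfUnit 1).invOfUnit 1 = c :=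
  inv_eq (cc_inv c) (by rw [mul_comm, mul_inv h])

theorem cc_rescale (a : A) (c : PowerSeries A) :
    constantCoeff (rescale a c) = constantCoeff c := by
  rw [← coeff_zero_eq_constantCoeff_apply, coeff_rescale, pow_zero, one_mul,
    coeff_zero_eq_constantCoeff_apply]

theorem inv_rescale (a : A) (h : constantCoeff c = 1) :
    (rescale a c).invOfUnit 1 = rescale a (c.invOfUnit 1) :=
  inv_eq (by rw [cc_rescale, h]) (by rw [← map_mul, mul_inv h, map_one])

theorem map_rescale (φ : A →+* A') (a : A) (c : PowerSeries A) :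
    PowerSeries.map φ (rescale a c) = rescale (φ a) (PowerSeries.map φ c) := by
  ext k
  simp only [coeff_map, coeff_rescale, map_mul, map_pow]

theorem der_rescale (a : A) (c : PowerSeries A) :
    X * derivative A (rescale a c) = rescale a (X * derivative A c) := by
  ext k
  rw [coeff_rescale]
  cases k with
  | zero => simp
  | succ k =>
    rw [coeff_succ_X_mul, coeff_succ_X_mul, coeff_derivative, coeff_derivative, coeff_rescale,
      mul_assoc]

/-- The logarithmic derivative. -/
noncomputable def ld (c : PowerSeries A) : PowerSeries A := X * derivative A c * c.invOfUnit 1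

theorem ld_rescale (a : A) (h : constantCoeff c = 1) : ld (rescale a c) = rescale a (ld c) := by
  rw [ld, ld, der_rescale, inv_rescale a h, ← map_mul]

theorem ld_mul (h : constantCoeff c = 1) (h' : constantCoeff c' = 1) :
    ld (c * c') = ld c + ld c' := by
  rw [ld, ld, ld, inv_mul h h', Derivation.leibniz, smul_eq_mul, smul_eq_mul]
  linear_combination (X * derivative A c' * c'.invOfUnit 1) * mul_inv h +
    (X * derivative A c * c.invOfUnit 1) * mul_inv h'

theorem ld_one : ld (1 : PowerSeries A) = 0 := by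
  rw [ld, Derivation.map_one_eq_zero, mul_zero, zero_mul]

theorem ld_inv (h : constantCoeff c = 1) : ld (c.invOfUnit 1) = -ld c := by
  have h1 := ld_mul h (cc_inv c)
  rw [mul_inv h, ld_one] at h1
  linear_combination -h1

theorem ld_spec (h : constantCoeff c = 1) : X * derivative A c = c * ld c := by
  rw [ld]
  linear_combination -(X * derivative A c) * mul_inv h

theorem ld_prod {L : Type} (T : Finset L) {g : L → PowerSeries A}
    (h : ∀ l, constantCoeff (g l) = 1) : ld (∏ l ∈ T, g l) = ∑ l ∈ T, ld (g l) := by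
  classical
  induction T using Finset.induction_on with
  | empty => simpa using ld_one
  | insert a s ha ih =>
    rw [prod_insert ha, sum_insert ha, ld_mul (h a) (by simp [map_prod, h]), ih]

theorem cc_lin (u : A) : constantCoeff (1 + C u * X) = 1 := by simp

theorem rescale_lin (a u : A) : rescale a (1 + C u * X) = 1 + C (a * u) * X := by
  ext k
  rw [coeff_rescale]
  rcases k with _ | _ | k <;> simp [coeff_one]

end AlgA

section th

variable {A A' : Type*} [CommRing A] [Algebra ℂ A] [CommRing A'] [Algebra ℂ A'] {J L : Type}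

/-- The Chern character, without the rank, of a virtual bundle with total Chern class `c`. -/
noncomputable def chT (c : PowerSeries A) : PowerSeries A :=
  Grr.hd (fun n => (-1) ^ (n + 1) / n.factorial)
    (PowerSeries.X * PowerSeries.derivative A c * c.invOfUnit 1)

/-- The twisting class `∏ c_(ε / b l) (E_(f l))⁻¹` for the total Chern classes `c j` of `E_j`. -/
noncomputable def thC (T : Finset L) (b : L → ℂ) (f : L → J) (c : J → PowerSeries A) :
    PowerSeries A :=
  ∏ l ∈ T, (PowerSeries.rescale (algebraMap ℂ A (b l)⁻¹) (c (f l))).invOfUnit 1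

/-- The universal total Chern classes. -/
noncomputable def cU (j : J) : PowerSeries (MvPolynomial (J × ℕ) ℂ) :=
  PowerSeries.mk fun m => if m = 0 then 1 else MvPolynomial.X (j, m)

/-- Evaluation of a polynomial in Chern classes. -/
noncomputable def evC (c : J → PowerSeries A) : MvPolynomial (J × ℕ) ℂ →ₐ[ℂ] A :=
  MvPolynomial.aeval fun x => PowerSeries.coeff x.2 (c x.1)

/-- The universal twisting class of degree `m`. -/
noncomputable def th (T : Finset L) (b : L → ℂ) (f : L → J) (m : ℕ) : MvPolynomial (J × ℕ) ℂ :=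
  PowerSeries.coeff m (thC T b f cU)

variable (T : Finset L) (b : L → ℂ) (f : L → J) {c c' : J → PowerSeries A}

theorem chT_eq (c : PowerSeries A) :
    chT c = Grr.hd (fun n => (-1) ^ (n + 1) / n.factorial) (AlgA.ld c) := rfl

theorem constantCoeff_cU (j : J) : PowerSeries.constantCoeff (cU j) = 1 := by
  rw [← PowerSeries.coeff_zero_eq_constantCoeff_apply, cU, PowerSeries.coeff_mk, if_pos rfl]

theorem constantCoeff_thC (c : J → PowerSeries A) :
    PowerSeries.constantCoeff (thC T b f c) = 1 := by
  rw [thC, map_prod]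
  exact prod_eq_one fun l _ => AlgA.cc_inv _

theorem thC_one : thC T b f (fun _ => (1 : PowerSeries A)) = 1 :=
  prod_eq_one fun l _ => by
    rw [map_one]
    exact AlgA.inv_eq (map_one _) (mul_one _)

theorem map_chT (φ : A →ₐ[ℂ] A') (c : PowerSeries A) :
    PowerSeries.map (φ : A →+* A') (chT c) = chT (PowerSeries.map (φ : A →+* A') c) := by
  rw [chT, chT, Grr.map_hd, map_mul, map_mul, PowerSeries.map_X, Grr.map_derivative',
    Grr.map_invOfUnit_one]

theorem map_thC (φ : A →ₐ[ℂ] A') : PowerSeries.map (φ : A →+* A') (thC T b f c) =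
    thC T b f fun j => PowerSeries.map (φ : A →+* A') (c j) := by
  rw [thC, thC, map_prod]
  refine prod_congr rfl fun l _ => ?_
  rw [Grr.map_invOfUnit_one, AlgA.map_rescale, RingHom.coe_coe, AlgHom.commutes]

theorem map_cU (hc : ∀ j, PowerSeries.constantCoeff (c j) = 1) (j : J) :
    PowerSeries.map (evC c : _ →+* A) (cU j) = c j := by
  ext m
  rw [PowerSeries.coeff_map, cU, PowerSeries.coeff_mk]
  split_ifs with h
  · rw [h, map_one, PowerSeries.coeff_zero_eq_constantCoeff_apply, hc]
  · rw [RingHom.coe_coe, evC, MvPolynomial.aeval_X]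

theorem evC_th (hc : ∀ j, PowerSeries.constantCoeff (c j) = 1) (m : ℕ) :
    evC c (th T b f m) = PowerSeries.coeff m (thC T b f c) := by
  have h := congrArg (PowerSeries.coeff m) (map_thC T b f (c := cU) (evC c))
  simp only [map_cU hc] at h
  exact h

theorem evC_chT (hc : ∀ j, PowerSeries.constantCoeff (c j) = 1) (j : J) (n : ℕ) :
    evC c (PowerSeries.coeff n (chT (cU j))) = PowerSeries.coeff n (chT (c j)) := by
  have h := congrArg (PowerSeries.coeff n) (map_chT (evC c) (cU j))
  rw [map_cU hc] at h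
  exact h

theorem map_evC (φ : A →ₐ[ℂ] A') (Θ : MvPolynomial (J × ℕ) ℂ) :
    φ (evC c Θ) = evC (fun j => PowerSeries.map (φ : A →+* A') (c j)) Θ := by
  have h : φ.comp (evC c) = evC fun j => PowerSeries.map (φ : A →+* A') (c j) := by
    refine MvPolynomial.algHom_ext fun x => ?_
    rw [AlgHom.comp_apply, evC, evC, MvPolynomial.aeval_X, MvPolynomial.aeval_X,
      PowerSeries.coeff_map, RingHom.coe_coe]
  exact DFunLike.congr_fun h Θ

theorem th_zero : th T b f 0 = 1 := by
  rw [th, PowerSeries.coeff_zero_eq_constantCoeff_apply, constantCoeff_thC]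

theorem eval_th (m : ℕ) : MvPolynomial.eval (fun x => if x.2 = 0 then 1 else 0) (th T b f m) =
    if m = 0 then 1 else 0 := by
  have h := evC_th T b f (c := fun _ => (1 : PowerSeries ℂ)) (fun _ => map_one _) m
  rw [thC_one, PowerSeries.coeff_one, evC] at h
  simp only [PowerSeries.coeff_one] at h
  exact h

theorem chT_mul {c c' : PowerSeries A} (h : PowerSeries.constantCoeff c = 1)
    (h' : PowerSeries.constantCoeff c' = 1) : chT (c * c') = chT c + chT c' := by
  rw [chT_eq, chT_eq, chT_eq, AlgA.ld_mul h h', Grr.hd_add]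

theorem chT_inv {c : PowerSeries A} (h : PowerSeries.constantCoeff c = 1) :
    chT (c.invOfUnit 1) = -chT c := by
  rw [chT_eq, chT_eq, AlgA.ld_inv h, Grr.hd_neg]

theorem chP_eq {r : ℕ} {P : Polynomial A} (h : Ch.Mon r P) :
    Grr.chP r P = (r : PowerSeries A) + chT ((P.reverse : Polynomial A) : PowerSeries A) := by
  rcases subsingleton_or_nontrivial A with _ | _
  · exact PowerSeries.ext fun _ => Subsingleton.elim _ _
  have hd : P.natDegree = r :=
    le_antisymm h.le (Polynomial.le_natDegree_of_ne_zero (by rw [h.coeff]; exact one_ne_zero))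
  have h0 : PowerSeries.constantCoeff ((P.reverse : Polynomial A) : PowerSeries A) = 1 := by
    rw [← PowerSeries.coeff_zero_eq_constantCoeff_apply, Polynomial.coeff_coe,
      Polynomial.coeff_zero_reverse, h.monic.leadingCoeff]
  have h1 : Grr.psum r P = (r : PowerSeries A) -
      PowerSeries.rescale (-1) (AlgA.ld ((P.reverse : Polynomial A) : PowerSeries A)) := by
    rw [Grr.psum, Grr.AlgP.revS_eq h, ← AlgA.ld_rescale _ h0, Polynomial.reverse, hd, AlgA.ld]
  ext k
  have h2 : ((-1 : A)) ^ k = algebraMap ℂ A ((-1) ^ k) := by rw [map_pow, map_neg, map_one]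
  have h3 : (k.factorial : ℂ)⁻¹ • PowerSeries.coeff k (r : PowerSeries A) =
      PowerSeries.coeff k (r : PowerSeries A) := by
    rw [← map_natCast (PowerSeries.C (R := A)), PowerSeries.coeff_C]
    split_ifs with hk
    · simp [hk]
    · rw [smul_zero]
  rw [Grr.chP, h1, chT_eq, map_add, Grr.coeff_hd, Grr.coeff_hd, map_sub, smul_sub, h3,
    PowerSeries.coeff_rescale, h2, ← Algebra.smul_def, smul_smul, sub_eq_add_neg, ← neg_smul]
  congr 2
  ring

theorem thC_mul (hc : ∀ j, PowerSeries.constantCoeff (c j) = 1)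
    (hc' : ∀ j, PowerSeries.constantCoeff (c' j) = 1) :
    thC T b f (fun j => c j * c' j) = thC T b f c * thC T b f c' := by
  rw [thC, thC, thC, ← prod_mul_distrib]
  refine prod_congr rfl fun l _ => ?_
  rw [map_mul, AlgA.inv_mul (by rw [AlgA.cc_rescale, hc]) (by rw [AlgA.cc_rescale, hc'])]

theorem thC_lin {A : Type} [CommRing A] [Algebra ℂ A] (u : J → A) :
    thC T b f (fun j => 1 + PowerSeries.C (u j) * PowerSeries.X) =
      Ring.inverse (cI T b fun l => u (f l)) := by
  have h : (cI T b fun l => u (f l)) *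
      thC T b f (fun j => 1 + PowerSeries.C (u j) * PowerSeries.X) = 1 := by
    rw [cI, thC, ← prod_mul_distrib]
    refine prod_eq_one fun l _ => ?_
    rw [AlgA.rescale_lin, Algebra.smul_def]
    exact AlgA.mul_inv (AlgA.cc_lin _)
  have h' := Ring.mul_inverse_cancel _ (IsUnit.of_mul_eq_one _ h)
  linear_combination Ring.inverse (cI T b fun l => u (f l)) * h -
    thC T b f (fun j => 1 + PowerSeries.C (u j) * PowerSeries.X) * h'

theorem thC_inv {A : Type} [CommRing A] [Algebra ℂ A] (u : J → A) :
    thC T b f (fun j => (1 + PowerSeries.C (u j) * PowerSeries.X).invOfUnit 1) =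
      cI T b fun l => u (f l) := by
  rw [cI, thC]
  refine prod_congr rfl fun l _ => ?_
  rw [← AlgA.inv_rescale _ (AlgA.cc_lin _), AlgA.rescale_lin, AlgA.inv_inv (AlgA.cc_lin _),
    Algebra.smul_def]

theorem ld_thC (hc : ∀ j, PowerSeries.constantCoeff (c j) = 1) : AlgA.ld (thC T b f c) =
    -∑ l ∈ T, PowerSeries.rescale (algebraMap ℂ A (b l)⁻¹) (AlgA.ld (c (f l))) := by
  rw [thC, AlgA.ld_prod T fun l => AlgA.cc_inv _, ← sum_neg_distrib]
  refine sum_congr rfl fun l _ => ?_
  rw [AlgA.ld_inv (by rw [AlgA.cc_rescale, hc]), AlgA.ld_rescale _ (hc _)]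

theorem thC_ode (hc : ∀ j, PowerSeries.constantCoeff (c j) = 1) (m : ℕ) :
    (m : ℂ) • PowerSeries.coeff m (thC T b f c) = ∑ q ∈ antidiagonal m, ∑ l ∈ T,
      ((-1) ^ q.2 * q.2.factorial / b l ^ q.2 : ℂ) •
        (PowerSeries.coeff q.2 (chT (c (f l))) * PowerSeries.coeff q.1 (thC T b f c)) := by
  rw [← Grr.coeff_X_mul_derivative, AlgA.ld_spec (constantCoeff_thC T b f c), ld_thC T b f hc,
    PowerSeries.coeff_mul]
  refine sum_congr rfl fun q _ => ?_
  rw [map_neg, map_sum, ← sum_neg_distrib, mul_sum]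
  refine sum_congr rfl fun l _ => ?_
  have h : ((-1) ^ q.2 * q.2.factorial / b l ^ q.2 : ℂ) * ((-1) ^ (q.2 + 1) / q.2.factorial) =
      -(b l)⁻¹ ^ q.2 := by
    have h1 : (q.2.factorial : ℂ) ≠ 0 := Nat.cast_ne_zero.2 q.2.factorial_ne_zero
    have h2 : ((-1 : ℂ)) ^ q.2 * (-1) ^ q.2 = 1 := by rw [← mul_pow]; simp
    have h3 := mul_inv_cancel₀ h1
    rw [inv_pow, div_eq_mul_inv, div_eq_mul_inv, pow_succ]
    linear_combination (-(b l ^ q.2)⁻¹ * (q.2.factorial * (q.2.factorial : ℂ)⁻¹)) * h2 -
      (b l ^ q.2)⁻¹ * h3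
  rw [chT_eq, Grr.coeff_hd, smul_mul_assoc, smul_smul, h, PowerSeries.coeff_rescale, ← map_pow,
    neg_smul, Algebra.smul_def]
  ring

theorem th_ode (m : ℕ) : (m : ℂ) • th T b f m = ∑ q ∈ antidiagonal m, ∑ l ∈ T,
    ((-1) ^ q.2 * q.2.factorial / b l ^ q.2 : ℂ) •
      (PowerSeries.coeff q.2 (chT (cU (f l))) * th T b f q.1) :=
  thC_ode T b f constantCoeff_cU m

theorem coeff_zero_chT (c : PowerSeries A) : PowerSeries.coeff 0 (chT c) = 0 := by
  rw [chT, Grr.coeff_hd]
  simp

end th

end Vale.Agent.P269.Qrr
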