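import Vale.Agent.P269.Fg.Unv
import Vale.Agent.P269.Qrr.Stm
import Vale.Agent.P269.Glu.VrA
import Vale.Agent.P269.Map.Gy
import Vale.Agent.P269.Grr.ChN

/-!
# The nodes of the universal curve over a part of a chart
-/

set_option linter.unusedSectionVars false

namespace Vale.Agent.P269

open P291Z Set Function Topology Filter Holo Base Module

section fam

variable {ι : Type} [Fintype ι] {M : ι → ℕ} {o : ι} {P : Type} [NormedAddCommGroup P]
  [NormedSpace ℂ P] [FiniteDimensional ℂ P] {T : Set P} {C : P → Set (V M)} {x : P} {c : V M}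

/-- the nodes have codimension two in the total space -/
theorem Base.NdAt.mfdAt_nod (hx : x ∈ T) (hf : LocFam o (fun y : T => C y) Subtype.val ⟨x, hx⟩)
    {τ : P → ℂ} (h : NdAt o (fun y : T => C y) Subtype.val ⟨x, hx⟩ c τ) {N : ℕ}
    (hm : MfdAt (tot T C) (N + 2) (x, c)) :
    MfdAt {z | z ∈ tot T C ∧ IsNode o (C z.1) z.2} N (x, c) := by
  have := FiniteDimensional.complete ℂ P
  obtain ⟨σ, rfl, h2, h3, h4⟩ := id h
  have n0 := hf.ne_zero.self_of_nhds _ h.mem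
  obtain ⟨ρ, r1, r2, r3, r4⟩ := h4.exists_mem_iff continuous_subtype_val.continuousAt n0 hf.cone
  have arc : ∀ e : ℂ × ℂ, e.1 * e.2 = 0 → e ∈ Submodule.span ℂ {b | ∃ γ,
      Arc (tot T C) (x, σ (x, 0)) γ ∧ deriv (fun ε => (ρ (γ ε)).2) 0 = b} := fun e he => by
    have a : AnalyticAt ℂ (fun ε : ℂ => ε • e) 0 := by fun_prop
    have t : Tendsto (fun ε : ℂ => ε • e) (𝓝 0) (𝓝 0) := by simpa using a.continuousAt.tendsto
    refine Submodule.subset_span ⟨fun ε => (x, σ (x, ε • e)), ⟨analyticAt_const.prod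
      (h4.an0.comp_of_eq a (zero_smul _ _)), by rw [zero_smul], (t.eventually h4.mem0).mono
        fun ε k => ⟨hx, k ?_⟩⟩, ?_⟩
    · change ε * e.1 * (ε * e.2) = τ x
      rw [mul_mul_mul_comm, he, mul_zero]
      exact h3.symm
    · have k : (fun ε : ℂ => (ρ (x, σ (x, ε • e))).2) =ᶠ[𝓝 0] fun ε => ε • e :=
        ((tendsto_const_nhds.prodMk_nhds (tendsto_const_nhds.prodMk_nhds t)).eventually r3).mono
          fun ε k => by simpa using congrArg Prod.snd k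
      rw [k.deriv_eq]
      simpa using ((hasDerivAt_id (0 : ℂ)).smul_const e).deriv
  refine hm.sub (Φ := fun z => (ρ z).2) (analyticAt_snd.comp r1) (congrArg Prod.snd r2)
    (fun b _ => ?_) ?_ (by simp)
  · rw [show b = (b.1, 0) + (0, b.2) by simp]
    exact add_mem (arc _ (mul_zero _)) (arc _ (zero_mul _))
  · have t := r1.continuousAt.tendsto
    rw [r2] at t
    have t1 : Tendsto (fun q : T × V M => (q.1, (ρ (q.1.1, q.2)).2)) (𝓝 (⟨x, hx⟩, σ (x, 0)))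
        (𝓝 (⟨x, hx⟩, 0)) := continuousAt_fst.tendsto.prodMk_nhds ((continuous_snd.tendsto _).comp
          (t.comp (tendsto_pm continuous_subtype_val.continuousAt _)))
    filter_upwards [ev_tot hx (r4.and ((t1.eventually (h4.eventually_smAt h2 h3 hf)).and
      (continuousAt_fst.eventually (hf.eventually.and (h4.eventually_node h3 hf))))),
      continuousAt_fst.eventually h2.eventually_analyticAt,
      eventually_all.2 fun i => (((continuous_apply i).comp continuous_fst).tendsto _ |>.comp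
        t).eventually_ne one_ne_zero] with z e a s
    refine and_congr_right fun hz => ?_
    obtain ⟨e1, e2, e3, e4⟩ := e hz.1
    obtain ⟨e5, e6⟩ := e1.1 hz.2
    refine ⟨fun k => by_contra fun k' => ((e2 e5 k').smul e3.cone s).not_isNode e3 (e6 ▸ k),
      fun k => ?_⟩
    rw [k] at e5 e6
    have e7 : NdAt o (fun y : T => C y) Subtype.val ⟨z.1, hz.1⟩ (σ (z.1, 0)) τ :=
      ⟨σ, rfl, a, e5.symm.trans (mul_zero _), e4⟩
    exact e6 ▸ (e7.smul e3.cone s).isNode e3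

/-- the tangent planes at the nodes form a closed family -/
theorem Base.isClosed_Tg [DecidableEq ι] {T Y : Type} [TopologicalSpace T] [TopologicalSpace Y]
    {C : T → Set (V M)} {π : T → P} (hf : ∀ t, LocFam o C π t) {t : Y → T} {c : Y → V M}
    (ct : Continuous t) (cc : Continuous c) (hn : ∀ y, IsNode o (C (t y)) (c y)) :
    IsClosed {z : Y × V M | z.2 ∈ Ch.Psi.Tg (C (t z.1)) (c z.1)} := by
  refine Ch.Psi.isClosed_span (κ := Option (Option ι))
    (B := fun y => Ch.Psi.Tg (C (t y)) (c y)) fun x => ?_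
  have hm : ∀ y, c y ∈ C (t y) := fun y =>
    let ⟨_, _, a, _, b, _⟩ := hn y
    b ▸ a.mem.self_of_nhds
  have ne := fun y => (hf _).nod.ne_zero _ (hm y)
  obtain ⟨τ, σ, h1, h2, h3, h4⟩ := ((hf _).chart _ (hm x)).resolve_left
    fun h => h.not_isNode (hf _) (hn x)
  obtain ⟨ζ, hζ⟩ := exists_lin_one (ne x)
  have cp : ContinuousAt (fun y => ((π (t y), 0) : P × ℂ × ℂ)) x :=
    ((hf _).cont.self_of_nhds.comp ct.continuousAt).prodMk continuousAt_const
  have c1 : ∀ i, ContinuousAt (fun y => ζ i (σ (π (t y), 0) i)) x := fun i =>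
    (ζ i).continuous.continuousAt.comp (continuousAt_pi.1 (h4.an.continuousAt.comp_of_eq cp rfl) i)
  have c2 : ∀ i, ζ i (σ (π (t x), 0) i) ≠ 0 := fun i => by
    rw [h1, hζ]
    exact one_ne_zero
  let s : Y → ι → ℂ := fun y i => ζ i (c y i) / ζ i (σ (π (t y), 0) i)
  have cs : ContinuousAt s x := continuousAt_pi.2 fun i =>
    ((ζ i).continuous.comp ((continuous_apply i).comp cc)).continuousAt.div (c1 i) (c2 i)
  have s1 : s x = 1 := funext fun i => by
    simp only [s, h1]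
    exact div_self (hζ i ▸ one_ne_zero)
  let D : ℂ × ℂ → Y → V M := fun e y => s y • fderiv ℂ σ (π (t y), 0) (0, e)
  have cD : ∀ e, ContinuousAt (D e) x := fun e => tendsto_smul cs
    ((h4.an.fderiv.continuousAt.comp_of_eq cp rfl).clm_apply continuousAt_const)
  have ce : ContinuousAt (fun y => Grr.ChNp.fr₂ (c y) (D (1, 0) y) (D (0, 1) y)) x := by
    refine continuousAt_pi.2 ?_
    rintro (_ | _ | i)
    exacts [cD _, cD _, Ch.Psi.continuousAt_single cc.continuousAt i]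
  have li : LinearIndependent ℂ (Grr.ChNp.fr₂ (c x) (D (1, 0) x) (D (0, 1) x)) := by
    have := (h4.isCross h3 (h1 ▸ ne x o)).2.2.2.2
    rw [deriv_inl h4.an0, deriv_inr h4.an0, fderiv_inr h4.an, fderiv_inr h4.an, h1] at this
    simp only [D, s1, one_smul]
    exact Grr.ChNp.li_fr₂ (ne x) this
  refine ⟨_, ce, li, ?_⟩
  have t1 : Tendsto (fun y => (t y, c y)) (𝓝 x) (𝓝 (t x, σ (π (t x), 0))) :=
    h1 ▸ (ct.prodMk cc).continuousAt
  filter_upwards [ce.tendsto.eventually li.eventually,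
    t1.eventually (NdAt.eventually h4 h2 h3 (hf _)),
    ct.continuousAt.eventually (h4.eventually_node h3 (hf _)),
    eventually_all.2 fun i => (c1 i).eventually_ne (c2 i)] with y a b k d
  obtain ⟨b1, ⟨s', b2⟩, -⟩ := (b (hm y)).resolve_left fun h => h.not_isNode (hf _) (hn y)
  have b3 : c y = s' • σ (π (t y), 0) := b2
  have e : s y = s' := funext fun i => by
    simp only [s, b3, Pi.smul_apply', map_smul, smul_eq_mul]
    exact mul_div_cancel_right₀ _ (d i)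
  have hs : ∀ i, s' i ≠ 0 := ne_of_smul_ne (b3 ▸ ne y)
  obtain ⟨k1, k2, k3, k4, -⟩ := k.isCross b1 fun h => d o (by rw [h, map_zero])
  have m1 := Grr.ChNp.smul_mem (hf _).nod hs (Grr.ChNp.deriv_mem k1 k3)
  have m2 := Grr.ChNp.smul_mem (hf _).nod hs (Grr.ChNp.deriv_mem k2 k4)
  rw [deriv_inl k.an0, fderiv_inr k.an, ← b3, ← e] at m1
  rw [deriv_inr k.an0, fderiv_inr k.an, ← b3, ← e] at m2
  exact Grr.ChNp.Tg_eq_span (hf _).nod (hm y) (hn y) m1 m2 a

end fam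

theorem Holo.MfdAt.finrank_le {A W : Type} [NormedRing A] [NormedAlgebra ℂ A] [NormedAddCommGroup W]
    [NormedSpace ℂ W] [FiniteDimensional ℂ A] [FiniteDimensional ℂ W] {act : A → W → W} {M : Set W}
    [IsAct act M] (ho : Orb.Orb Aˣ (Holo.Sp act M)) {n : ℕ} {x : W} (hm : MfdAt M n x) :
    finrank ℂ A ≤ n :=
  haveI := FiniteDimensional.complete ℂ A
  haveI := FiniteDimensional.complete ℂ W
  IsMfd.finrank_le (ι := Holo.Sp.val) (t := Holo.Sp.of act x hm.1) isExp_expU hm.2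
    (Holo.Sp.holAct _) (Holo.Sp.inf_injective_of_finite (ho.finite_stabilizer _))

namespace Ch

variable {S Λ R J K ν κ ι : Type} [Fintype S] [Fintype Λ] [Fintype R] [Fintype J] [Fintype K]
  [Fintype ν] [Fintype κ] [Fintype ι] [DecidableEq ι] {ch : Ch ι J}

section act

variable {F : Wt S Λ R J} {Z O : Set (ch.WF ν κ Λ)} {s : ch.AU ν κ S} {x : ch.WC ν κ Λ}

theorem isNode_actC (hs : IsUnit s) (h : IsNode ch.o (crv x.1.2) x.2) :
    IsNode ch.o (crv (actC F s x).1.2) (actC F s x).2 := by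
  obtain ⟨h1, h2⟩ := isUnitU_iff.1 hs
  obtain ⟨u, hu⟩ := isUnit_dupF h1
  have e : ∀ c, gV (gU u) c = fun i => s.1.2.1 i (c i) := fun c => by rw [gV_gU, hu]; rfl
  have := h.map' (g := gU u) (C' := crv (actF F s.1 x.1).2)
    fun c hc => (mem_crv_actF h1).2 ⟨c, hc, (e c).symm⟩
  rw [e] at this
  exact this.smul h2 fun _ hc => crv_smul hc h2

theorem ivt_nod (h : Ivt (actF F) Z) : Ivt (actC F) (nod Z) := fun _ hs _ hx =>
  ⟨ivt_unv h _ hs _ hx.1, isNode_actC hs hx.2⟩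

instance isActC_nod [h : IsAct (actF F) Z] : IsAct (actC F) (nod Z) := isActC_of (ivt_nod h.mem)

theorem nod_sub : nod Z ⊆ unv Z := fun _ h => h.1

theorem nod_mono (h : Z ⊆ O) : nod Z ⊆ nod O := fun _ hx => ⟨unv_mono h hx.1, hx.2⟩

theorem nod_eq (h : Z ⊆ O) : nod Z = unv Z ∩ nod O :=
  Set.ext fun _ => ⟨fun a => ⟨a.1, nod_mono h a⟩, fun a => ⟨a.1, a.2.2⟩⟩

theorem nod_inter (U : Set (ch.WF ν κ Λ)) : nod (Z ∩ U) = nod Z ∩ Prod.fst ⁻¹' U :=
  Set.ext fun _ => ⟨fun h => ⟨⟨⟨h.1.1.1, h.1.2⟩, h.2⟩, h.1.1.2⟩,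
    fun h => ⟨⟨⟨h.1.1.1, h.2⟩, h.1.1.2⟩, h.1.2⟩⟩

theorem nod_opn (h : ∃ U, IsOpen U ∧ O = Z ∩ U) : ∃ U, IsOpen U ∧ nod O = nod Z ∩ U :=
  let ⟨U, a, b⟩ := h
  ⟨_, a.preimage continuous_fst, b ▸ nod_inter U⟩

theorem inN_incl (h : Z ⊆ O) (z : Quo (actC F) (nod Z)) :
    inN F O (Quo.incl _ (nod_mono h) z) = Quo.incl _ (unv_mono h) (inN F Z z) := by
  obtain ⟨z, rfl⟩ := Quot.mk_surjective z
  rfl

theorem continuous_inN : Continuous (inN F Z) := (EqM.incl (act := actC F) nod_sub).map.continuous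

variable (F Z) in
/-- the projection of the universal curve is equivariant -/
theorem eqM_unv : EqM (actC F) (actF F) (unv Z) Z Prod.fst Prod.fst :=
  ⟨⟨θU, continuous_θU, fun _ => rfl⟩, fun _ h => h.1, continuousOn_fst, fun _ _ _ _ => rfl⟩

variable (F Z) in
theorem eqM_nod : EqM (actC F) (actF F) (nod Z) Z Prod.fst Prod.fst :=
  (eqM_unv F Z).mono nod_sub fun _ h => h.1.1

theorem eqM_unv_map : ⇑(eqM_unv F Z).map = prC F Z := ((eqM_unv F Z).eq_map fun _ => rfl).symm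

theorem eqM_nod_map : ⇑(eqM_nod F Z).map = prC F Z ∘ inN F Z :=
  ((eqM_nod F Z).eq_map fun _ => rfl).symm

variable (hc : ch.Cuts) (hZ : ∀ x ∈ Z, x.2 ∈ ch.base (Mk ν κ))
include hc hZ

theorem Cuts.clo_nod : Clo (nod Z) (unv Z) := by
  refine ⟨_, isClosed_closure, subset_antisymm (subset_inter nod_sub subset_closure)
    fun x hx => ⟨hx.1, by_contra fun h => ?_⟩⟩
  have hf := hc.locFamF hZ
  obtain ⟨y, a, b⟩ := mem_closure_iff_nhds.1 hx.2 _
    (ev_tot hx.1.1 (((hf ⟨_, hx.1.1⟩).smAt hx.1.2 h).eventually (hf _)))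
  exact (a b.1.1 b.1.2).not_isNode (hf _) b.2

theorem Cuts.isLocallyClosed_nod (h : IsLocallyClosed Z) : IsLocallyClosed (nod Z) :=
  let ⟨_, a, b⟩ := hc.clo_nod hZ
  b ▸ (hc.isLocallyClosed_unv hZ h).inter a.isLocallyClosed

theorem Cuts.isClosedEmbedding_inN [IsAct (actF F) Z] : IsClosedEmbedding (inN F Z) :=
  Quo.isClosedEmbedding_incl _ (hc.clo_nod hZ)

theorem Cuts.orb_nod [IsAct (actF F) Z] (ho : Orb.Orb (ch.AF ν κ S)ˣ (Holo.Sp (actF F) Z))
    (h : IsLocallyClosed Z) : Orb.Orb (ch.AU ν κ S)ˣ (Holo.Sp (actC F) (nod Z)) :=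
  orb_mono (hc.orb_unv hZ ho) nod_sub (hc.isLocallyClosed_nod hZ h)

theorem Cuts.isPr_prN [IsAct (actF F) Z] (ho : Orb.Orb (ch.AF ν κ S)ˣ (Holo.Sp (actF F) Z)) :
    IsPr (prC F Z ∘ inN F Z) :=
  ⟨continuous_prC.comp continuous_inN, fun _ hK =>
    (hc.isClosedEmbedding_inN hZ).isCompact_preimage ((hc.isPr_prC hZ ho).2 _ hK)⟩

/-- the tangent planes at the nodes form a vector bundle of rank two -/
theorem Cuts.okT :
    (ch.sdT S Λ ν κ).Ok (actC F) (nod Z) (Fintype.card ι + 2) (Fintype.card ι) := by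
  have hp : Continuous fun z : nod Z => z.1.2 := continuous_snd.comp continuous_subtype_val
  have hN := fun (z : ch.WC ν κ Λ) (hz : z ∈ nod Z) => (hZ _ hz.1.1).2.2.1.nod
  have hB : IsClosed {z : nod Z × V ch.M | z.2 ∈ Psi.Tg (crv z.1.1.1.2) z.1.1.2} :=
    isClosed_Tg (C := fun y : Z => crv y.1.2) (hc.locFamF hZ)
      (t := fun z : nod Z => ⟨z.1.1, z.2.1.1⟩) (c := fun z => z.1.2)
      ((continuous_fst.comp continuous_subtype_val).subtype_mk _) hp fun z => z.2.2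
  refine ⟨inferInstance, ⟨fun _ _ _ _ => trivial, fun a _ q _ q' _ => funext fun i => ?_,
    fun a _ z q _ => funext fun i => ?_, fun q _ => funext fun i => one_smul ℂ (q i),
    fun a b _ _ q _ => funext fun i => ?_, fun q _ => continuous_pi fun i => ?_⟩,
    ⟨fun _ _ => le_top, hB, fun z hz => Grr.ChNp.finrank_node (hN z hz) hz.1.2 hz.2, fun z hz a ha q hq => ?_⟩,
    ⟨fun _ _ => le_top, Psi.isClosed_span (B := fun z : nod Z => Psi.Nr z.1.2) fun z =>
      ⟨fun z i => Pi.single i (z.1.2 i), continuousAt_pi.2 (Psi.continuousAt_single hp.continuousAt),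
        Psi.li (crv_ne z.2.1.2), .of_forall fun _ => rfl⟩,
      fun z hz => finrank_span_eq_card (Psi.li (crv_ne hz.1.2)), fun z hz a ha q hq => ?_⟩,
    fun z hz => Psi.Nr_le (hN z hz) hz.1.2⟩
  · simp only [Pi.add_apply, map_add, smul_add]
  · simp only [Pi.smul_apply, map_smul, smul_comm z]
  · change (a.2 i * b.2 i) • a.1.2.1 i (b.1.2.1 i (q i)) = _
    simp only [map_smul, mul_smul]
  · have := Units.continuous_val (M := ch.AU ν κ S)
    fun_prop
  · obtain ⟨L, hL⟩ : ∃ L : V ch.M →L[ℂ] V ch.M, ∀ v, L v = (ch.sdT S Λ ν κ).ρ a v :=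
      ⟨.pi fun i => a.2 i • (a.1.2.1 i).comp (.proj i), fun _ => rfl⟩
    have := Psi.Tg_map (C' := crv (actC F a z).1.2) L
      (fun c hc => hL c ▸ actC_mem_crv (x := (z.1, c)) ha hc) hq
    rwa [hL, hL] at this
  · obtain ⟨b, rfl⟩ := Psi.mem_Nr.1 hq
    refine Psi.mem_Nr.2 ⟨b, funext fun i => ?_⟩
    simp only [actC_snd, Pi.smul_apply', map_smul, smul_comm (b i)]

end act

section mfd

variable {B : Set (Λ → ℂ)} {T O : Set (ch.WF ν κ Λ)} {F : Wt S Λ R J} {d : ℕ}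

/-- The free points with a given curve are dense. -/
def Den (F : Wt S Λ R J) (T : Set (ch.WF ν κ Λ)) : Prop :=
  ∀ y ∈ T, y ∈ closure {z | z ∈ T ∧ Fre (actF F) z ∧ crv z.2 = crv y.2}

/-- **The nodes are smooth.** -/
theorem Num₀.mfdAt_nod (h : Num₀ ch) (hT : Ver B T) {x : ch.WC ν κ Λ} (hx : x ∈ nod T) {N : ℕ}
    (hm : MfdAt T N x.1) : MfdAt (nod T) (N + Fintype.card ι - 1) x := by
  have hf := h.cuts.locFamF hT.base ⟨_, hx.1.1⟩
  obtain ⟨τ, k⟩ := (hf.chart _ hx.1.2).resolve_left fun a => a.not_isNode hf hx.2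
  have : 0 < Fintype.card ι := Fintype.card_pos_iff.2 ⟨ch.o⟩
  have e := h.mfdAt_unv hT hx.1 hm
  rw [show N + Fintype.card ι + 1 = N + Fintype.card ι - 1 + 2 by omega] at e
  exact NdAt.mfdAt_nod (C := fun y : ch.WF ν κ Λ => crv y.2) hx.1.1 hf k e

variable (h : Num₀ ch) (hT : Ver B T) [IsAct (actF F) T]
  (ho : Orb.Orb (ch.AF ν κ S)ˣ (Holo.Sp (actF F) T)) (hl : IsLocallyClosed T)
  (hm : KD.Mf (ch.AF ν κ S) T d)
include h hT ho hl hm

theorem Num₀.one_le {x : ch.WC ν κ Λ} (hx : x ∈ nod T) : 1 ≤ d := by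
  have := (h.mfdAt_nod hT hx (hm _ hx.1.1)).finrank_le (h.cuts.orb_nod hT.base ho hl)
  have : 0 < Fintype.card ι := Fintype.card_pos_iff.2 ⟨ch.o⟩
  rw [finrank_AU] at *
  omega

theorem Num₀.mf_nod : KD.Mf (ch.AU ν κ S) (nod T) (d - 1) := fun x hx => by
  have := h.one_le hT ho hl hm hx
  have e := h.mfdAt_nod hT hx (hm _ hx.1.1)
  rwa [show finrank ℂ (ch.AF ν κ S) + d + Fintype.card ι - 1 =
    finrank ℂ (ch.AF ν κ S) + Fintype.card ι + (d - 1) by omega, ← finrank_AU] at e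

theorem Num₀.str_nod (hd : Den F T) : Str (actC F) (nod T) (d - 1) :=
  ⟨IsAct.mem, fun x => (h.mf_nod hT ho hl hm _ x.2).isMfd _, fun x hx =>
    map_mem_closure (f := fun z => (z, x.2)) (by fun_prop) (hd _ hx.1.1) fun z hz =>
      have a : x.2 ∈ crv z.2 := hz.2.2 ▸ hx.1.2
      ⟨⟨⟨hz.1, a⟩, hz.2.2 ▸ hx.2⟩, fre_actC a hz.2.1⟩⟩

end mfd

section vir

variable {F : Fam S Λ R J K} {e : K → ι → ℕ} {B : Set (Λ → ℂ)} {Z O S₀ U U' : Set (ch.WF ν κ Λ)}
  {d n r : ℕ}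

theorem Pr.den' (h : Pr F U) (hZ : Lev F Z) (hU : IsOpen U') (e : Z ∩ U' ⊆ U) :
    Den F.toWt (Z ∩ U') := fun y hy =>
  closure_mono (by
    rintro _ ⟨a, b, X, c, rfl⟩
    exact ⟨⟨hZ.mov y hy.1 X c, a⟩, b, rfl⟩) (hU.inter_closure ⟨hy.2, h.den y ⟨hZ.base hy.1, e hy⟩⟩)

variable (hc : ch.Cuts) (hO : ∀ x ∈ O, x.2 ∈ ch.base (Mk ν κ))
  (hg : (ch.kd ν κ F e).Gd (actF F.toWt) Z O n r)
include hc hO hg

theorem Cuts.gd_unv : (ch.kdC ν κ F e).Gd (actC F.toWt) (unv Z) (unv O) n r :=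
  haveI := hg.dom.isAct
  ⟨⟨unv_mono hg.dom.sub, ⟨univ, isOpen_univ, (inter_univ _).symm⟩, inferInstance,
    hc.orb_unv hO hg.dom.orb, fun _ hx => (hg.dom.zero _ hx.1).trans (and_iff_left hx.2).symm⟩,
    hg.ok.pb' (eqM_unv _ _)⟩

theorem Cuts.gd_nod : (ch.kdC ν κ F e).Gd (actC F.toWt) (nod Z) (nod O) n r :=
  (hc.gd_unv hO hg).mono nod_sub (ivt_nod hg.ivt) (hc.isLocallyClosed_nod hO hg.lc)
    (nod_eq hg.dom.sub)

theorem Cuts.push_vrC (β : BM (Quo (actC F.toWt) (unv O))) :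
    push (prC _ Z) ((ch.kdC ν κ F e).vr (actC F.toWt) (unv Z) (unv O) β) =
      (ch.kd ν κ F e).vr (actF F.toWt) Z O (push (prC _ O) β) := by
  have := hg.dom.isAct
  have p : IsPr (eqM_unv F.toWt O).map := by
    rw [eqM_unv_map]
    exact hc.isPr_prC hO hg.dom.orb
  have := (hg.vr_push (eqM_unv _ O) (hc.gd_unv hO hg) p (fun _ a => a.1) β).2
  rwa [eqM_unv_map, eqM_unv_map] at this

theorem Cuts.push_vrN (β : BM (Quo (actC F.toWt) (nod O))) :
    push (prC _ Z ∘ inN _ Z) ((ch.kdC ν κ F e).vr (actC F.toWt) (nod Z) (nod O) β) =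
      (ch.kd ν κ F e).vr (actF F.toWt) Z O (push (prC _ O ∘ inN _ O) β) := by
  have := hg.dom.isAct
  have p : IsPr (eqM_nod F.toWt O).map := by
    rw [eqM_nod_map]
    exact hc.isPr_prN hO hg.dom.orb
  have := (hg.vr_push (eqM_nod _ O) (hc.gd_nod hO hg) p (fun _ a => a.1.1) β).2
  rwa [eqM_nod_map, eqM_nod_map] at this

end vir

/-- **The virtual class of the nodes** -/
theorem Num₀.virN_eq {F : Fam S Λ R J K} {e : K → ι → ℕ} {B : Set (Λ → ℂ)}
    {O S₀ : Set (ch.WF ν κ Λ)} {d n r : ℕ} (h : Num₀ ch) (hO : Ver B O)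
    (hg : (ch.kd ν κ F e).Gd (actF F.toWt) (ch.solF ν κ F ∩ S₀) O n r)
    (ho : ∃ U, IsOpen U ∧ O = S₀ ∩ U) (hm : KD.Mf (ch.AF ν κ S) O d) (hd : Den F.toWt O) :
    virN F e S₀ = (ch.kdC ν κ F e).vr (actC F.toWt) _ (nod O)
      ((h.cuts.gd_nod hO.base hg).fu (d - 1)) :=
  haveI := hg.dom.isAct
  have g := h.cuts.gd_nod hO.base hg
  have m := h.mf_nod hO hg.dom.orb hg.lc hm
  ((Classical.epsilon_spec ⟨_, g.isV (nod_opn ho) (g.isFund_fu m)⟩ :
    (ch.kdC ν κ F e).IsV _ _ _ (virN F e S₀)).isW g (nod_opn ho)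
      (h.str_nod hO hg.dom.orb hg.lc hm hd)).eq_vr g (nod_opn ho) m

end Ch

end Vale.Agent.P269
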