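import Vale.Agent.P269.Qrr.NdI
import Vale.Agent.P269.Qrr.NdT
import Vale.Agent.P269.Qrr.Fac
import Vale.Agent.P269.Glu.Cls
import Vale.Agent.P269.Glu.GlB

/-!
# Integrals over the nodes as integrals on the normalised curves
-/

set_option linter.unusedSectionVars false

namespace Vale.Agent.P269

open P291Z Set Function Topology Filter PowerSeries Ch

namespace NdN

variable {X Y : Type} [TopologicalSpace X] [TopologicalSpace Y]

theorem intg_push [CompactSpace X] [CompactSpace Y] {f : C(X, Y)} (hf : IsPr f) (β : BM X)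
    (c : H Y) : Loc.intg (push f β) c = Loc.intg β (H.map f c) := by
  obtain ⟨a, e, rfl⟩ := hcls_surj c
  rw [H.map_hcls f e, Loc.intg_hcls _ e, Loc.intg_hcls _ (cocycle_pull f.continuous e),
    Orb.ev_push hf _ ⟨(isClosed_supp a).isCompact, e⟩]

theorem intg_gys [CompactSpace X] [Nice Y] {i : C(X, Y)} (hi : IsClosedEmbedding i) {t : Coch Y}
    (ht : supp (δ t) = ∅) (hs : supp t ⊆ range i) (β : BM Y) (c : H Y) :
    Loc.intg (gys i t β) (H.map i c) = ev β (rep c * t) := by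
  have e := Qrr.Fc.cocycle_rep c
  rw [← GlC.ev_gys hi ht hs β e isCompact_univ (subset_univ _),
    ← Loc.intg_hcls _ (cocycle_pull i.continuous e), ← H.map_hcls i e, Qrr.Fc.hcls_rep]

theorem alg {β : Type} (T : Finset β) (I : Finset (ℕ × ℕ)) (w : ℕ × ℕ → ℂ) (τ σ : β → Hev X)
    (c a b : Hev X) (x : H X) :
    (∑ t ∈ T, τ t * σ t).1 * x * (c.1 * (∑ q ∈ I, w q • (a ^ q.1 * b ^ q.2)).1) = ∑ q ∈ I, w q •
      ∑ t ∈ T, (τ t).1 * (a.1 ^ q.1 * (c.1 * (σ t).1) * (b.1 ^ q.2 * 1 * x)) := by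
  have e : (∑ t ∈ T, τ t * σ t) * (c * ∑ q ∈ I, w q • (a ^ q.1 * b ^ q.2)) =
      ∑ q ∈ I, w q • ∑ t ∈ T, τ t * (a ^ q.1 * (c * σ t) * b ^ q.2) := by
    simp only [Finset.mul_sum, mul_smul_comm, Finset.sum_mul]
    exact Finset.sum_congr rfl fun _ _ => congrArg _ (Finset.sum_congr rfl fun _ _ => by ring)
  rw [← Subalgebra.coe_mul, mul_assoc, ← Hev.commute (Subtype.prop _) x, ← mul_assoc,
    ← Subalgebra.coe_mul, e]
  simp only [AddSubmonoidClass.coe_finsetSum, Subalgebra.coe_smul, Finset.sum_mul, smul_mul_assoc,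
    Subalgebra.coe_mul, Subalgebra.coe_pow, mul_assoc, one_mul]

theorem main {N M M' β : Type} [TopologicalSpace N] [TopologicalSpace M] [TopologicalSpace M']
    [CompactSpace M] [Nice M'] {η : C(X, N)} {π : C(N, M)} {Φ : C(X, M')} {Ψ : C(X, M)}
    (hη : IsPr η) (hπ : IsPr π) (hΦ : IsClosedEmbedding Φ) {t : Coch M'} (ht : supp (δ t) = ∅)
    (hs : supp t ⊆ range Φ) {v : BM N} {v' : BM M'} (h : push η (gys Φ t v') = (2 : ℂ) • v)
    (e : π.comp η = Ψ) {x : H M} {x' : H M'} (h1 : H.map Ψ x = H.map Φ x') {T : Finset β}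
    {θ : Hev M} {τ σ : β → Hev M'} (h2 : Hev.map Ψ θ = Hev.map Φ (∑ t ∈ T, τ t * σ t))
    {I : Finset (ℕ × ℕ)} {w : ℕ × ℕ → ℂ} {P : Hev N} {a b c : Hev M'} (h3 : Hev.map η P =
      ∑ q ∈ I, w q • ((-Hev.map Φ (-a)) ^ q.1 * (-Hev.map Φ (-b)) ^ q.2)) {y : H N}
    (h4 : H.map η y = H.map Φ c.1) {L : H M' →ₗ[ℂ] ℂ} (hL : ∀ y, ev v' (rep y * t) = L y) :
    2 * Loc.intg (push π (cap (y * P.1) v)) (θ.1 * x) = ∑ q ∈ I, w q *
      ∑ t ∈ T, L ((τ t).1 * (a.1 ^ q.1 * (c.1 * (σ t).1) * (b.1 ^ q.2 * 1 * x'))) := by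
  have : CompactSpace N := ⟨hπ.pre _ isCompact_univ⟩
  have : CompactSpace X := ⟨hη.pre _ isCompact_univ⟩
  simp only [map_neg, neg_neg, ← map_pow, ← map_mul, ← map_smul, ← map_sum] at h3
  rw [intg_push hπ, Loc.intg_cap, ← smul_eq_mul, ← LinearMap.smul_apply,
    show (2 : ℂ) • Loc.intg v = Loc.intg ((2 : ℂ) • v) from rfl, ← h, intg_push hη, map_mul,
    H.map_map, e, map_mul (H.map Ψ), map_mul (H.map η), h1, h4, ← Hev.coe_map, ← Hev.coe_map η,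
    h2, h3, Hev.coe_map, Hev.coe_map, ← map_mul, ← map_mul, ← map_mul, intg_gys hΦ ht hs, hL, alg]
  simp only [map_sum, map_smul, smul_eq_mul]

theorem cc {A B : Type} [CommRing A] [CommRing B] (φ : A →+* B) (a : A⟦X⟧) :
    constantCoeff (PowerSeries.map φ a) = φ (constantCoeff a) := rfl

end NdN

variable {S Λ R J K ι ν κ ν' κ' : Type} [Fintype S] [Fintype Λ] [Fintype R] [Fintype J] [Fintype K]
  [Fintype ι] [DecidableEq ι] [Fintype ν] [Fintype κ] [Fintype ν'] [Fintype κ'] {N : ℕ}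

/-- Descendant insertions at the marked points `m s`. -/
noncomputable def Wt.insL (F : Wt S Λ R J) (A : Set ((Λ → ℂ) × (J → ℂ))) (m : Fin N → Mk ν κ)
    (f : Fin N → ℕ × H (F.X A)) : List (Fac F ν κ) :=
  (List.ofFn fun s => List.replicate (f s).1 (.psi (m s)) ++ [.ev (m s) A (f s).2]).flatten

theorem Wt.mem_insL {F : Wt S Λ R J} {A} {m : Fin N → Mk ν κ} {f} {x} (h : x ∈ F.insL A m f) :
    (∃ a, x = .psi a) ∨ ∃ a c, x = .ev a A c := by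
  simp only [insL, List.mem_flatten, List.mem_ofFn] at h
  obtain ⟨_, ⟨s, rfl⟩, h⟩ := h
  exact (List.mem_append.1 h).imp (fun a => ⟨_, List.eq_of_mem_replicate a⟩)
    fun a => ⟨_, _, List.mem_singleton.1 a⟩

theorem Wt.map_insL {F : Wt S Λ R J} {A} (m : Fin N → Mk ν κ) (f) {φ : Fac F ν κ → Fac F ν' κ'}
    {ψ : Mk ν κ → Mk ν' κ'} (h : ∀ a, φ (.psi a) = .psi (ψ a))
    (h' : ∀ a c, φ (.ev a A c) = .ev (ψ a) A c) : (F.insL A m f).map φ = F.insL A (ψ ∘ m) f := by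
  simp only [insL, List.map_flatten, List.map_ofFn, comp_def, List.map_append, List.map_replicate,
    List.map_cons, List.map_nil, h, h']

namespace Ch

variable {ch : Ch ι J} {n : Nm ι J} {F : Fam S Λ R J K} {ℓ : R → ι → ℤ}

variable (F) in
/-- The class of descendant insertions at the marked points `m s`. -/
noncomputable def insM (Z : Set (ch.WF ν κ Λ)) (m : Fin N → Mk ν κ)
    (f : Fin N → ℕ × H (F.X F.cone)) : H (Quo (actF F.toWt) Z) :=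
  (List.ofFn fun s => ins1 F Z (m s) (f s)).prod

theorem insM_cons (Z : Set (ch.WF ν κ Λ)) (m : Fin (N + 1) → Mk ν κ) (x) (f) :
    insM F Z m (Fin.cons x f) = ins1 F Z (m 0) x * insM F Z (Fin.tail m) f := by
  rw [insM, List.ofFn_succ, List.prod_cons]; rfl

theorem prod_insL (Z : Set (ch.WF ν κ Λ)) (m : Fin N → Mk ν κ) (f) {φ : Fac F.toWt ν κ → H _}
    (h : ∀ a, φ (.psi a) = F.cl Z (.psi a))
    (h' : ∀ a c, φ (.ev a F.cone c) = F.cl Z (.ev a F.cone c)) :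
    ((F.insL _ m f).map φ).prod = insM F Z m f := by
  rw [Wt.insL, List.map_flatten, List.prod_flatten, List.map_ofFn, List.map_ofFn]
  refine congrArg _ (congrArg _ (funext fun s => ?_))
  simp only [comp_apply, List.map_append, List.map_replicate, List.prod_append,
    List.prod_replicate, List.map_cons, List.map_nil, List.prod_cons, List.prod_nil, mul_one, h, h']
  rfl

variable {T : Set ((ch.re n).WF ν (κ ⊕ κ') Λ)} {z : ch.WG n ν κ κ' Λ}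

theorem lf_same : (lf F z).1 = z.1.1 ∧ (lf F z).2.Q = z.2.1.Q ∧ (lf F z).2.p = z.2.1.p :=
  have e := add_ι₂ (F := F) (z := z) (lfX F.mov z.1.2 z.2)
  ⟨congrArg (·.1.1) e, congrArg (·.2.1.Q) e, congrArg (·.2.1.p) e⟩

theorem ZL.vl_lf (hn : ch.GN n κ') (hT : Lev F T) (hz : z ∈ ZL F T) (q : Mk ν (κ ⊕ κ')) :
    vl (Ch.lf F z) q = (z.1.1, fld z.1.2 (apV z.2.2.1 (z.2.1.p q))) := by
  have h := ZL.lf hn hT hz
  have c := (h.1.1.mem'.2.2.2.1 q).1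
  have k := funext fun j => h.1.1.fld_eq (ZD.mt h j) c (((mem_solF.1 h.2.2.1).2 _ c).1 j)
  exact Prod.ext lf_same.1 (k.symm.trans (congrArg (fun y : ch.WG n ν κ κ' Λ =>
    fld y.1.2 (apV y.2.2.1 (y.2.1.p q))) (add_ι₂ (F := F) (z := z) _) :))

section glue

variable {Z : Set (ch.WF ν κ Λ)} {Z' : Set ((ch.re n).WF ν (κ ⊕ Unit) Λ)}
  {Y : Set (ch.WG n ν κ Unit Λ)} {φ : ch.WG n ν κ Unit Λ → (ch.re n).WF ν (κ ⊕ Unit) Λ}
  (hZ : GZ F ℓ Z) (hZ' : GZ F ℓ Z') [Holo.IsAct (actG F.toWt : ch.AG n ν κ Unit S → _) Y]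
  (ho : Orb.Orb (ch.AG n ν κ Unit S)ˣ (Holo.Sp (actG F.toWt) Y)) (hY : ∀ z ∈ Y, Gl z.1.2 z.2)
  (hf : ∀ z ∈ Y, (φ z).2.Q = z.2.1.Q ∧ (φ z).2.p = z.2.1.p)
  (h₁ : EqM (actG F.toWt : ch.AG n ν κ Unit S → _) (actF F.toWt) Y Z (fun a => a.1) Prod.fst)
  (h₂ : EqM (actG F.toWt : ch.AG n ν κ Unit S → _) (actF F.toWt) Y Z' θG φ)
include hZ hZ' ho hY hf

theorem insM_glue (hd : F.IsDiag F.diag) (s : SameV h₁.map h₂.map) (m : Fin N → Mk ν κ) (f) :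
    H.map h₁.map (insM F _ m f) = H.map h₂.map (insM F _ (inc ∘ m) f) := by
  rw [insM, insM, map_list_prod, map_list_prod, List.map_ofFn, List.map_ofFn]
  refine congrArg _ (congrArg _ (funext fun i => ?_))
  simp only [comp_apply, ins1, map_mul, map_pow]
  exact congrArg₂ (· ^ _ * ·) (psi_glue hZ hZ' ho hY hf h₁ h₂ _)
    ((H.map_hcls _ (hZ.cocycle (f := .ev _ _ _) hd (hZ.vl_cone _))).trans ((congrArg hcls
      (s.pull_ev hZ hZ' _ _ (hZ.vl_cone _) (hZ'.vl_cone _))).trans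
        (H.map_hcls _ (hZ'.cocycle (f := .ev _ _ _) hd (hZ'.vl_cone _))).symm))

theorem evC_glue [Mono.FP F.actT F.cone] (hn : ch.GN n Unit) {u : J → Hev (F.X F.cone)}
    (hu : ∀ j, (u j).1 = F.lc _ (F.wt j) (F.w j)) {Θ} {β : Type} {B : Finset β} {Θ₁ Θ₂}
    (hΘ : Qrr.Cop Θ B Θ₁ Θ₂) : Hev.map h₁.map (Qrr.evC (indC F.toWt _) Θ) = Hev.map h₂.map (∑ t ∈ B,
      Qrr.evC (indC F.toWt _) (Θ₁ t) * Hev.map (hZ'.eqh_vl (nq () false) (hZ'.vl_cone _)).toEqv.qm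
        (Qrr.evC (fun j => (1 + C (u j) * X).invOfUnit 1) (Θ₂ t))) := by
  simp only [map_sum, map_mul, Qrr.map_evC]
  rw [← hΘ _ _ _ (fun j => ?_) fun j => ?_]
  · refine congrArg (Qrr.evC · Θ) (funext fun j => ?_)
    rw [ind_glue hn hZ hZ' ho hY hf h₁ h₂ j (hu j) (hZ'.vl_cone _), mul_assoc,
      ← map_mul, ← map_mul, mul_invOfUnit _ _ (by simp), map_one, map_one, mul_one]
  · rw [NdN.cc, hZ'.constCoeff_indC, map_one]
  · rw [NdN.cc, NdN.cc, constantCoeff_invOfUnit, inv_one, Units.val_one, map_one, map_one]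

end glue

theorem GZ.ev_dg [IsEmpty κ] {Z : Set (ch.WF ν (κ ⊕ Unit) Λ)} (h : GZ F ℓ Z) (hd : F.IsDiag F.diag)
    {r : ℤ} (hr : IsDeg (2 * r) F.diag) (hc : IsCompact (dia F.toWt Z)) (v : BM _) (y : H _) :
    ev v (rep y * F.coch Z (.dg (.inr ()))) = F.itg v y := by
  have := h.ev_nf hd hr hc (fs := [.dg (.inr ())]) (by simp [Fac.At])
    (by rintro (q | _); exacts [isEmptyElim q, List.mem_singleton_self _]) (Qrr.Fc.cocycle_rep y) v
  rwa [Fam.clL_eq (fs := [.dg _]) (List.nodup_singleton _), Qrr.Fc.hcls_rep, List.map_singleton,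
    List.map_singleton, List.prod_singleton, List.prod_singleton, Fam.cn, mul_one] at this

variable {e : K → ι → ℕ} {T₀ : Set (ch.WF ν κ Λ)} {T : Set ((ch.re n).WF ν (κ ⊕ Unit) Λ)}

/-- **integrals over the nodes** -/
theorem NdP.num [IsEmpty κ] [Mono.FP F.actT F.cone] (h : NdP F e T₀ T) (hn : ch.GN n Unit)
    (hT : Lev F T)
    (hZ : GZ F ℓ (ch.solF ν κ F ∩ T₀)) (hZ' : GZ F ℓ ((ch.re n).solF ν (κ ⊕ Unit) F ∩ T))
    [CompactSpace (ModS F T₀)] (hd : F.IsDiag F.diag) {r : ℤ} (hr : IsDeg (2 * r) F.diag)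
    (hc : IsCompact (dia F.toWt ((ch.re n).solF ν (κ ⊕ Unit) F ∩ T))) {u : J → Hev (F.X F.cone)}
    (hu : ∀ j, (u j).1 = F.lc _ (F.wt j) (F.w j)) {Θ} {β : Type} {B : Finset β} {Θ₁ Θ₂}
    (hΘ : Qrr.Cop Θ B Θ₁ Θ₂) (m : Fin N → Mk ν κ) (f) (c : Hev (F.X F.cone)) (I : Finset (ℕ × ℕ))
    (w : ℕ × ℕ → ℂ) {Φ : Hev (ModN F T₀)}
    (hΦ : Roots _ _ Φ fun _ _ _ a b => ∑ q ∈ I, w q • ((-a) ^ q.1 * (-b) ^ q.2)) :
    2 * Loc.intg (pshN F e T₀ (hpull (inN _ _) (eC F _ c) * Φ.1))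
      ((Qrr.evC (indC F.toWt _) Θ).1 * insM F _ m f) = ∑ q ∈ I, w q * ∑ t ∈ B,
      F.itg (virF F e T) ((Qrr.evC (indC F.toWt _) (Θ₁ t)).1 * (ins1 F _ (nq () false)
        (q.1, c.1 * (Qrr.evC (fun j => (1 + C (u j) * X).invOfUnit 1) (Θ₂ t)).1) *
          (ins1 F _ (nq () true) (q.2, 1) * insM F _ (inc ∘ m) f))) := by
  obtain ⟨_, _, hΨ, h₂, hη, ho, a1, a2, a3, a4⟩ := h
  have := hZ.act
  have g : ∀ z ∈ (ZL F T : Set (ch.WG n ν κ Unit Λ)), Gl z.1.2 z.2 := fun _ a => a.1.1.1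
  have b1 := insM_glue hZ hZ' ho g (fun _ _ => lf_same.2) hΨ h₂ hd (Quot.ind fun z =>
    ⟨_, _, rfl, rfl, lf_same.1.symm, fun a =>
      ((ZL.vl_lf hn hT z.2 _).trans (by rw [← (g _ z.2).mark]; rfl)).symm⟩) m f
  have b2 := evC_glue hZ hZ' ho g (fun _ _ => lf_same.2) hΨ h₂ hn hu hΘ
  have b3 := hΦ _ hη.map _ _ (sdT_glue hZ hZ' g h₂ hη ho (fun _ _ => lf_same.2)
    (a := -⟨_, hZ'.cl_psi_mem (nq () false)⟩) (b := -⟨_, hZ'.cl_psi_mem (nq () true)⟩) rfl rfl)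
  have b4 := (eC_glue hZ hZ' g h₂ hη (fun z a => ZL.vl_lf hn hT a _) c.1).trans
    (congrArg _ (hZ'.cl_ev _ (hZ'.vl_cone _) _))
  have p := hZ.cuts.isPr_prN hZ.base hZ.orb
  rw [pshN]
  rw [← eqM_nod_map] at p ⊢
  refine (NdN.main (Ψ := hΨ.map) (c := Hev.map _ c) a3 p a1 (hZ'.cocycle_dg hd _)
    ((hZ'.supp_dg hd _).trans a2) a4 (ContinuousMap.ext (Quot.ind fun _ => rfl)) b1 b2 b3 b4
    (hZ'.ev_dg hd hr hc _)).trans ?_
  simp only [ins1, hZ'.hcls_evF, map_mul, map_one, Hev.coe_map]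
  rfl

end Ch

end Vale.Agent.P269
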