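import Vale.Agent.P269.Qrr.NdB
import Vale.Agent.P269.Qrr.NdL
import Vale.Agent.P269.Qrr.NdN
import Vale.Agent.P269.Qrr.Bas
import Vale.Agent.P269.Bas.BC
import Vale.Agent.P269.Bas.Dg
import Vale.Agent.P269.Bas.Rel

/-!
# Integrals over the nodes of the universal curve
-/

set_option linter.unusedSectionVars false

namespace Vale.Agent.P269

open P291Z Set Function Topology Filter PowerSeries Ch

/-- The first two marked points form a pair. -/
def Node.eqv (n : ℕ) : Fin (n + 2) ⊕ Fin 0 ≃ (Fin n ⊕ Fin 0) ⊕ Unit × Bool where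
  toFun := Sum.elim (Fin.cons (.inr ((), false)) (Fin.cons (.inr ((), true)) fun s => .inl (.inl s)))
    Fin.elim0
  invFun := Sum.elim (Sum.map (fun s => s.succ.succ) id) fun x => .inl (cond x.2 (.succ 0) 0)
  left_inv := by
    rintro (s | s)
    exacts [Fin.cases rfl (Fin.cases rfl fun _ => rfl) s, s.elim0]
  right_inv := by
    rintro ((s | s) | ⟨_, _ | _⟩)
    exacts [rfl, s.elim0, rfl, rfl]

variable {Λ R J K ν ν' κ : Type} [Fintype Λ] [Fintype R] [Fintype J] [Fintype K] [Fintype ν]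
  [Fintype ν'] [Fintype κ] [DecidableEq R] {F : Fam Empty Λ R J K} {k D : ℕ} {g : ℤ} {d : R → ℤ}

theorem Node.ok {N : ℕ} {m : Fin N → Mk ν κ} {f Θ} {x : Fac F.toWt ν κ}
    (h : x ∈ .tw Θ :: F.insL F.cone m f) : x.Ok F 0 ∧ x.dq = none := by
  rcases List.mem_cons.1 h with rfl | h
  · exact ⟨trivial, rfl⟩
  rcases Wt.mem_insL h with ⟨_, rfl⟩ | ⟨_, _, rfl⟩
  exacts [⟨trivial, rfl⟩, ⟨fun _ a => a.1, rfl⟩]

theorem Node.re {N : ℕ} (a : Fin N ⊕ Fin 0 ≃ ν) (Θ f) : (F.fsF F.cone Θ f).map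
    (Fac.re a (Equiv.refl _)) = .tw Θ :: .par univ 1 :: F.insL _ (fun i => .inl (a (.inl i))) f :=
  congrArg (_ :: _ :: ·) (Wt.map_insL mk0 f (φ := Fac.re a (Equiv.refl _))
    (ψ := Sum.map a (Prod.map (Equiv.refl _) id)) (fun _ => rfl) fun _ _ => rfl)

theorem Node.zero : (fun s => (0 : ν → ℕ) s • (0 : J → ℕ)) = 0 := funext fun _ => smul_zero _

theorem Ch.GZ.prod_pair {ι : Type} [Fintype ι] [DecidableEq ι] {ch : Ch ι J} {ℓ : R → ι → ℤ}
    {Z : Set (ch.WF ν κ Λ)} (z : GZ F ℓ Z) {N : ℕ} (m : Fin (N + 2) → Mk ν κ) (Θ) (r s : ℕ) {c}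
    (hc : c ∈ Hev _) (x y f) : ((.ev (m 0) _ x :: .ev (Fin.tail m 0) _ y :: .tw Θ ::
      F.insL F.cone m (Fin.cons (r, c) (Fin.cons (s, 1) f))).map (F.cl Z)).prod =
    ((.tw Θ :: .par univ 1 ::
      F.insL F.cone m (Fin.cons (r, c * x) (Fin.cons (s, y) f))).map (F.cl Z)).prod := by
  have a := z.ins1_add (m 0) r c (0, x)
  have a' := z.ins1_add (Fin.tail m 0) s 1 (0, y)
  have b := Hev.commute (z.ins1_mem (m 0) r hc)
  have b' := Hev.commute (z.ins1_mem (Fin.tail m 0) s (one_mem _))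
  have t := Hev.commute (Fam.cl_tw_mem (F := F) (Z := Z) Θ)
  rw [zero_add, b] at a
  rw [zero_add, one_mul, b'] at a'
  simp only [List.map_cons, List.prod_cons, prod_insL _ _ _ (fun _ => rfl) fun _ _ => rfl,
    insM_cons, z.cl_par_one fun _ _ => mem_univ _, one_mul, a, a']
  rw [t, t, mul_assoc, mul_assoc, mul_assoc, mul_assoc, mul_assoc, mul_assoc, b, b]
  simp only [ins1, pow_zero, one_mul, mul_assoc]
  rfl

namespace Fam.One

variable (h : F.One k)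
include h

theorem at_ok (hD : F.BigD k D) {x : Fac F.toWt ν κ} (hx : x.Ok F 0) : x.At (F.Zs κ k D g d 0) := by
  have := h.nice.at_of_ok (g := g) (d := d) (u := 0) (f := x) h.big hD (by rwa [Node.zero])
  rwa [Node.zero] at this

theorem ivT [IsEmpty κ] {fs : List (Fac F.toWt ν κ)} (hf : ∀ x ∈ fs, x.Ok F 0) :
    F.Iv 0 k g d 0 (fun _ => True) fs :=
  ⟨h.nice, h.cp, h.big, Sel.of_same fun _ _ _ a => a, by rwa [Node.zero], isEmptyElim⟩

theorem inv_re (hW : St.Well) [IsEmpty κ] (a : ν ≃ ν') {fs : List (Fac F.toWt ν κ)}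
    (hf : ∀ x ∈ fs, x.Ok F 0) (hf' : ∀ x ∈ fs.map (Fac.re a (Equiv.refl κ)), x.Ok F 0) :
    ∀ᶠ D in atTop, F.inv k g d 0 (fun _ => True) fs = Loc.intg (F.vir κ k D g d (0 : ν' → J → ℕ))
      ((fs.map (Fac.re a (Equiv.refl κ))).map (F.cl _)).prod := by
  have e := St.rel St.dg F 0 k g d a (.refl κ) 0 _ (fun _ => True) fs (h.ivT hf) fun _ => Iff.rfl
  have b := (h.ivT (g := g) (d := d) hf').well hW
  rw [e, show (fun s => (0 : ν' → ℕ) (a s) • (0 : J → ℕ)) = 0 from Node.zero, Node.zero] at b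
  filter_upwards [b, h.intg_cl (ν := ν') (κ := κ) g d, F.eventually_bigD k] with D b c hD
  exact b.trans (c _ _ fun _ y => h.at_ok hD (hf' _ y))

theorem intM_dg [IsEmpty κ] (hD : F.BigD k D) {N : ℕ} (m : Fin N → Mk ν (κ ⊕ Unit)) (Θ f) :
    F.intM k D g d 0 (.dg (.inr ()) :: .tw Θ :: F.insL F.cone m f) =
      F.itg (F.vir _ k D g d 0) ((Qrr.evC (indC F.toWt _) Θ).1 * insM F _ m f) := by
  obtain ⟨hd, ⟨_, hr⟩, -⟩ := h.nice.dg St.dg
  refine (Lvl.intg_eq ⟨hD, h.gz' _ _ hD g d 0, by rw [sel_true hD]; exact isClopen_univ,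
    h.good.isCompact_dia h.cp h.big hD _, fun x a => (List.mem_cons.1 a).elim
      (by rintro rfl; trivial) fun a => h.at_ok hD (Node.ok a).1,
    by rintro (q | _); exacts [isEmptyElim q, List.mem_cons_self]⟩ hd hr _).trans ?_
  rw [sel_true hD, Qrr.Fc.ind_univ, hcls_one, one_mul, clL_eq (by
      rw [List.filterMap_cons_some (f := Fac.dq) rfl, List.filterMap_eq_nil_iff.2 fun _ a => (Node.ok a).2]
      exact List.nodup_singleton _), List.map_cons, List.map_cons, List.prod_cons,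
    List.prod_cons, prod_insL (φ := F.cn _) _ _ _ (fun _ => rfl) fun _ _ => rfl, cn, one_mul]
  exact congrArg (fun x => F.itg _ (x * _)) (cl_tw Θ)

theorem pair (hW : St.Well) (hN : St.NDq) {B : Type} [Fintype B] {e e' : B → H (F.X F.cone)}
    (he : F.IsCas e e') (Θ) (d : R → ℤ) (j : ℤ) {n : ℕ} (f : Fin n → ℕ × H (F.X F.cone)) (r s : ℕ)
    {c : H (F.X F.cone)} (hc : c ∈ Hev _) : ∀ᶠ D in atTop,
    F.itg (F.vir (Fin 0 ⊕ Unit) k D j d (0 : Fin n ⊕ Fin 0 → J → ℕ))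
      ((Qrr.evC (indC F.toWt _) Θ).1 * (ins1 F _ (nq () false) (r, c) *
        (ins1 F _ (nq () true) (s, 1) * insM F _ (Ch.inc ∘ mk0) f))) =
      ∑ b, F.corP k (fun _ => True) Θ d (j - 1) (Fin.cons (r, c * e b) (Fin.cons (s, e' b) f)) := by
  have k1 := fun b => h.inv_re (g := j) (d := d) hW (Node.eqv n)
    (Wt.fsF_ok Θ (Fin.cons (r, c * e b) (Fin.cons (s, e' b) f)) 0) (by
      intro x hx
      rw [Node.re] at hx
      rcases hx with _ | ⟨_, _ | ⟨_, a⟩⟩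
      exacts [trivial, subset_univ _, (Node.ok (.tail (.tw Θ) a)).1])
  filter_upwards [hN F k j d e e' (.tw Θ :: F.insL F.cone (fun i => .inl (Node.eqv n (.inl i)))
    (Fin.cons (r, c) (Fin.cons (s, 1) f))) h he fun _ a => (Node.ok a).1, eventually_all.2 k1,
    F.eventually_bigD k, h.intg_cl (ν := (Fin n ⊕ Fin 0) ⊕ Unit × Bool) (κ := Fin 0) j d]
    with D k0 k1 hD k2
  rw [List.map_cons, Wt.map_insL _ _ (ψ := unp _ _ _) (fun _ => rfl) fun _ _ => rfl] at k0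
  refine Eq.trans ?_ (((h.intM_dg hD _ _ _).symm.trans k0).trans (Finset.sum_congr rfl fun b _ => ?_))
  · rw [insM_cons, insM_cons]
    rfl
  · rw [corP, sub_add_cancel, k1, intM, k2 _ _ fun x a => h.at_ok hD (by
      rcases a with _ | ⟨_, _ | ⟨_, a⟩⟩
      exacts [fun _ a => a.1, fun _ a => a.1, (Node.ok a).1]), Node.re]
    exact congrArg (Loc.intg _) ((h.gz' _ (Fin 0) hD j d 0).prod_pair
      (fun i => .inl (Node.eqv n (.inl i))) Θ r s hc (e b) (e' b) f)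

end Fam.One

/-- **Integrals over the nodes.** -/
theorem St.ndQ (hW : St.Well) (hN : St.NDq) : St.NdQ := by
  intro Λ R J K _ _ _ _ _ F k u B _ e e' Θ β T Θ₁ Θ₂ h hu he hΘ d j n f c I w hc
  obtain ⟨hd, ⟨_, hr⟩, -⟩ := h.nice.dg St.dg
  obtain ⟨_, hR⟩ := h.nice.reg
  obtain ⟨_, hB⟩ := h.nice.sm
  have := h.good.fp
  have k0 := fun (q : ℕ × ℕ) t => h.pair hW hN he (Θ₁ t) d j f q.1 q.2 (Subalgebra.mul_mem _ hc
    (Qrr.evC (fun j => (1 + C (u j) * X : (Hev _)⟦X⟧).invOfUnit 1) (Θ₂ t)).2)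
  filter_upwards [(eventually_all_finset I).2 fun q _ => (eventually_all_finset T).2 fun t _ =>
    k0 q t, h.intg_eq n (j + 1) d, F.eventually_bigD k] with D k0 k1 hD Φ hΦ
  obtain ⟨_, _, _, _, a⟩ := h.good.exists_nc (ν := Fin n ⊕ Fin 0) (κ := Fin 0) h.abs hR hB h.big hD j d
  have e₁ := h.abs.cyc_eq (ν := Fin n ⊕ Fin 0) (κ := Fin 0 ⊕ Unit)
    (ch := F.sch (Fin n ⊕ Fin 0) (Fin 0 ⊕ Unit) k D j d) h.good.toInv
  have := h.compactSpace (ν := Fin n ⊕ Fin 0) (κ := Fin 0) (g := j + 1) (d := d) (u := 0) hD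
  refine ((congrArg _ (k1 _ _ _)).trans ((a.ndP h.good (h.abs.cyc_eq h.good.toInv) e₁).num a.gh.num
    (e₁ ▸ lev_adm h.good.toInv) (h.gz' _ _ hD _ _ _) (h.gz' _ _ hD j d 0) hd hr
    (h.good.isCompact_dia h.cp h.big hD _) (fun j => (hu j).trans
      (congrArg (F.lc _ · _) (Subsingleton.elim _ _))) hΘ mk0 f ⟨c, hc⟩ I w hΦ)).trans ?_
  exact Finset.sum_congr rfl fun q a => congrArg _ (Finset.sum_congr rfl (k0 q a))

end Vale.Agent.P269
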