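import Vale.Agent.P269.Qrr.PrT
import Vale.Agent.P269.Qrr.PrC
import Vale.Agent.P269.Glu.PrCn
import Vale.Agent.P269.Glu.PrPsi
import Vale.Agent.P269.Glu.PrPt
import Vale.Agent.P269.Spl.NFQ

/-!
# Splitting off the component of a marked point
-/

set_option linter.unusedSectionVars false
set_option linter.style.haveILetI false

namespace Vale.Agent.P269

open P291Z Set Function Topology Filter Module Holo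

variable {S Λ R J K ι ν κ ν₁ κ₁ ν₂ κ₂ β : Type} [Fintype S] [Fintype Λ] [Fintype R] [Fintype J]
  [Fintype K] [Fintype ι] [DecidableEq ι] [Fintype ν] [Fintype κ]
  [Fintype ν₁] [Fintype κ₁] [Fintype ν₂] [Fintype κ₂]

namespace Ch

variable {ch : Ch ι J} {n₁ n₂ : Nm ι J} {s : Sv ν κ ν₁ κ₁ ν₂ κ₂} {e : K → ι → ℕ} {K₀ : Set K}
  {ℓ : R → ι → ℤ} [IsEmpty κ₁] [IsEmpty κ₂]

namespace CQ

variable {F : Fam S Λ R J K} {Y : Set (ch.WQ n₁ n₂ ν κ ν₁ κ₁ ν₂ κ₂ Λ)} {T : Set (ch.WF ν κ Λ)}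
  {T₁ : Set ((ch.re n₁).WF ν₁ κ₁ Λ)} {T₂ : Set ((ch.re n₂).WF ν₂ κ₂ Λ)} (hY : Y ⊆ CQ s)
  (h : GZ F ℓ T) (h₁ : GZ F ℓ T₁) (h₂ : GZ F ℓ T₂) (m : MapsTo Prod.fst Y T)
  (m₁ : MapsTo pt₁ Y T₁) (m₂ : MapsTo pt₂ Y T₂) (hN : ch.QN n₁ n₂)
include h h₁ h₂ m₁ m₂ hN

theorem cl₁ (b : κ₁ → κ) {f : Fac F.toWt ν₁ κ₁} (a : f.At T₁) (a' : (f.re (s.φ ∘ .inl) b).At T)
    (n : f.NoTw) : H.map (eqM_fstQ (s := s) (Wg := F.toWt) m).map (F.cl T (f.re (s.φ ∘ .inl) b)) =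
      H.map (eqM_pt₁ (Wg := F.toWt) hY m₁).map (F.cl T₁ f) := by
  obtain rfl : b = fun q => s.ψ (.inl q) := funext isEmptyElim
  rcases f with q | ⟨q, A, c⟩ | ⟨A, c⟩ | q | Θ
  · exact (cls hY h.toOZ h₁.toOZ h₂.toOZ m m₁ m₂ hN).1 q
  · rw [Fac.re, h.cl_ev _ a', h₁.cl_ev _ a, H.map_map, H.map_map]
    exact congrArg (H.map · c) (ContinuousMap.ext (Quot.ind fun z => congrArg (Quo.mk _)
      (Subtype.ext (vl₁ (hY z.2) (h.sol (m z.2)) q).symm)))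
  · rw [Fac.re, h.cl_par a', h₁.cl_par a, H.map_map, H.map_map]
    exact congrArg (H.map · c) (ContinuousMap.ext (Quot.ind fun z => rfl))
  · exact isEmptyElim q
  · exact n.elim

theorem cl₂ (b : κ₂ → κ) {f : Fac F.toWt ν₂ κ₂} (a : f.At T₂) (a' : (f.re (s.φ ∘ .inr) b).At T)
    (n : f.NoTw) : H.map (eqM_fstQ (s := s) (Wg := F.toWt) m).map (F.cl T (f.re (s.φ ∘ .inr) b)) =
      H.map (eqM_pt₂ (Wg := F.toWt) hY m₂).map (F.cl T₂ f) := by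
  obtain rfl : b = fun q => s.ψ (.inr q) := funext isEmptyElim
  rcases f with q | ⟨q, A, c⟩ | ⟨A, c⟩ | q | Θ
  · exact (cls hY h.toOZ h₁.toOZ h₂.toOZ m m₁ m₂ hN).2.1 q
  · rw [Fac.re, h.cl_ev _ a', h₂.cl_ev _ a, H.map_map, H.map_map]
    exact congrArg (H.map · c) (ContinuousMap.ext (Quot.ind fun z => congrArg (Quo.mk _)
      (Subtype.ext (vl₂ (hY z.2) (h.sol (m z.2)) q).symm)))
  · rw [Fac.re, h.cl_par a', h₂.cl_par a, H.map_map, H.map_map]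
    exact congrArg (H.map · c) (ContinuousMap.ext (Quot.ind fun z => rfl))
  · exact isEmptyElim q
  · exact n.elim

theorem cl_prod {Θ} {L : Finset β} {Θ₁ Θ₂} (hΘ : Qrr.Cop Θ L Θ₁ Θ₂) (b₁ : κ₁ → κ) (b₂ : κ₂ → κ)
    {fs₁ : List (Fac F.toWt ν₁ κ₁)} {fs₂ : List (Fac F.toWt ν₂ κ₂)}
    (a₁ : ∀ f ∈ fs₁, f.At T₁ ∧ (f.re (s.φ ∘ .inl) b₁).At T ∧ f.NoTw)
    (a₂ : ∀ f ∈ fs₂, f.At T₂ ∧ (f.re (s.φ ∘ .inr) b₂).At T ∧ f.NoTw) :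
    H.map (eqM_fstQ (s := s) (Wg := F.toWt) m).map ((.tw Θ :: (fs₁.map (Fac.re (s.φ ∘ .inl) b₁) ++
      fs₂.map (Fac.re (s.φ ∘ .inr) b₂))).map (F.cl T)).prod = ∑ t ∈ L,
      H.map (eqM_pt₁ (Wg := F.toWt) hY m₁).map ((.tw (Θ₁ t) :: fs₁).map (F.cl T₁)).prod *
        H.map (eqM_pt₂ (Wg := F.toWt) hY m₂).map ((.tw (Θ₂ t) :: fs₂).map (F.cl T₂)).prod := by
  simp only [List.map_cons, List.prod_cons, List.map_append, List.prod_append, List.map_map,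
    Fam.cl_tw]
  exact PrGT.alg _ _ _ (cls hY h.toOZ h₁.toOZ h₂.toOZ m m₁ m₂ hN).2.2 h₁.constCoeff_indC
    h₂.constCoeff_indC hΘ (PrGT.map_prod _ _ fun f p => cl₁ hY h h₁ h₂ m m₁ m₂ hN b₁ (a₁ f p).1
      (a₁ f p).2.1 (a₁ f p).2.2) (PrGT.map_prod _ _ fun f p => cl₂ hY h h₁ h₂ m m₁ m₂ hN b₂ (a₂ f p).1
        (a₂ f p).2.1 (a₂ f p).2.2)

end CQ

variable {F : Fam Empty Λ R J K} {b b' N₁ N₂ d : ℕ} {U₁ Z₁ : Set ((ch.re n₁).WF ν₁ κ₁ Λ)}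
  {U₂ Z₂ : Set ((ch.re n₂).WF ν₂ κ₂ Λ)} {Z O M : Set (ch.WF ν κ Λ)}

theorem QZ.intg (h : QZ s F e K₀ ℓ b b' U₁ Z₁ U₂ Z₂ N₁ N₂ Z O M d) {l} (hB : F.B = {l})
    (_ : CompactSpace (ModS F (clo F Z))) (_ : CompactSpace (ModS F (clo F Z₁)))
    (_ : CompactSpace (ModS F (clo F Z₂))) (a : Mk ν₁ κ₁) {C : Set (ModS F (clo F Z₁))}
    (hC : IsClopen C)
    (hc : ∀ x, Quo.mk _ x ∈ C ↔ IsConnected (crv x.1.2)) {P : Set (ModS F (clo F Z))}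
    (hP : ∀ x, Quo.mk _ x ∈ P ↔
      ∃ z : ch.WQ n₁ n₂ ν κ ν₁ κ₁ ν₂ κ₂ Λ, z ∈ CQ s ∧ z ∈ Cn ∧ z.1 = x.1)
    {Θ} {L : Finset β} {Θ₁ Θ₂} (hΘ : Qrr.Cop Θ L Θ₁ Θ₂) (b₁ : κ₁ → κ) (b₂ : κ₂ → κ)
    {fs₁ : List (Fac F.toWt ν₁ κ₁)} {fs₂ : List (Fac F.toWt ν₂ κ₂)}
    (a₁ : ∀ f ∈ fs₁, f.At ((ch.re n₁).solF ν₁ κ₁ F ∩ clo F Z₁) ∧
      (f.re (s.φ ∘ .inl) b₁).At (ch.solF ν κ F ∩ clo F Z) ∧ f.NoTw)
    (a₂ : ∀ f ∈ fs₂, f.At ((ch.re n₂).solF ν₂ κ₂ F ∩ clo F Z₂) ∧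
      (f.re (s.φ ∘ .inr) b₂).At (ch.solF ν κ F ∩ clo F Z) ∧ f.NoTw) :
    Loc.intg (virF F e (clo F Z)) (hcls (ind P) * ((.tw Θ :: (fs₁.map (Fac.re (s.φ ∘ .inl) b₁) ++
      fs₂.map (Fac.re (s.φ ∘ .inr) b₂))).map (F.cl _)).prod) = ∑ t ∈ L,
      Loc.intg (virF F e (clo F Z₁)) (hcls (ind C) * ((.tw (Θ₁ t) :: fs₁).map (F.cl _)).prod) *
        Loc.intg (virF F e (clo F Z₂)) ((.tw (Θ₂ t) :: fs₂).map (F.cl _)).prod := by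
  haveI := h.bs.isAct
  haveI := h.bs.nice
  haveI := h.nice₁
  haveI := h.nice₂
  haveI := h.vd.nice h.std
  obtain ⟨c₀, c₁⟩ := F.casB_pt hB
  obtain ⟨Δ, hΔ⟩ := h.bs.exists_isDB
  obtain ⟨p, q⟩ := h.isClosedEmbedding s
  haveI := Nice.of_isEmbedding p.isEmbedding p.isClosed_range.isLocallyClosed
  obtain ⟨r₁, r₂, r₃⟩ := h.res_eq hΔ a
  have k : P = range (eqM_fstQ (s := s) (Wg := F.toWt) h.maps).map := Set.ext <| Quot.ind fun x =>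
    (hP x).trans ⟨fun ⟨z, u, v, w⟩ => ⟨Quo.mk _ ⟨z, ⟨h.clo_eq.ge ⟨u, mem_preimage.2
      (mem_of_eq_of_mem w x.2.2)⟩, mem_preimage.2 (mem_of_eq_of_mem w x.2.1)⟩, v⟩, congrArg (Quo.mk _) (Subtype.ext w)⟩, fun ⟨y, w⟩ =>
      (hP x).1 (mem_of_eq_of_mem w.symm (y.ind (β := fun y =>
        (eqM_fstQ (s := s) (Wg := F.toWt) h.maps).map y ∈ P) fun z =>
          (hP _).2 ⟨z, z.2.1.1.1, z.2.2, rfl⟩))⟩
  rw [k]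
  refine PrGT.main p hΔ.co q (h.bs.hcls_eq hΔ c₁) (i := (EqM.incl inter_subset_left).map) r₁ r₂ r₃ hC
    (Set.ext <| Quot.ind fun z => ⟨fun ⟨y, w⟩ => ?_, fun w =>
      ⟨Quo.mk _ ⟨z, z.2, (hc _).1 w⟩, rfl⟩⟩) ((CQ.cl_prod (fun _ z => z.1.1.1) (h.vd.gz h.std)
        (h.vd₁.gz h.ok₁.toStd) (h.vd₂.gz h.ok₂.toStd) h.maps
        (fun _ z => (eqL₁ s F _ _).maps z.1) (fun _ z => (eqL₂ s F _ _).maps z.1) h.qn hΘ b₁ b₂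
          a₁ a₂).trans (Finset.sum_congr rfl fun t _ => ?_))
  · obtain ⟨y, rfl⟩ := Quot.exists_rep y
    exact mem_of_eq_of_mem w.symm ((hc _).2 y.2.2)
  · exact congrArg₂ (fun f g => H.map f _ * H.map g _) (ContinuousMap.ext (Quot.ind fun _ => rfl))
      (ContinuousMap.ext (Quot.ind fun _ => rfl))

end Ch

namespace Fam

open Ch

variable [DecidableEq R] {k D : ℕ} {g g₁ g₂ : ℤ} {d d₁ d₂ : R → ℤ} {s : Sv ν κ ν₁ κ₁ ν₂ κ₂}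

theorem ctyp_iff {F : Fam S Λ R J K} (hk : F.Big k) (hD : F.BigD k D) (hg : g₁ + g₂ = g + 1)
    (hd : d₁ + d₂ = d) {x : (F.sch ν κ k D g d).WF ν κ Λ} (hx : x.2 ∈ Ch.base _ _) {m}
    (r : Rep ℓs univ x m) (a : Mk ν₁ κ₁) : m.CTyp (m.p (s.mk₁ a)) g₁ d₁ (range s.mk₁) ↔
    ∃ z : (F.sch ν κ k D g d).WQ (F.nms ν₁ κ₁ k D g₁ d₁) (F.nms ν₂ κ₂ k D g₂ d₂) ν κ ν₁ κ₁ ν₂ κ₂ Λ,
      z ∈ CQ s ∧ z ∈ Cn ∧ z.1 = x := by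
  refine ⟨fun c => ?_, ?_⟩
  · obtain ⟨m₁, m₂, j₁, j₂, h, e⟩ := AM.exists_split (AC.sat_cmp (m.p (s.mk₁ a))) s.φ s.ψ
      (fun n => (c.2.2 _).2 ⟨n, rfl⟩) fun n h => let ⟨q, e⟩ := (c.2.2 _).1 h
        Sum.inl_ne_inr ((s.mkS_mk₁ q).symm.trans ((congrArg s.mkS e).trans (s.mkS_mk₂ n)))
    have p := h.one.conn.2 ⟨_, e⟩
    rw [← h.one.mark, ← image_univ] at c
    obtain ⟨z, hz, f, r₁, -⟩ := exists_dec' hk hD hg hd hx r h ((AM.Conn.ctyp p _).1 (h.one.ctyp.1 c)).1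
    exact ⟨z, hz, (CQ.cn_iff hz r₁).2 p, f⟩
  · rintro ⟨z, hz, c, rfl⟩
    obtain ⟨m₁, m₂, j₁, j₂, h, r₁, -⟩ := CQ.exists_rep (chart_lat hD) hz r
    rw [← h.one.mark, ← image_univ]
    exact h.one.ctyp.2 ((AM.Conn.ctyp ((CQ.cn_iff hz r₁).1 c) _).2
      ⟨rep_typ r₁ (CQ.mem₁ hz), rfl⟩)

theorem Nice.qz {F : Fam S Λ R J K} {δ : J → ℕ} (h : F.Nice δ) (hk : F.Big k) (hD : F.BigD k D)
    (hg : g₁ + g₂ = g + 1) (hd : d₁ + d₂ = d) {l} (hB : F.B = {l}) (u : ν → ℕ) :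
    ∃ K₀ b b' U₁ U₂ N₁ N₂ O M n, QZ (ch := F.sch ν κ k D g d) (n₁ := F.nms ν₁ κ₁ k D g₁ d₁)
      (n₂ := F.nms ν₂ κ₂ k D g₂ d₂) s F (F.tdeg (F.sch ν κ k D g d)) K₀ ℓs b b'
      U₁ (Ch.main _ κ₁ F fun n => u (s.φ (.inl n)) • δ) U₂
      (Ch.main _ κ₂ F fun n => u (s.φ (.inr n)) • δ) N₁ N₂ (Ch.main _ κ F fun n => u n • δ) O M n := by
  obtain ⟨K₀, r⟩ := h.reg
  obtain ⟨b, m⟩ := h.sm
  obtain ⟨_, _, _, _, t⟩ := h.sh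
  obtain ⟨b', c⟩ := h.toGood.bsOk m
  obtain ⟨U, o⟩ := h.toGood.ok' ν κ r m hk hD g d
  obtain ⟨U₁, o₁⟩ := h.toGood.ok' ν₁ κ₁ r m hk hD g₁ d₁
  obtain ⟨U₂, o₂⟩ := h.toGood.ok' ν₂ κ₂ r m hk hD g₂ d₂
  exact ⟨K₀, b, b', U₁, U₂, _, _, _, _, _, ⟨qn (s := s) hk hD hg hd, o.toStd, o₁, o₂,
    ⟨lev_main o.inv _, fun _ a => (o₁.num.mfd_main m (o₁.lat.gr o.inv t _) a).2,
      locAn_main o₁.cuts o₁.wt h.pol _⟩, ⟨lev_main o.inv _,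
      fun _ a => (o₂.num.mfd_main m (o₂.lat.gr o.inv t _) a).2, locAn_main o₂.cuts o₂.wt h.pol _⟩,
    fun x a => ⟨a.1.1.1, fun _ p => mem_of_eq_of_mem
      (Prod.ext ((hB.le p).trans (hB.le a.1.1.1).symm) rfl) a⟩, c⟩, o.lat, fun _ a => a.1.1,
    o.vd_sh h.pol t u, Set.ext fun _ => ⟨fun a => ⟨a.1, (CQ.main_iff a.1 o.inv a.2.1 _).2 a.2.2⟩,
      fun a => ⟨a.1, a.2.1, (CQ.main_iff a.1 o.inv a.2.1 _).1 a.2⟩⟩⟩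

end Fam

theorem Fac.Ok.rel {F : Fam S Λ R J K} {u : ν → J → ℕ} {a : ν₁ → ν} (b : κ₁ → κ)
    {f : Fac F.toWt ν₁ κ₁} (h : f.Ok F fun n => u (a n)) : (f.re a b).Ok F u := by
  rcases f with q | ⟨q, A, c⟩ | ⟨A, c⟩ | q | Θ
  case ev => exact fun z hz => h ⟨hz.1, fun n e => hz.2 (a n) (congrArg (Sum.map _ _) e)⟩
  all_goals exact h

/-- **the component of a marked point splits off** -/
theorem St.prC (hW : St.Well) : St.PRc := by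
  intro Λ R J K ν ν₁ ν₂ β _ _ _ _ _ _ _ _ F δ l k g g₁ g₂ d d₁ d₂ φ u a Θ T Θ₁ Θ₂ fs₁ fs₂ h hB hk hg
    hd hΘ o₁ o₂
  have cp : F.Cp := (F.casB_pt hB).1
  have P : F.Sel k g d (fun n => u n • δ) fun m : AM Λ R J ν (Fin 0) =>
      m.CTyp (m.p (.inl (φ (.inl a)))) g₁ d₁ (range fun n => .inl (φ (.inl n))) :=
    .of_same fun _ _ e => e.ctyp
  have p₁ : ∀ f ∈ fs₁, (f.re (φ ∘ .inl) id).Ok F fun n => u n • δ := fun f p => (o₁ f p).1.rel _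
  have p₂ : ∀ f ∈ fs₂, (f.re (φ ∘ .inr) id).Ok F fun n => u n • δ := fun f p => (o₂ f p).1.rel _
  have o : ∀ f ∈ Fac.tw Θ :: (fs₁.map (Fac.re (φ ∘ .inl) id) ++ fs₂.map (Fac.re (φ ∘ .inr) id)),
      f.Ok F fun n => u n • δ := List.forall_mem_cons.2 ⟨trivial, List.forall_mem_append.2
        ⟨List.forall_mem_map.2 p₁, List.forall_mem_map.2 p₂⟩⟩
  have q₁ : ∀ t, ∀ f ∈ Fac.tw (Θ₁ t) :: fs₁, f.Ok F fun n => u (φ (.inl n)) • δ :=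
    fun _ => List.forall_mem_cons.2 ⟨trivial, fun f p => (o₁ f p).1⟩
  have q₂ : ∀ t, ∀ f ∈ Fac.tw (Θ₂ t) :: fs₂, f.Ok F fun n => u (φ (.inr n)) • δ :=
    fun _ => List.forall_mem_cons.2 ⟨trivial, fun f p => (o₂ f p).1⟩
  obtain ⟨D, ⟨⟨hD, w⟩, w₁⟩, w₂⟩ := ((((F.eventually_bigD k).and
    (Fam.Iv.well hW ⟨h, cp, hk, P, o, fun q => q.elim0⟩)).and (T.eventually_all.2 fun t _ =>
      Fam.Iv.well (g := g₁) (d := d₁) hW ⟨h, cp, hk, .conn, q₁ t, fun q => q.elim0⟩)).and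
    (T.eventually_all.2 fun t _ =>
      Fam.Iv.well (g := g₂) (d := d₂) hW ⟨h, cp, hk, .top, q₂ t, fun q => q.elim0⟩)).exists
  have c : ∀ (ν : Type) [Fintype ν] g d (u : ν → J → ℕ), CompactSpace (F.Mod (Fin 0) k D g d u) :=
    fun _ _ _ _ u => Cpt.compactSpace_mod h.toGood hk hD rfl (hB ▸ isCompact_singleton) subset_rfl
      (fun _ a => ⟨1, isUnit_one, h.invB _ isUnit_one _ a⟩) u
  let s : Sv ν (Fin 0) ν₁ (Fin 0) ν₂ (Fin 0) := ⟨φ, Equiv.sumEmpty _ _⟩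
  obtain ⟨K₀, b, b', U₁, U₂, N₁, N₂, O, M, n, z⟩ := h.qz (s := s) hk hD hg hd hB u
  have e : (range fun n => .inl (φ (.inl n))) = range s.mk₁ := Set.ext fun _ =>
    ⟨fun ⟨n, e⟩ => ⟨.inl n, e⟩, fun ⟨n, e⟩ => n.casesOn (fun n e => ⟨n, e⟩) (·.1.elim0) e⟩
  have C := Fam.isClopen_sel_of_same (F := F) (κ := Fin 0) (g := g₁) (d := d₁)
    (u := fun n => u (φ (.inl n)) • δ) hD fun _ _ => AM.Same.conn
  rw [w, Fam.intg_sel (h.gz _ hk hD g d u) _ (Fam.isClopen_sel_of_same hD fun _ _ e => e.ctyp)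
    fun f p => h.at_of_ok hk hD (o f p), Finset.sum_congr rfl fun t p => congrArg₂ (· * ·)
      ((w₁ t p).trans (Fam.intg_sel (h.gz _ hk hD g₁ d₁ _) _ C
        fun f p => h.at_of_ok hk hD (q₁ t f p))) ((w₂ t p).trans
      (Fam.intg_true hD (h.gz _ hk hD g₂ d₂ _) _ fun f p => h.at_of_ok hk hD (q₂ t f p)))]
  refine z.intg hB (c _ _ _ _) (c _ _ _ _) (c _ _ _ _) (.inl a) C (fun x => ?_) (fun x => ?_) hΘ id id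
    (fun f p => ⟨h.at_of_ok hk hD (o₁ f p).1, h.at_of_ok hk hD (p₁ f p), (o₁ f p).2⟩)
    fun f p => ⟨h.at_of_ok hk hD (o₂ f p).1, h.at_of_ok hk hD (p₂ f p), (o₂ f p).2⟩
  · obtain ⟨m, r⟩ := z.ok₁.lat.exists_rep_sol x.2.1
    exact (Fam.mem_sel (fun _ _ => AM.Iso.conn) r).trans (r.conn x.2.1.1.2.1)
  · obtain ⟨m, r⟩ := z.lat.exists_rep_sol x.2.1
    exact (Fam.mem_sel P.1 r).trans
      (e ▸ Fam.ctyp_iff (s := s) hk hD hg hd x.2.1.1.2.1 r (.inl a))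

end Vale.Agent.P269
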