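import Vale.Agent.P269.Qrr.ThD

/-!
# Evaluation and cotangent line classes along the constant maps
-/

set_option linter.unusedSectionVars false
set_option linter.style.haveILetI false

namespace Vale.Agent.P269.Th

open P291Z Set Function Topology Filter Module Base Ch Cv P1 Tq PowerSeries

variable {S Λ R J K ι ν κ : Type} [Fintype S] [Fintype Λ] [Fintype R] [Fintype J] [Fintype K]
  [Fintype ι] [DecidableEq ι] [Fintype ν] [Fintype κ] {ch : Ch ι J} {F : Fam S Λ R J K}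
variable {ℓ : R → ι → ℤ} (c : Dat ν κ ch F.toWt ℓ) {Z : Set (ch.WF ν κ Λ)} (hz : GZ F ℓ Z)
  [Mono.FP F.actT F.cone] (h : Eqh F.actT (actF F.toWt) F.cone Z c.θ c.σ)
include hz

theorem Dat.map_ev (n : Mk ν κ) (a : H (F.X F.cone)) :
    H.map h.toEqv.qm (hcls (evF n F.cone (rep a))) = a := by
  refine (congrArg _ (hz.cl_ev n (fun x hx => vl_mem (hz.sol hx) n) a)).trans ?_
  rw [H.map_map]
  exact H.map_id (fun z => Quot.inductionOn z fun x =>
    congrArg (Quo.mk _) (Subtype.ext (c.vl_σ x n))) a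

theorem Dat.map_psi (n : Mk ν κ) : H.map h.toEqv.qm (hcls (psiF n)) = 0 := by
  haveI := hz.act
  have hf : EqM F.actT (actF F.toWt) F.cone Z c.θ c.σ :=
    ⟨⟨h.hm.ρ.toMonoidHom, h.hm.ρ.continuous, fun _ => rfl⟩, h.maps, h.cont, h.eqv⟩
  have ho := Tq.orb F.actT F.cone
  have k := (hz.psi n).pb hf
  have a := (k.pull ho hz.orb (hz.psi n) hf (L := fun _ => .id) ⟨fun _ _ => continuousOn_const,
    fun _ _ _ a => a, fun _ _ _ a => a, fun _ _ _ _ _ _ => mem_of_eq_of_mem (sub_self _) (zero_mem _)⟩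
    (fun _ _ _ _ a => a) fun _ _ w a => ⟨w, a, mem_of_eq_of_mem (sub_self _) (zero_mem _)⟩).1
  obtain ⟨v, hv⟩ : ∃ v, ∀ z ∈ F.cone, v ∈ (ch.sdψ S Λ n).B (c.σ z) ∧
      v ∉ (ch.sdψ S Λ n).N (c.σ z) := by
    by_cases e : (ch.sdψ S Λ n).B (c.σ 0) ≤ (ch.sdψ S Λ n).N (c.σ 0)
    · refine ⟨0, fun z b => absurd (Submodule.finrank_mono e) ?_⟩
      rw [show finrank ℂ ((ch.sdψ S Λ n).B (c.σ 0)) = _ from k.famB.rank z b,
        show finrank ℂ ((ch.sdψ S Λ n).N (c.σ 0)) = _ from k.famN.rank z b]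
      omega
    · obtain ⟨v, b⟩ := SetLike.not_le_iff_exists.1 e
      exact ⟨v, fun _ _ => b⟩
  obtain ⟨_, E, _, _, -, -, m, -⟩ := k.exists_isMod ho
  obtain ⟨s, s1, -, s2⟩ := m.exists_sec (σ := fun _ => v) continuousOn_const (fun z b => (hv z b).1)
    fun z _ b hb => mem_of_eq_of_mem (sub_eq_zero.2 (funext₂ fun i j => by
      simp only [c.dup_θ]
      simp [Dat.θ, dgA, wt_one, c.t_ne (isUnit_T.1 hb).2 i])) (zero_mem _)
  rw [show hcls (psiF n) = _ from hz.cl_psi n, map_neg, H.map_hcls _ ((hz.psi n).cocycle hz.orb),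
    neg_eq_zero]
  exact a.symm.trans ((SD.hcls_presA ho m).trans (congrArg Subtype.val
    (s1.eu_eq_zero fun t e => (hv _ ((presA ho).mem t)).2 ((s2 t).1 e))))

end Vale.Agent.P269.Th
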