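import Vale.Agent.P269.Qrr.ThD
import Vale.Agent.P269.Qrr.ThJ

/-!
# The index classes along the constant maps
-/

set_option linter.unusedSectionVars false

namespace Vale.Agent.P269.Th

open P291Z Set Function Topology Filter Module Base Ch Cv P1 Tq PowerSeries

variable {S Λ R J K ι ν κ : Type} [Fintype S] [Fintype Λ] [Fintype R] [Fintype J] [Fintype K]
  [Fintype ι] [DecidableEq ι] [Fintype ν] [Fintype κ] {ch : Ch ι J} {F : Fam S Λ R J K}
variable {ℓ : R → ι → ℤ} (c : Dat ν κ ch F.toWt ℓ) {Z : Set (ch.WF ν κ Λ)} (hz : GZ F ℓ Z)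
  [Mono.FP F.actT F.cone] (h : Eqh F.actT (actF F.toWt) F.cone Z c.θ c.σ)
include hz

theorem Dat.map_indC (j : J) :
    PowerSeries.map (Hev.map h.toEqv.qm).toRingHom (indC F.toWt Z j) =
      1 + C (F.lce F.cone (F.wt j, F.w j)) * X :=
  ThP.map_indC (orb _ _) hz.toOZ h c.gz (fun z _ => c.std_σ z) (t := fun b => c.t b.2)
    (fun _ _ _ _ => funext fun _ => by simp [Dat.θ, dgA]) (c.wd_deg j) (hm_chT _ _)
    (fun _ hb => by
      rw [← inv_inv (∏ i, _ ^ ch.wd j i), c.t_wd (isUnit_T.1 hb).2]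
      exact mul_inv_cancel_right₀ (prod_zpow_ne (isUnit_T.1 hb).2 _) _) (lce_val _)

end Vale.Agent.P269.Th
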