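import Vale.Agent.P269.Qrr.ThD
import Vale.Agent.P269.Qrr.Fac
import Vale.Agent.P269.Bas.Lv
import Vale.Agent.P269.Glu.Diag0
import Vale.Agent.P269.Prj.TgtM

/-!
# The virtual class of the constant maps with three marked points
-/

set_option linter.unusedSectionVars false
set_option linter.style.haveILetI false

namespace Vale.Agent.P269.Th

open P291Z Set Function Topology Filter Module Base Ch Cv P1 Tq Holo Vir
open OnePoint hiding some map_smul

section gen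

variable {S Λ R J K ι ν κ : Type} [Fintype S] [Fintype Λ] [Fintype R] [Fintype J] [Fintype K]
  [Fintype ι] [DecidableEq ι] [Fintype ν] [Fintype κ] {ch : Ch ι J} {F : Fam S Λ R J K}
  {e : K → ι → ℕ} {ℓ : R → ι → ℤ} {K₀ : Set K}

/-- the values at the point `z` -/
def tst (z : ch.Pt) : (Σ j, ch.Th j × ch.Th j) ⊕ K × ch.Zt → ch.P K →ₗ[ℂ] ℂ
  | .inl m => ⟨⟨fun f => f.1 m.1 z m.2, fun _ _ => rfl⟩, fun _ _ => rfl⟩
  | .inr k => ⟨⟨fun f => f.2 k.1 z k.2, fun _ _ => rfl⟩, fun _ _ => rfl⟩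

theorem tst_zero {z : ch.Pt} {f : ch.P K} : evZ z f = 0 ↔ ∀ t, tst z t f = 0 :=
  ⟨fun h t => by
    rcases t with ⟨j, m⟩ | ⟨k, ζ⟩
    exacts [congrFun (congrFun (congrArg Prod.fst h) j) m,
      congrFun (congrFun (congrArg Prod.snd h) k) ζ],
    fun h => Prod.ext (funext₂ fun j m => h (.inl ⟨j, m⟩)) (funext₂ fun k ζ => h (.inr (k, ζ)))⟩

theorem an_yv (z : ch.Pt) (j : J) (μ : ch.Th j) (x : ch.WF ν κ Λ) :
    AnalyticAt ℂ (fun y : ch.WF ν κ Λ => z.2 (some j) (y.2.X j μ)) x :=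
  ((z.2 (some j) ∘L ContinuousLinearMap.apply ℂ _ μ ∘L W.XL j).analyticAt _).comp analyticAt_snd

theorem an_tst (z : ch.Pt) (t) (x : ch.WF ν κ Λ) :
    AnalyticAt ℂ (fun y => tst z t (sctF F e y)) x := by
  rcases t with ⟨j, m⟩ | ⟨k, ζ⟩
  · exact (analyticAt_const.mul (an_yv z j _ x)).sub (analyticAt_const.mul (an_yv z j _ x))
  change AnalyticAt ℂ (fun y : ch.WF ν κ Λ => hmg (F.fib y.1) e k ζ z.1 _) x
  simp only [hmg_fib, eval_hp]
  exact Finset.analyticAt_fun_sum _ fun α _ =>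
    (((AnalyticOnNhd.eval_mvPolynomial _ _ trivial).comp analyticAt_fst).mul
      (Finset.analyticAt_fun_prod _ fun j _ => (an_yv z j _ x).fun_pow _)).mul analyticAt_const

theorem fderiv_tst (z : ch.Pt) (t) (x v : ch.WF ν κ Λ) :
    fderiv ℂ (fun y => tst z t (sctF F e y)) x v =
      deriv (fun ε : ℂ => tst z t (sctF F e (x + ε • v))) 0 :=
  (an_tst z t x).differentiableAt.lineDeriv_eq_fderiv.symm

theorem ap_line (z : ch.Pt) (j : J) (μ : ch.Th j) (x v : ch.WF ν κ Λ) (ε : ℂ) :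
    z.2 (some j) ((x + ε • v).2.X j μ) = z.2 (some j) (x.2.X j μ) + ε * z.2 (some j) (v.2.X j μ) :=
  (map_add (z.2 (some j)) (x.2.X j μ) (ε • v.2.X j μ)).trans (by rw [map_smul, smul_eq_mul])

theorem fderiv_inl (z : ch.Pt) (j : J) (m) (x v : ch.WF ν κ Λ) :
    fderiv ℂ (fun y => tst z (.inl ⟨j, m⟩) (sctF F e y)) x v = kos (tvZ z.1 j) (yv v.2 z j) m := by
  rw [fderiv_tst, show (fun ε : ℂ => tst z (.inl ⟨j, m⟩) (sctF F e (x + ε • v))) = fun ε =>
    kos (tvZ z.1 j) (yv x.2 z j) m + ε * kos (tvZ z.1 j) (yv v.2 z j) m from funext fun ε => by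
      rw [← kos_smul, ← kos_add]
      exact congrArg (kos (tvZ z.1 j) · m)
        (show yv (x + ε • v).2 z j = yv x.2 z j + ε • yv v.2 z j from
          LinearMap.ext fun μ => ap_line z j μ x v ε)]
  exact (((hasDerivAt_id' (0 : ℂ)).mul_const _).const_add _).deriv.trans (one_mul _)

theorem fderiv_inr (z : ch.Pt) (k : K) (ζ) (x : ch.WF ν κ Λ) {v : ch.WF ν κ Λ} (hv : v.1 = 0) :
    fderiv ℂ (fun y => tst z (.inr (k, ζ)) (sctF F e y)) x v =
      ∑ j, (Ch.pd F e x z).D k ζ j * yv v.2 z j (pwT ζ j) := by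
  rw [fderiv_tst, ← deriv_hmg]
  refine congrArg (deriv · 0) (funext fun ε => ?_)
  change hmg (F.fib (x.1 + ε • v.1)) e k ζ z.1 _ = _
  rw [hv, smul_zero, add_zero]
  exact congrArg _ (funext fun j => ap_line z j _ x v ε)

open Classical in
theorem finrank_dirs (mov : Set J) : finrank ℂ (dirs Λ ν κ ch mov) =
    ∑ j with j ∈ mov, finrank ℂ (ch.Th j) * ch.h (some j) := by
  have : ∀ j, Module.Free ℂ (ch.Th j →L[ℂ] ch.E (some j)) := fun j =>
    .of_divisionRing ℂ (ch.Th j →L[ℂ] ch.E (some j))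
  rw [(LinearEquiv.ofBijective (LinearMap.pi fun j : mov =>
    (W.XL (ch := ch) (ν := Mk ν κ) j.1).toLinearMap ∘ₗ LinearMap.snd ℂ _ (ch.W (Mk ν κ)) ∘ₗ
    (dirs Λ ν κ ch mov).subtype) ⟨fun Y Y' h => ?_, fun Y =>
      ⟨⟨(0, W.mk' 0 0 0 fun j => if h : j ∈ mov then Y ⟨j, h⟩ else 0), mem_dirs.2
        ⟨rfl, fun _ => rfl, fun _ => rfl, rfl, fun j hj => dif_neg hj⟩⟩,
        funext fun j => dif_pos j.2⟩⟩).finrank_eq, finrank_pi_fintype]
  · rw [Finset.sum_subtype (p := (· ∈ mov)) _ (by simp)]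
    exact Finset.sum_congr rfl fun j _ => by
      rw [← (LinearMap.toContinuousLinearMap (𝕜 := ℂ)).finrank_eq, finrank_linearMap,
        finrank_fin_fun]
  obtain ⟨a1, a2, a3, a4, a5⟩ := mem_dirs.1 Y.2
  obtain ⟨b1, b2, b3, b4, b5⟩ := mem_dirs.1 Y'.2
  refine Subtype.ext (Prod.ext (a1.trans b1.symm) (W.ext (fun l => (a2 l).trans (b2 l).symm)
    (fun n => (a3 n).trans (b3 n).symm) (a4.trans b4.symm) fun j => ?_))
  by_cases hj : j ∈ mov
  exacts [congrFun h ⟨j, hj⟩, (a5 j hj).trans (b5 j hj).symm]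

theorem sm_zero {l : Λ → ℂ} (h : F.B = {l}) : F.Sm 0 := fun u => by
  have := (Edg.isMfd_aff (U := ⊥) (a := l) (z := u) IsEmbedding.subtypeVal
    (fun z => sub_eq_zero.2 (h.le z.2)) (.of_forall fun x a =>
      ⟨⟨x, h.ge (sub_eq_zero.1 a)⟩, rfl⟩)).1
  rwa [finrank_bot] at this

theorem sh_abs (h : F.Abs) : F.Sh 0 (Empty.elim : Empty → J) (fun _ => 0) fun _ _ => 1 :=
  ⟨fun i => i.elim, linearIndependent_empty_type, fun _ i => i.elim, fun _ a b => (b (h.1 a)).elim,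
    fun _ _ _ => ⟨analyticAt_const, one_ne_zero⟩, fun _ a b => (b (h.1 a)).elim,
    fun _ a b => (b (h.1 a)).elim, fun _ _ _ _ _ => iff_of_true (h.2 ▸ mem_univ _)
      fun _ a b => (b (h.1 a)).elim, fun _ _ => rfl⟩

theorem main_eq [DecidableEq R] (hA : F.Abs) (hF : F.Inv) (hc : ch.Cuts) :
    ch.main κ F (0 : ν → J → ℕ) = ch.cyc κ F 0 :=
  Subset.antisymm (fun _ a => ⟨subset_closure a, a.1.1⟩) fun _ a =>
    ⟨(lev_cyc hF hc _).adm a, fun _ c e => (e (hA.1 c)).elim⟩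

namespace Dat

/-- the directions of the constant maps -/
noncomputable def dσ (c : Dat ν κ ch F.toWt ℓ) : (J → ℂ) →ₗ[ℂ] ch.WF ν κ Λ where
  toFun η := (0, W.mk' 0 0 0 fun j => η j • c.x.X j)
  map_add' a b := Prod.ext (add_zero _).symm (W.ext (fun _ => (add_zero _).symm)
    (fun _ => (add_zero _).symm) (add_zero _).symm
      fun j => ContinuousLinearMap.ext fun μ => add_smul (a j) (b j) (c.x.X j μ))
  map_smul' a _ := Prod.ext (smul_zero a).symm (W.ext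
    (fun _ => ContinuousLinearMap.ext fun _ => (smul_zero a).symm) (fun _ => (smul_zero a).symm)
    (ContinuousLinearMap.ext fun _ => (smul_zero a).symm) fun _ => mul_smul _ _ _)

variable (c : Dat ν κ ch F.toWt ℓ)

theorem ker_le (hf : ch.Fits F e) (z : (Λ → ℂ) × (J → ℂ)) {v : ch.WF ν κ Λ}
    (hv : v ∈ dirs Λ ν κ ch F.mov)
    (H : ∀ p ∈ gr c.x, ∀ t, fderiv ℂ (fun y => tst p t (sctF F e y)) (c.σ z) v = 0) :
    v ∈ (F.vert z).map c.dσ := by
  obtain ⟨a1, a2, a3, a4, a5⟩ := mem_dirs.1 hv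
  have g := c.std.par_mem c.gz
  obtain ⟨η, hη⟩ := c.eq_σ (y := (z.1, W.mk' c.x.Q c.x.p c.x.Ξ v.2.X)) (c.std.congr rfl rfl rfl)
    fun j => by
      choose m hm using fun y => tvZ_ne (c.gz.par_ne y) j
      exact ⟨_, fun y μ => LinearMap.congr_fun (eq_of_kos (Y := yv v.2 (par ch y, evs ch y) j)
        (hm y) fun m' => (fderiv_inl _ j _ _ v).symm.trans (H _ (g y) _)) μ⟩
  have k : ∀ j, v.2.X j = η j • c.x.X j := fun j => congrArg (·.2.X j) hη
  have k' : ∀ j μ, yv v.2 (par ch ∞, evs ch ∞) j μ = η j * tvZ (par ch ∞) j μ := fun j μ =>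
    (congrArg (fun T : _ →L[ℂ] _ => evs ch ∞ (some j) (T μ)) (k j)).trans (c.ind_σ (z.1, η) j ∞ μ)
  have h0 : ∀ j ∉ F.mov, η j = 0 := fun j hj => by
    obtain ⟨μ, a⟩ := tvZ_ne (c.gz.par_ne ∞) j
    exact (mul_eq_zero.1 ((k' j μ).symm.trans (by simp [yv, a5 j hj]))).resolve_right a
  refine ⟨η, Fam.mem_vert.2 ⟨h0, fun q => ?_⟩, Prod.ext a1.symm (W.ext (fun l => (a2 l).symm)
    (fun n => (a3 n).symm) a4.symm fun j => (k j).symm)⟩
  obtain ⟨ζ, hζ⟩ := exists_Zt (c.gz.par_ne ∞)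
  have r := hf.rel (x := c.σ z) (z := (par ch ∞, evs ch ∞)) (y := z.2)
    (fun j => LinearMap.ext (c.ind_σ z j ∞)) q ζ
  refine (Finset.sum_congr rfl fun j _ => ?_).trans
    ((fderiv_inr _ q ζ _ a1).symm.trans (H _ (g ∞) _))
  by_cases hj : j ∈ F.mov
  · rw [k', mul_left_comm, show (Ch.pd F e _ _).D q ζ j * tvZ _ j _ = _ from r j hj, mul_comm]
    simp [Ch.pd, hζ, σ]
  · rw [k', h0 j hj, zero_mul, mul_zero, mul_zero]

include c in
theorem eu_eq (w : R → ℤ) : ch.eu (fun i => ∑ r, w r * ℓ r i) = 1 := by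
  simp only [eu, Finset.sum_mul, mul_assoc, c.gz.g]
  rw [Finset.sum_comm]
  simp [← Finset.mul_sum, c.deg]

variable [DecidableEq R] [IsEmpty κ] {U : Set (ch.WF ν κ Λ)}

theorem res_gen (h : ch.Ok F e K₀ ℓ 0 U) (hE : F.PolE) (hA : F.Abs) {l : Λ → ℂ} (hB : F.B = {l})
    [Mono.FP F.actT F.cone] (hι : Fintype.card ι = Fintype.card R + 1) (hν : Fintype.card ν = 3)
    (hf : Eqh F.actT (actF F.toWt) F.cone (ch.solF ν κ F ∩ ch.cyc κ F (0 : ν → J → ℕ)) c.θ c.σ) :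
    IsOpenEmbedding hf.toEqv.qm ∧ haveI := (h.gz_cyc (0 : ν → J → ℕ)).nice
      res hf.toEqv.qm (virF F e (ch.cyc κ F (0 : ν → J → ℕ))) = Tq.fnd F.actT F.cone := by
  classical
  have v : Vm F e (0 : ν → J → ℕ) U _ := h.vd_sh hE (sh_abs hA) 0
  have em := main_eq (ν := ν) (κ := κ) hA h.inv h.cuts
  obtain ⟨n, g⟩ := v.gd h.toStd
  obtain ⟨O, hO, eO⟩ := v.dom.opn
  obtain ⟨τ, a2, a3⟩ := c.exists_τ
  have hm : ∀ z ∈ F.cone, ∃ m, m + Nat.card K₀ = Nat.card F.mov ∧ MfdAt F.cone m z :=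
    fun z hz => by
      obtain ⟨m, h1, h2⟩ := (sh_abs hA).mfd h.inv h.sm hz
      refine h.reg.mfd h.inv hz (mem_of_eq_of_mem (s := {m | MfdAt F.bs m z}) ?_ h2)
      have := Set.ncard_add_ncard_compl F.mov
      rw [range_eq_empty, sdiff_empty, ← Nat.card_eq_fintype_card, Nat.card_coe_set_eq] at h1
      rw [Nat.card_coe_set_eq]
      omega
  rw [v.virF_vr h.toStd]
  refine (eO ▸ c.slc h.inv hA hB hO).main g (T := gr c.x × _) (φ := fun t => tst t.1 t.2)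
    (fun _ => an_tst _ _) (fun x hx w hw => ?_) (fun x hx => ⟨hx, by
      have := v.cyc.mfd
      rw [em] at this
      exact this _⟩)
    (.of_mfd (m := Nat.card F.mov - Nat.card K₀) fun z hz => ?_) hf c.an_σ a2 a3
    (fun _ => c.σ_mem_Fl h.inv hA) (fun y hy => ?_) (fun z hz => ⟨(F.vert z).map c.dσ, ?_,
      fun u hu H => c.ker_le h.fits z hu fun p hp t => H (⟨p, hp⟩, t)⟩) fun ⟨z, hz⟩ => ?_
  · have : gr x.2 = gr c.x := by rw [gr, gr, (c.std.unique hx.2.2.1).1]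
    simp only [mem_vanM, this, tst_zero, Prod.forall, Subtype.forall]
    exact and_iff_right hw
  · obtain ⟨m, h1, h2⟩ := hm z hz
    rwa [← h1, Nat.add_sub_cancel]
  · obtain ⟨z, a, rfl⟩ := c.exists_σ hy.1.1 hy.2.2.1
    exact ⟨z, a, rfl⟩
  · have := Fam.finrank_vert h.inv h.reg hz
    exact (Submodule.finrank_map_le _ _).trans (by omega)
  obtain ⟨m, h1, h2⟩ := hm z hz
  have h3 := Mono.FP.finrank_le (x := Sp.of F.actT z hz) (h2.isMfd hz)
  have b0 := c.σ_mem h.inv hz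
  have b1 := (h.num.mfd_main h.sm (h.lat.gr h.inv (sh_abs hA) 0)
    (em.ge (hA.sol_subset h.inv b0))).1
  have b2 := vdim_eq (F := F) (ℓ := ℓ) (K₀ := K₀) (b := 0) h.cuts.ne b0.1.2.1 (Fintype.card Empty)
  have b3 := h.toStd.rk_nonneg b0
  have b4 : ∀ j, ch.eu (ch.wd j) = 1 := fun j => funext (c.wd j) ▸ c.eu_eq _
  have b5 : ∀ k, ch.eu (F.dk ℓ k) = 1 := fun k => c.eu_eq _
  have b6 : ch.rk F ℓ K₀ = finrank ℂ (dirs Λ ν κ ch F.mov) - Nat.card F.mov + Nat.card K₀ := by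
    have a : ∀ j, ch.eu (fun i => ch.a (some j) i) = ch.h (some j) := fun j =>
      (h_eq₁ b0.1.2.1 (h.cuts.ne _)).symm
    have a' : ∀ j, ch.eu (fun i => ch.a (some j) i - ch.b j i) = 1 := b4
    simp only [rk, finrank_dirs, a, a', b5, Finset.sum_sub_distrib, Finset.sum_const,
      Nat.card_eq_fintype_card, Fintype.card_subtype]
    simp
  have b7 : ch.vdim ν κ F ℓ K₀ 0 (Fintype.card Empty) =
      Nat.card F.mov - Nat.card K₀ - finrank ℂ ((S → ℂ) × (R → ℂ)) := by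
    simp only [vdim, b4, b5, Finset.sum_const, Nat.card_eq_fintype_card, Fintype.card_subtype,
      c.gz.g, hι]
    simp [hν]
    ring
  omega

end Dat

end gen

variable {Λ R J K ν κ : Type} [Fintype Λ] [Fintype R] [Fintype J] [Fintype K]
  [Fintype ν] [Fintype κ] {F : Fam Empty Λ R J K} [DecidableEq R] [IsEmpty κ] {k D : ℕ}

/-- **the virtual class is the fundamental class of the target** -/
theorem Dat.res_vir (c : Dat ν κ (F.sch ν κ k D 0 0) F.toWt ℓs) (hF : F.One k) (hD : F.BigD k D)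
    (hν : Fintype.card ν = 3)
    (h : Eqh F.actT (actF F.toWt) F.cone (F.Zs κ k D 0 0 (0 : ν → J → ℕ)) c.θ c.σ) :
    IsOpenEmbedding h.toEqv.qm ∧ haveI := (hF.gz' ν κ hD 0 0 0).nice
      res h.toEqv.qm (F.vir κ k D 0 0 (0 : ν → J → ℕ)) = Tq.fnd F.actT F.cone :=
  let ⟨_, a⟩ := hF.nice.reg
  let ⟨_, b⟩ := hF.pt
  let ⟨_, d⟩ := hF.good.ok' ν κ a (sm_zero b) hF.big hD 0 0
  haveI := hF.good.fp
  c.res_gen d hF.nice.pol hF.abs b Fintype.card_option hν h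

end Vale.Agent.P269.Th
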