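import Vale.Agent.P269.B.Iface
import Vale.Agent.P269.Deg.Van

/-!
# Quantum Riemann-Roch: the recursion for one target, external products
-/

namespace Vale.Agent.P269.Qrr

open Fock Finset

section op

variable {H : Type} [AddCommGroup H] [Module ℂ H] {p : Par ℂ H} {ι : Type} [Fintype ι]
  {fr : Frame p ι} {C : Type} [CommRing C] [Algebra ℂ C] (ac : B.Act fr C)
  {L : Type} (T : Finset L) (b : L → ℂ) (u : L → C)

/-- The terms of the Riemann-Roch operator of order `ε^k` with `z^(q - 1)`, `P q`, for line bundles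
with weights `b l` and first Chern classes `u l`. -/
noncomputable def aK (P : ℕ → Prop) [DecidablePred P] (k : ℕ) : Module.End ℂ (LL H) :=
  if k = 0 then 0 else ∑ l ∈ T, ∑ q ∈ antidiagonal (k + 1) with P q.1,
    ((-1) ^ k * k.factorial / b l ^ k * (bernoulli q.1 : ℚ) /
      (q.1.factorial * q.2.factorial) : ℂ) • (zp ℂ H (q.1 - 1) * cst (ac.act (u l ^ q.2)))

/-- The total Chern class `∏ (1 + ε u_l / b_l)`. -/
noncomputable def cI : PowerSeries C :=
  ∏ l ∈ T, (1 + PowerSeries.C ((b l)⁻¹ • u l) * PowerSeries.X)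

/-- The skew part of the Riemann-Roch operator multiplied with a series of classes. -/
noncomputable def aT (v : PowerSeries C) (k : ℕ) : Module.End ℂ (LL H) :=
  ∑ q ∈ antidiagonal k, cst (ac.act (PowerSeries.coeff q.1 v)) * aK ac T b u (· ≠ 1) q.2

/-- The recursion: `Z j m` has genus `j + 1` and the class `Θ_m` inserted. -/
def Rec (κ : ℕ → ℂ) (Z : ℤ → ℕ → S (p.fs ℕ) →ₗ[ℂ] ℂ) : Prop :=
  ∀ j (m : ℕ) x, m * Z j m x = ∑ q ∈ antidiagonal m,
    (Z j q.1 (κ q.2 • x - fr.q0 (aK ac T b u (fun _ => True) q.2) x) -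
      Z (j - 1) q.1 (fr.q1 (aT ac T b u (cI T b u) q.2) x) -
      Z (j + 1) q.1 (fr.qm (aT ac T b u (Ring.inverse (cI T b u)) q.2) x))

variable {r : ℕ} (a : Fin (r + 1) → ℂ) (c : Fin (r + 1) → C) (i : Fin (r + 1))

theorem aK_eq (P : ℕ → Prop) [DecidablePred P] (k : ℕ) : B.aK ac a c P i k =
    aK ac (univ.erase i) (fun l => a l - a i) (fun l => c l - c i) P k := rfl

theorem cI_eq : B.cI a c i = cI (univ.erase i) (fun l => a l - a i) (fun l => c l - c i) := rfl

theorem aT_eq (v : PowerSeries C) (k : ℕ) : B.aT ac a c v i k =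
    aT ac (univ.erase i) (fun l => a l - a i) (fun l => c l - c i) v k := rfl

end op

section xp

variable {K : Type*} [CommRing K] {H : Type*} [AddCommGroup H] [Module K H] (p : Par K H) {n : ℕ}

variable (K H) in
/-- The component of an insertion. -/
noncomputable def pj (i : Fin n) : VV (Fin n → H) →ₗ[K] VV H :=
  Finsupp.mapRange.linearMap (LinearMap.proj i)

variable (K H) in
/-- An insertion on one component. -/
noncomputable def inj (i : Fin n) : VV H →ₗ[K] VV (Fin n → H) :=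
  Finsupp.mapRange.linearMap (LinearMap.single K (fun _ => H) i)

theorem isEv_pj (i : Fin n) : IsEv ((p.pi (Fin n)).fs ℕ) (p.fs ℕ) (pj K H i) := fun _ => by
  ext; rfl

theorem isEv_inj (i : Fin n) : IsEv (p.fs ℕ) ((p.pi (Fin n)).fs ℕ) (inj K H i) := fun _ => by
  ext1; simp [inj, Par.pi_σ_single]

variable [Algebra ℚ K] {A : Type*} [CommRing A] [Algebra K A]

/-- The external product of functionals. -/
noncomputable def xp (Z : Fin n → S (p.fs ℕ) →ₗ[K] A) : S ((p.pi (Fin n)).fs ℕ) →ₗ[K] A :=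
  (List.ofFn fun i => Deg.Fn.pull (pj K H i) (isEv_pj p i)
    (Deg.Fn.of (Deg.SPar.triv K A) (Z i))).prod.ap

end xp

/-- A sequence of functionals as a functional with values in power series. -/
noncomputable def ps {V : Type*} [AddCommGroup V] [Module ℂ V] (Z : ℕ → V →ₗ[ℂ] ℂ) :
    V →ₗ[ℂ] PowerSeries ℂ where
  toFun x := PowerSeries.mk fun m => Z m x
  map_add' x y := by ext; simp
  map_smul' c x := by ext; simp

section one

variable {H : Type} [AddCommGroup H] [Module ℂ H] {p : Par ℂ H} {ι : Type} [Fintype ι]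
  {fr : Frame p ι} (d : VD fr) {C : Type} [CommRing C] [Algebra ℂ C] (ac : B.Act fr C) {r : ℕ}
  (a : Fin (r + 1) → ℂ) (c : Fin (r + 1) → C) {Γ : Type} (o : Γ)
  (Z : Fin (r + 1) → Γ → ℤ → ℕ → S (p.fs ℕ) →ₗ[ℂ] ℂ)

/-- The twisted theories of the single fixed components. -/
structure One (κ : Fin (r + 1) → ℕ → ℂ) : Prop where
  ev : ∀ i β j m x, Z i β j m (par _ x) = Z i β j m x
  vir : ∀ i β, d.VirC fun j => Z i β j 0
  κ_zero : ∀ i, κ i 0 = 0
  qrr : ∀ i β, Rec ac (univ.erase i) (fun l => a l - a i) (fun l => c l - c i) (κ i) (Z i β)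
  low : ∀ i β x, ∃ J : ℤ, ∀ m j, Z i β j m x ≠ 0 → J ≤ j
  norm_neg : ∀ i j m, Z i o j m 1 ≠ 0 → 0 ≤ j
  norm_zero : ∀ i m, Z i o 0 m 1 = if m = 0 then 1 else 0

/-- The twisted theory of the whole fixed locus. -/
noncomputable def ZB (β : Γ) (jv : Fin (r + 1) → ℤ) (m : ℕ) :
    S ((p.pi (Fin (r + 1))).fs ℕ) →ₗ[ℂ] ℂ :=
  PowerSeries.coeff m ∘ₗ xp p fun i => ps (Z i β (jv i))

/-- Its extension to Laurent series. -/
noncomputable def ZF (β : Γ) (jv : Fin (r + 1) → ℤ) :
    S (((p.bc B.F).pi (Fin (r + 1))).fs ℕ) →ₗ[B.F] B.F :=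
  Classical.epsilon fun W => ∀ x, W (bcS _ (B.isEvS_jV p B.F) x) =
    Hat.ofPS ℂ (PowerSeries.mk fun m => ZB Z β jv m x)

end one

end Vale.Agent.P269.Qrr
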