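import Vale.Agent.P269.Qrr.NdA
import Vale.Agent.P269.Qrr.NdG
import Vale.Agent.P269.Glu.Main
import Vale.Agent.P269.Bas.Lv

/-!
# The labelled solutions are a double covering of the nodes
-/

set_option linter.unusedSectionVars false

namespace Vale.Agent.P269.Ch.NC

open P291Z Set Function Topology Filter Base Cv Holo Module KD

variable {S Λ R J K ι ν κ : Type} [Fintype S] [Fintype Λ] [Fintype R] [Fintype J] [Fintype K]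
  [Fintype ι] [DecidableEq ι] [Fintype ν] [Fintype κ] {ch : Ch ι J} {n : Nm ι J}
  {F : Fam S Λ R J K} {e : K → ι → ℕ} {K₀ : Set K} {ℓ : R → ι → ℤ} {P U : Set (ch.WF ν κ Λ)}
  {V : Set ((ch.re n).WF ν (κ ⊕ Unit) Λ)} {N₀ N : ℕ} (h : ch.NC n F e K₀ ℓ P V N₀ N)
include h

theorem OL_eq (hP : ch.adm ν κ F ∩ U ⊆ P) : ch.OL n F (ch.adm ν κ F ∩ U) =
    Zf F ((ch.re n).adm ν (κ ⊕ Unit) F ∩ V) ∩ Prod.fst ⁻¹' U :=
  Set.ext fun z => ⟨fun a => ⟨⟨⟨a.1.1.1, ⟨a.1.1.2.1, h.loc z ⟨a.1, hP a.2⟩⟩, a.1.1.2.2⟩, a.1.2⟩,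
    a.2.2⟩, fun a => ⟨⟨⟨a.1.1.1, a.1.1.2.1.1, a.1.1.2.2⟩, a.1.2⟩,
      Zb.adm h.gh.num h.gh.std.inv inter_subset_left a.1.1, a.2⟩⟩

theorem ZL_eq : (ZL F ((ch.re n).adm ν (κ ⊕ Unit) F ∩ V) : Set (ch.WG n ν κ Unit Λ)) =
    ZL F ((ch.re n).adm ν (κ ⊕ Unit) F) :=
  Set.ext fun z => ⟨fun a => ⟨⟨⟨a.1.1.1, a.1.1.2.1.1, a.1.1.2.2⟩, a.1.2⟩, a.2⟩, fun a =>
    ⟨⟨⟨a.1.1.1, ⟨a.1.1.2.1, h.loc z ⟨a.1, h.pr.sol a.2⟩⟩, a.1.1.2.2⟩, a.1.2⟩, a.2⟩⟩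

variable (hU : IsOpen U) (hP : ch.adm ν κ F ∩ U ⊆ P)
include hU hP

theorem mf : Mf (ch.AF ν κ S) (ch.adm ν κ F ∩ U) (N₀ - finrank ℂ (ch.AF ν κ S)) := fun x hx => by
  rw [Nat.add_sub_cancel' (h.pr.finrank_le (lev_adm h.gh.std.inv) (h.mfd x hx.1) (hP hx))]
  exact (h.mfd x hx.1).inter' hU hx.2

variable [IsAct (actF F.toWt) (ch.adm ν κ F ∩ U)]
  (ho : Orb.Orb (ch.AF ν κ S)ˣ (Holo.Sp (actF F.toWt) (ch.adm ν κ F ∩ U)))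
include ho

theorem str_nod : Str (actC F.toWt) (nod (ch.adm ν κ F ∩ U)) (N₀ - finrank ℂ (ch.AF ν κ S) - 1) :=
  h.gh.num.num.str_nod ((ver_adm h.abs).opn ⟨U, hU, rfl⟩) ho (pcy_self (h.mf hU hP)).lc
    (h.mf hU hP) (h.pr.den' (lev_adm h.gh.std.inv) hU hP)

theorem mf_OL : Mf (ch.AG n ν κ Unit S) (ch.OL n F (ch.adm ν κ F ∩ U))
    (N₀ - finrank ℂ (ch.AF ν κ S) - 1) := fun z hz => by
  obtain ⟨m, h1, h2⟩ := h.gh.pcy_Zf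
  have h3 := h.dim ⟨z, hz.1, hP hz.2⟩
  have h4 := h.gh.num.num.one_le ((ver_adm h.abs).opn ⟨U, hU, rfl⟩) ho (pcy_self (h.mf hU hP)).lc
    (h.mf hU hP) (hz.1.1.1.ηN_mem hz.2)
  rw [h.OL_eq hP] at hz ⊢
  have h5 := h2 ⟨_, hz.1.1.2.1⟩
  rw [show finrank ℂ (ch.AG n ν κ Unit S) + (N₀ - finrank ℂ (ch.AF ν κ S) - 1) = m by omega]
  exact (h1.mfd z hz.1).inter' (hU.preimage continuous_fst) hz.2

theorem dbl : Dbl (actG F.toWt) (actC F.toWt) (ch.OL n F (ch.adm ν κ F ∩ U))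
    (nod (ch.adm ν κ F ∩ U)) (θN : CL (ch.AG n ν κ Unit S) _) ηN swp where
  toEqM := eqM_ηN.mono (subset_univ _) fun _ a => a.1.1.1.ηN_mem a.2
  usurj := θN_usurj
  an z _ := an_ηN z
  anτ z _ := an_swp z
  memτ _ a := OL.swp a
  ττ z _ := swp_swp z
  fτ _ a := a.1.1.1.ηN_swp
  surj x hx := by
    obtain ⟨z, a, rfl⟩ := h.cut x (nod_mono (subset_inter inter_subset_left hP) hx)
    exact ⟨z, ⟨a.1, hx.1.1⟩, rfl⟩
  fib _ a _ b c := (a.1.1.1.two h.gh.num b.1.1.1 c (OL.X_eq h.abs a) (OL.X_eq h.abs b)).imp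
    fun _ d => ⟨d.1, d.2.2⟩
  free _ a _ b c := ⟨a.1.1.1.free h.gh.num b (congrArg Prod.fst c), a.1.1.1.not_swp b c⟩
  sec z hz := by
    have := isAct_actN (Wg := F.toWt) (ivt_OL (n := n) h.gh.std.inv
      (IsAct.mem (act := actF F.toWt) (S := ch.adm ν κ F ∩ U)))
    have h1 := h.mf_OL hU hP ho z hz
    have h2 := hz.1.1.1.ηN_mem hz.2
    rw [AP.finrank, finrank_A (ν := Unit), show ∀ a b c d : ℕ, a + (b + (c + Fintype.card Unit *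
      Fintype.card ι)) + d = b + (c + Fintype.card Empty * Fintype.card ι) +
        (a + Fintype.card ι + d) from fun _ _ _ _ => by simp; omega, ← finrank_A, ← finrank_AU] at h1
    obtain ⟨s, a, b, c⟩ := GB.exists_sec h1 ⟨h2, (h.str_nod hU hP ho).mfd ⟨_, h2⟩⟩ (an_ηN z)
      (.of_forall fun _ a => a.1.1.1.ηN_mem a.2) (hz.1.1.1.fre_actN h.gh.num)
      (OL.fib h.gh.num h.abs hz)
    exact ⟨s, a, b, eventually_nhdsWithin_iff.2 c⟩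

omit ho in
theorem orb {Y : Set (ch.WG n ν κ Unit Λ)} [IsAct (actG F.toWt : ch.AG n ν κ Unit S → _) Y]
    (hY : Y ⊆ ch.OL n F (ch.adm ν κ F ∩ U)) (hl : IsLocallyClosed Y) :
    Orb.Orb (ch.AG n ν κ Unit S)ˣ (Holo.Sp (actG F.toWt) Y) :=
  haveI := FiniteDimensional.proper ℂ (ch.WG n ν κ Unit Λ)
  haveI := hl.locallyCompactSpace
  ((prp_Gl h.gh.num (h.pr.prp_lev (lev_adm h.gh.std.inv)) (h.pr.ivt (lev_adm h.gh.std.inv))).mono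
    fun _ a => ⟨(hY a).1.1.1, (hY a).2.1, hP (hY a).2⟩).orb

omit hU hP ho [IsAct (actF F.toWt) (ch.adm ν κ F ∩ U)]

theorem glue [DecidableEq R] (hF : F.Good) : ∃ (_ : Nice (ModS F ((ch.re n).adm ν (κ ⊕ Unit) F)))
    (f : EΦ (ch := ch) F ((ch.re n).adm ν (κ ⊕ Unit) F)), IsClosedEmbedding f.map ∧
      diq F.toWt _ (.inr ()) ⊆ range f.map ∧ (ch.kdL ν κ Unit n F e).IsV (actG F.toWt) _
        (Zf F ((ch.re n).adm ν (κ ⊕ Unit) F ∩ V)) (gys f.map (F.coch _ (.dg (.inr ())))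
          (virF F e ((ch.re n).adm ν (κ ⊕ Unit) F))) := by
  obtain ⟨U', hU'⟩ := h.gh.pr'
  have v := h.gh.vd hU'
  have hs := h.gh.std.re n
  have e1 : (ch.re n).solF ν (κ ⊕ Unit) F ∩ ((ch.re n).adm ν (κ ⊕ Unit) F ∩ V) =
      (ch.re n).solF ν (κ ⊕ Unit) F ∩ (ch.re n).adm ν (κ ⊕ Unit) F :=
    Set.ext fun _ => ⟨fun a => ⟨a.1, a.2.1⟩, fun a => ⟨a.1, a.2, h.solV a.1⟩⟩
  obtain ⟨O', o1, o2⟩ := v.dom.opn
  have v' : Vd F e ((ch.re n).adm ν (κ ⊕ Unit) F) _ _ _ :=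
    ⟨subset_rfl, (lev_adm hs.inv).inv, ⟨e1 ▸ v.dom.sub, ⟨V ∩ O', h.opnV.inter o1,
      o2.trans (inter_assoc _ _ _)⟩, v.dom.isAct, v.dom.orb, e1 ▸ v.dom.zero⟩, v.cyc⟩
  have := v.nice hs
  obtain ⟨-, -, h3⟩ := h.gh.isV h.pr hF (List.nodup_singleton ()) fun _ => List.mem_singleton.2 rfl
  rw [v.virF_vr hs, show F.dgL _ [()] = F.coch _ (.dg (.inr ())) from mul_one _] at h3
  rw [v'.virF_vr hs]
  have k : ∀ Z Y, Z = (ch.re n).solF ν (κ ⊕ Unit) F ∩ ((ch.re n).adm ν (κ ⊕ Unit) F ∩ V) →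
      Y = ZL F ((ch.re n).adm ν (κ ⊕ Unit) F ∩ V) → ∃ (_ : Nice (Quo (actF F.toWt) Z))
      (f : EqM (actG F.toWt : ch.AG n ν κ Unit S → ch.WG n ν κ Unit Λ → _) (actF F.toWt) Y Z θG
        (lf F)), IsClosedEmbedding f.map ∧ diq F.toWt Z (.inr ()) ⊆ range f.map ∧
        (ch.kdL ν κ Unit n F e).IsV (actG F.toWt) Y (Zf F ((ch.re n).adm ν (κ ⊕ Unit) F ∩ V))
          (gys f.map (F.coch Z (.dg (.inr ())))
            (((ch.re n).kd ν (κ ⊕ Unit) F e).vr (actF F.toWt) Z _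
              (v.dom.fnd (N - finrank ℂ ((ch.re n).AF ν (κ ⊕ Unit) S))))) := by
    rintro _ _ rfl rfl
    exact ⟨this, _, (h.gh.emb h.pr).1, fun y a => (h.gh.emb h.pr).2.ge fun _ => a, h3⟩
  exact k _ _ e1.symm h.ZL_eq.symm

/-- **the labelled solutions are a double covering of the nodes** -/
theorem ndP [DecidableEq R] (hF : F.Good) {T₀ : Set (ch.WF ν κ Λ)}
    {T : Set ((ch.re n).WF ν (κ ⊕ Unit) Λ)} (e₀ : T₀ = ch.adm ν κ F)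
    (e₁ : T = (ch.re n).adm ν (κ ⊕ Unit) F) : NdP F e T₀ T := by
  subst e₀ e₁
  have hs := h.gh.std
  have hn := h.gh.num
  have dm := hs.dom_lev h.pr (lev_adm hs.inv) (pcy_self h.mfd).lc
  obtain ⟨U, hU, eU⟩ := dm.opn
  have hP : ch.adm ν κ F ∩ U ⊆ P := fun _ a => (eU.ge a).1.2
  rw [eU] at dm
  have := dm.isAct
  obtain ⟨_, hg⟩ := hs.gd subset_rfl dm
  obtain ⟨i₀, f, h1, h2, h3⟩ := h.glue hF
  have hv := (ver_adm h.abs).opn ⟨U, hU, rfl⟩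
  have g := hn.cuts.gd_nod hv.base hg
  have m := h.mf_OL hU hP dm.orb
  have iO := ivt_OL (n := n) hs.inv hg.ivt
  have := IsAct.mono isAct_actG (subset_univ _) iO
  have eZ : (ZL F ((ch.re n).adm ν (κ ⊕ Unit) F) : Set (ch.WG n ν κ Unit Λ)) =
      ch.OL n F (ch.adm ν κ F ∩ U) ∩ Prod.fst ⁻¹' (ch.solF ν κ F ∩ ch.adm ν κ F) :=
    Set.ext fun z => ⟨fun a => have b := Zb.adm hn hs.inv subset_rfl a.1.1
      ⟨⟨a.1, dm.sub ⟨a.2, b⟩⟩, a.2, b⟩, fun a => ⟨a.1.1, a.2.1⟩⟩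
  have i₁ : IsAct (actG F.toWt : ch.AG n ν κ Unit S → ch.WG n ν κ Unit Λ → _)
      (ZL F ((ch.re n).adm ν (κ ⊕ Unit) F)) := IsAct.mono isAct_actG (subset_univ _)
    (eZ ▸ fun a b c d => ⟨iO a b c d.1, ivt_fst hg.ivtZ a b c d.2⟩)
  have hη : Eη F (ch.adm ν κ F) ((ch.re n).adm ν (κ ⊕ Unit) F) :=
    eqM_ηN.mono (subset_univ _) fun _ a => a.1.1.1.ηN_mem (eZ.le a).2
  exact ⟨i₀, i₁, eqM_fst.mono (subset_univ _) fun _ a => (eZ.le a).2, f, hη,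
    h.orb hU hP (eZ.le.trans inter_subset_left)
      (eZ ▸ (pcy_self m).lc.inter (hg.lcZ.preimage continuous_fst)), h1, h2,
    (h.dbl hU hP dm.orb).push_isV g (h.orb hU hP subset_rfl (pcy_self m).lc)
      (h.str_nod hU hP dm.orb) m (nod_opn ⟨U, hU, rfl⟩)
      ⟨_, hU.preimage continuous_fst, h.OL_eq hP⟩
      (eZ.trans (Set.ext fun _ => ⟨fun a => ⟨a.1, a.1.1.1.1.ηN_mem a.2⟩, fun a => ⟨a.1, a.2.1.1⟩⟩))
      (Classical.epsilon_spec ⟨_, g.isV (nod_opn ⟨U, hU, rfl⟩) (g.isFund_fu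
        (hn.num.mf_nod hv dm.orb hg.lc (h.mf hU hP)))⟩) h3 hη⟩

end Vale.Agent.P269.Ch.NC
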