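import Vale.Agent.P269.Map.SQ
import Vale.Agent.P269.Map.W
import Vale.Agent.P269.Prj.Quo
import Vale.Agent.P269.Grr.Defs

/-!
# Obstruction bundles of Kuranishi data as bundles of subquotients
-/

set_option linter.unusedSectionVars false

namespace Vale.Agent.P269.Ch.NdI

open P291Z Set Function Topology Filter Module Holo PowerSeries

variable {A A' W W' P P' P'' V : Type} [NormedRing A] [NormedAlgebra ℂ A] [NormedAddCommGroup W]
  [NormedSpace ℂ W] [AddCommGroup P] [Module ℂ P] [TopologicalSpace P] [NormedRing A']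
  [NormedAlgebra ℂ A'] [NormedAddCommGroup W'] [NormedSpace ℂ W'] [AddCommGroup P'] [Module ℂ P']
  [TopologicalSpace P'] [AddCommGroup P''] [Module ℂ P''] [TopologicalSpace P'']
  [IsTopologicalAddGroup P] [ContinuousSMul ℂ P] [T2Space P]
  [IsTopologicalAddGroup P'] [ContinuousSMul ℂ P'] [T2Space P']
  [IsTopologicalAddGroup P''] [ContinuousSMul ℂ P''] [T2Space P'']
  [NormedAddCommGroup V] [NormedSpace ℂ V] [FiniteDimensional ℂ V]
  {act : A → W → W} {act' : A' → W' → W'} {O Z : Set W} {Z' : Set W'} {θ : A' → A} {f : W' → W}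
  {r r' q q' p p' : ℕ}

/-- The obstruction bundle. -/
@[reducible] def sd (D : KD A W P) : SD A W P := ⟨D.ρ, D.P₀, D.obs, D.van⟩

variable (W) in
/-- The bundle of a representation. -/
@[reducible] def sdV (ρ : A → V → V) : SD A W V := ⟨ρ, ⊤, fun _ => ⊤, fun _ => ⊥⟩

theorem sdV_pb (ρ : A → V → V) (g : W' → W) : (sdV W ρ).pb id g = sdV W' ρ := rfl

theorem ok_sd {D : KD A W P} (h : D.Ok act O r' r) (e : Z ⊆ O) (h0 : ∀ x ∈ Z, D.s x ∈ D.van x) :
    (sd D).Ok act Z (r' + r) r' :=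
  ⟨h.fin, h.rep, ⟨fun x hx => h.obs_le x (e hx) (h0 x hx),
    isClosed_of_closure_subset fun _ hz => ((h.obs_closed.preimage
      (f := fun z : Z × P => (inclusion e z.1, z.2)) ((continuous_inclusion e).prodMap
        continuous_id)).closure_subset_iff.2 (fun z a => ⟨h0 _ z.1.2, a⟩) hz).2,
    fun x hx => h.obs_rank x (e hx) (h0 x hx), fun x hx => h.obs_inv x (e hx) (h0 x hx)⟩,
    h.fam.mono e, fun x hx => h.le_obs x (e hx) (h0 x hx)⟩

theorem ok_sdV {ρ : A → V → V} (h : IsRepOn ρ ⊤) : (sdV W ρ).Ok act Z (finrank ℂ V) 0 :=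
  ⟨inferInstance, h, ⟨fun _ _ => le_rfl, isClosed_univ, fun _ _ => finrank_top ℂ V,
    fun _ _ _ _ _ _ => trivial⟩, ⟨fun _ _ => bot_le, isClosed_eq continuous_snd continuous_const,
      fun _ _ => finrank_bot _ _, fun _ _ a ha v hv => by
        obtain rfl : v = 0 := hv
        have := h.smul a ha 0 0 trivial
        rwa [zero_smul, zero_smul] at this⟩, fun _ _ => bot_le⟩

theorem hom_lin {D : KD A W P} {D' : KD A W P'} {g : W → W} {B : P →ₗ[ℂ] P'}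
    (h : D.Lin D' id g O B) (ho : (sd D).Ok act Z r r') (e : Z ⊆ O)
    (h0 : ∀ x ∈ Z, D.s x ∈ D.van x) (hg : ∀ x ∈ Z, g x = x) :
    (sd D).Hom (sd D') act Z id id fun _ => B :=
  ⟨fun _ _ => continuousOn_const, fun x hx w hw => hg x hx ▸ h.obs x (e hx) (h0 x hx) w hw,
    fun x hx w hw => hg x hx ▸ h.van x (e hx) w hw, fun x hx a ha w hw =>
      mem_of_eq_of_mem (sub_eq_zero.2 (h.eqv a ha w (ho.famB.le x hx hw))) (zero_mem _)⟩

theorem hom_sdV {E : SD A W P} {ρ : A → V → V} {L : W → V →ₗ[ℂ] P}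
    (hc : ∀ v, ContinuousOn (fun x => L x v) Z) (hm : ∀ x ∈ Z, ∀ v, L x v ∈ E.B x)
    (he : ∀ x ∈ Z, ∀ a, IsUnit a → ∀ v, L (act a x) (ρ a v) = E.ρ a (L x v)) :
    (sdV W ρ).Hom E act Z id id L :=
  ⟨fun v _ => hc v, fun x hx v _ => hm x hx v, fun x _ _ hv =>
    mem_of_eq_of_mem ((congrArg (L x) hv).trans (map_zero _)) (zero_mem _), fun x hx a ha v _ =>
      mem_of_eq_of_mem (sub_eq_zero.2 (he x hx a ha v)) (zero_mem _)⟩

variable {E : SD A W P} {E₁ : SD A W P'} {E₂ : SD A W P''} {L₁ : W → P' →ₗ[ℂ] P}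
  {L₂ : W → P →ₗ[ℂ] P''}

theorem hom_pb (h : E.Hom E₂ act Z id id L₂) (hf : EqM act' act Z' Z θ f) :
    (E.pb θ f).Hom (E₂.pb θ f) act' Z' id id fun x => L₂ (f x) :=
  ⟨fun w hw => (h.cont w hw).comp hf.cont hf.maps, fun _ hx => h.mapB _ (hf.maps hx),
    fun _ hx => h.mapN _ (hf.maps hx), fun x hx a ha w hw => by
      have := h.eqv _ (hf.maps hx) _ (hf.isUnit ha) w hw
      rwa [← hf.eqv a ha x hx] at this⟩

/-- exactness in the middle and the ranks give surjectivity -/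
theorem srj_of_ker (h : E.Ok act Z r r') (h₁ : E₁.Ok act Z q q') (h₂ : E₂.Ok act Z p p')
    (a₁ : E₁.Hom E act Z id id L₁) (a₂ : E.Hom E₂ act Z id id L₂) (hi : E₁.Inj E Z id L₁)
    (hk : ∀ x ∈ Z, ∀ w ∈ E.B x, L₂ x w ∈ E₂.N x → ∃ v ∈ E₁.B x, w - L₁ x v ∈ E.N x)
    (hr : Z.Nonempty → r + q' + p' = q + p + r') : E.Srj E₂ Z id L₂ := fun x hx w hw => by
  have := h.finB hx
  have := h₁.finB hx
  have := h₂.finB hx
  let N : Submodule ℂ P := E.B x ⊓ (E₂.N x).comap (L₂ x)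
  have : FiniteDimensional ℂ N := Submodule.finiteDimensional_inf_left _ _
  have b1 := finrank_map_quo (N := N) (inf_le_left : N ≤ E.B x) (ψ := (E₂.N x).mkQ ∘ₗ L₂ x) fun w hw =>
    (Submodule.Quotient.mk_eq_zero _).trans (and_iff_right hw).symm
  have b2 := finrank_map_quo (B := N) (N := E.N x) (fun w hw => ⟨h.le x hx hw, a₂.mapN x hx w hw⟩)
    (ψ := (E.N x).mkQ) fun w _ => Submodule.Quotient.mk_eq_zero _
  have b3 := finrank_map_quo (h₁.le x hx) (ψ := (E.N x).mkQ ∘ₗ L₁ x) fun w hw =>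
    (Submodule.Quotient.mk_eq_zero _).trans ⟨hi x hx w hw, a₁.mapN x hx w⟩
  have b4 := finrank_map_quo (h₂.le x hx) (ψ := (E₂.N x).mkQ) fun w _ =>
    Submodule.Quotient.mk_eq_zero _
  have b5 := Submodule.finrank_mono (s := N.map (E.N x).mkQ)
    (t := (E₁.B x).map ((E.N x).mkQ ∘ₗ L₁ x)) (by
      rintro _ ⟨w, hw, rfl⟩
      obtain ⟨v, b, c⟩ := hk x hx w hw.1 hw.2
      exact ⟨v, b, ((Submodule.Quotient.eq _).2 c).symm⟩)
  have b6 := hr ⟨x, hx⟩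
  rw [h.famB.rank x hx] at b1
  rw [h.famN.rank x hx] at b2
  rw [h₁.famB.rank x hx, h₁.famN.rank x hx] at b3
  rw [h₂.famB.rank x hx, h₂.famN.rank x hx] at b4
  obtain ⟨w', c1, c2⟩ := (Submodule.eq_of_le_of_finrank_le
    (S₁ := (E.B x).map ((E₂.N x).mkQ ∘ₗ L₂ x)) (S₂ := (E₂.B x).map (E₂.N x).mkQ) (by
      rintro _ ⟨w, hw, rfl⟩
      exact ⟨_, a₂.mapB x hx w hw, rfl⟩) (by omega)).ge ⟨w, hw, rfl⟩
  exact ⟨w', c1, (Submodule.Quotient.eq _).1 c2⟩

variable [IsAct act' Z'] (ho : Orb.Orb A'ˣ (Holo.Sp act' Z'))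
include ho

theorem exact_pb (hf : EqM act' act Z' Z θ f) (h : E.Ok act Z r r') (h₁ : E₁.Ok act Z q q')
    (h₂ : E₂.Ok act Z p p') (a₁ : E₁.Hom E act Z id id L₁) (a₂ : E.Hom E₂ act Z id id L₂)
    (hi : E₁.Inj E Z id L₁) (hs : E.Srj E₂ Z id L₂)
    (hc : ∀ x ∈ Z, ∀ w ∈ E₁.B x, L₂ x (L₁ x w) ∈ E₂.N x)
    (hr : Z.Nonempty → r + q' + p' = q + p + r') :
    (E.pb θ f).ch act' Z' = (E₁.pb θ f).ch act' Z' * (E₂.pb θ f).ch act' Z' :=
  (h.pb hf).exact ho (h₁.pb hf) (h₂.pb hf) (hom_pb a₁ hf) (hom_pb a₂ hf)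
    (fun _ hx => hi _ (hf.maps hx)) (fun _ hx => hs _ (hf.maps hx)) (fun _ hx => hc _ (hf.maps hx))
    fun ⟨_, hx⟩ => hr ⟨_, hf.maps hx⟩

theorem ch_iso {E : SD A' W' P} {E₂ : SD A' W' P''} {L : W' → P →ₗ[ℂ] P''} (h : E.Ok act' Z' r r')
    (h₂ : E₂.Ok act' Z' p p') (a : E.Hom E₂ act' Z' id id L) (hi : E.Inj E₂ Z' id L)
    (hs : E.Srj E₂ Z' id L) : E.ch act' Z' = E₂.ch act' Z' :=
  (h.pull ho ho h₂ (EqM.incl Subset.rfl) a hi hs).2.trans (PowerSeries.ext fun _ =>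
    (coeff_map _ _ _).trans (Hev.map_id (fun z => Quot.inductionOn z fun _ => rfl) _))

theorem ch_pb [IsAct act Z] (ho' : Orb.Orb Aˣ (Holo.Sp act Z)) (hf : EqM act' act Z' Z θ f)
    (h : E.Ok act Z r r') : (E.pb θ f).ch act' Z' = Grr.pS hf.map (E.ch act Z) :=
  ((h.pb hf).pull ho ho' h hf (L := fun _ => .id) ⟨fun _ _ => continuousOn_const,
    fun _ _ _ a => a, fun _ _ _ a => a, fun _ _ _ _ _ _ => mem_of_eq_of_mem (sub_self _) (zero_mem _)⟩
    (fun _ _ _ _ a => a) fun _ _ w a => ⟨w, a, mem_of_eq_of_mem (sub_self _) (zero_mem _)⟩).2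

/-- the total Chern class of a line bundle -/
theorem ch_line {E : SD A' W' P} (h : E.Ok act' Z' 1 0) {u : Hev (Quo act' Z')}
    (hu : u.1 = hcls (E.eu act' Z')) : E.ch act' Z' = 1 + C u * X := by
  have a := h.constCoeff ho
  have b : coeff 1 (E.ch act' Z') = u := Subtype.ext ((h.coeff_top ho).trans hu.symm)
  obtain ⟨_, E₁, _, _, -, h0, h1, -⟩ := h.exists_isMod ho
  refine PowerSeries.ext fun m => ?_
  rcases m with _ | _ | m
  · simp [a]
  · simp [b, coeff_one]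
  · rw [SD.ch, SD.chernT_presA ho h1]
    exact (E₁.coeff_chR _).trans ((if_neg (by omega)).trans 
      (show coeff (m + 1 + 1) (1 + C u * X) = 0 by simp [coeff_one]).symm)

omit ho

theorem rep_chr {c : A → ℂ} (h : Tq.Hm c) : IsRepOn (fun a (z : ℂ) => c a * z) ⊤ :=
  ⟨fun _ _ _ _ => trivial, fun _ _ _ _ _ _ => mul_add _ _ _, fun _ _ _ _ _ => mul_left_comm _ _ _,
    fun z _ => by rw [h.one, one_mul], fun a b ha hb z _ => by rw [h.mul a b ha hb, mul_assoc],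
    fun _ _ => (Units.continuous_val.comp h.ρ.continuous).mul continuous_const⟩

theorem eqM_of (h : Tq.Eqh act' act Z' Z θ f) : EqM act' act Z' Z θ f :=
  ⟨⟨h.hm.ρ.toMonoidHom, h.hm.ρ.continuous, fun _ => rfl⟩, h.maps, h.cont, h.eqv⟩

end Vale.Agent.P269.Ch.NdI
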