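import Vale.Agent.P269.Glu.GH
import Vale.Agent.P269.Glu.Gl
import Vale.Agent.P269.Glu.PwD
import Vale.Agent.P269.Glu.PwE
import Vale.Agent.P269.Glu.PwJ
import Vale.Agent.P269.Glu.PwS
import Vale.Agent.P269.Bas.Ev
import Vale.Agent.P269.Grr.Defs
import Vale.Agent.P269.Map.Ind
import Vale.Agent.P269.Prj.Tgt
import Vale.Agent.P269.Qrr.NdI0

/-!
# The index bundles under normalisation of a node
-/

set_option linter.unusedSectionVars false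

namespace Vale.Agent.P269.Ch

open P291Z Set Function Topology Filter Base Cv Holo PowerSeries

variable {S Λ R J K ι ν κ : Type} [Fintype S] [Fintype Λ] [Fintype R] [Fintype J] [Fintype K]
  [Fintype ι] [DecidableEq ι] [Fintype ν] [Fintype κ] {ch : Ch ι J} {n : Nm ι J}
  {F : Fam S Λ R J K} {ℓ : R → ι → ℤ} {Z : Set (ch.WF ν κ Λ)}
  {Z' : Set ((ch.re n).WF ν (κ ⊕ Unit) Λ)} {Y : Set (ch.WG n ν κ Unit Λ)}
  {f : ch.WG n ν κ Unit Λ → (ch.re n).WF ν (κ ⊕ Unit) Λ}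

namespace NdI

variable {Wg : Wt S Λ R J} {j : J}

section one

variable {A W : Type} [NormedRing A] [NormedAlgebra ℂ A] [NormedAddCommGroup W] [NormedSpace ℂ W]
  {act : A → W → W} {Y : Set W} [IsAct act Y] (ho : Orb.Orb Aˣ (Holo.Sp act Y))
  {θ : A → ch.AF ν κ S} {f g : W → ch.WF ν κ Λ} (hZ : OZ Wg Z) (h : EqM act (actF Wg) Y Z θ f)
include ho hZ

theorem ch_X {ρ : A → ch.Fm {j} ch.hf → ch.Fm {j} ch.hf} (hρ : IsRepOn ρ ⊤)
    (e : ∀ a, ρ a = ρM (Wg.cS (θ a).1) (θ a).2.1 fun i => (θ a).2.2.1 (some i)) :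
    (sdV W ρ).ch act Y = Grr.pS h.map ((ch.sdX ν κ Wg j).ch (actF Wg) Z) := by
  classical
  have := hZ.act
  let L : ch.Fm {j} ch.hf →ₗ[ℂ] ch.Th j →L[ℂ] ch.E (some j) :=
    ⟨⟨fun v => v ⟨j, rfl⟩, fun _ _ => rfl⟩, fun _ _ => rfl⟩
  refine ((ok_sdV hρ).pull ho hZ.orb (okX Z j) h (L := fun _ => L)
    ⟨fun _ _ => continuousOn_const, fun _ _ _ _ => trivial,
      fun _ _ v b => (congrArg L b).trans L.map_zero,
      fun _ _ a _ v _ => sub_eq_zero.2 ?_⟩ (fun _ _ v _ b => funext ?_)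
    fun _ _ X _ => ⟨fun i => Pi.single (M := fun i => ch.Th i →L[ℂ] ch.E (some i)) j X i, trivial,
      sub_eq_zero.2 (Pi.single_eq_same (M := fun i => ch.Th i →L[ℂ] ch.E (some i)) j X)⟩).2
  · exact (congrFun (congrFun (e a) v) ⟨j, rfl⟩).trans (ContinuousLinearMap.ext fun _ => rfl)
  · rintro ⟨i, rfl⟩
    exact b

theorem ch_K {r r' : ℕ} (e : ∀ x ∈ Y, gr (g x).2 = gr (f x).2)
    (hE : ((sd (ch.kd ν κ (ch.oneF Wg j) Empty.elim)).pb θ g).Ok act Y r r') :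
    ((sd (ch.kd ν κ (ch.oneF Wg j) Empty.elim)).pb θ g).ch act Y =
      Grr.pS h.map ((ch.sdK ν κ Wg j).ch (actF Wg) Z) := by
  classical
  have := hZ.act
  let L : ch.P Empty →ₗ[ℂ] ch.P Empty := ch.sgK j ∘ₗ LinearMap.proj j ∘ₗ LinearMap.fst ℂ _ _
  have l1 : ∀ w, (L w).1 j = w.1 j := fun w => sgK_same _
  have l2 : ∀ w ∈ ch.polF (ch.oneF Wg j) Empty.elim, L w ∈ ch.polK j := fun w d =>
    sgK_mem ((mem_polS.1 d).1 j)
  refine (hE.pull ho hZ.orb (hZ.cuts.okK hZ.base j) h (L := fun _ => L)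
    ⟨fun _ _ => continuousOn_const, fun x hx w b => mem_sdK_B.2 ⟨l2 w b.1, fun z hz => ?_⟩,
      fun x hx w b => mem_sdK_N.2 ⟨l2 w b.1, fun z hz => ?_⟩, fun x hx a _ w b =>
        mem_of_eq_of_mem (sub_eq_zero.2 (ext_polK (l2 _ (ρF_mem b.1)) (ρK_polK (l2 w b.1)) ?_))
          (zero_mem _)⟩ (fun x hx w b c => mem_vanM.2 ⟨b.1, fun z hz => ?_⟩) fun x hx w b => ?_).2
  · rw [l1]
    exact ((mem_obs_one.1 b).2 z ((e x hx).ge hz)).2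
  · rw [l1]
    exact congrFun (congrArg Prod.fst ((mem_vanM.1 b).2 z ((e x hx).ge hz))) j
  · rw [l1]
    exact funext₂ fun z m => congrArg (_ * ·) (congrFun (congrFun (l1 w) _) _).symm
  · refine Prod.ext (funext fun i => ?_) (Subsingleton.elim _ _)
    rcases eq_or_ne i j with rfl | d
    · exact (congrFun (l1 w) z).symm.trans ((mem_sdK_N.1 c).2 z ((e x hx).le hz))
    · exact ((mem_obs_one.1 b).2 z hz).1 i d
  · obtain ⟨c, d⟩ := mem_sdK_B.1 b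
    exact ⟨w, (mem_obs_one' c).2 fun z hz => d z ((e x hx).le hz), mem_of_eq_of_mem
      (sub_eq_zero.2 (ext_polK (l2 w (polF_oneF.ge c.1)) c (l1 w))) (zero_mem _)⟩

end one

theorem sol₀ {x : ch.WF ν κ Λ} (hx : x ∈ ch.baseF ν κ univ) (h0 : x.2.X = 0) :
    x ∈ ch.solF ν κ (ch.oneF Wg j) ∧ x ∈ ch.adm ν κ (ch.oneF Wg j) :=
  ⟨⟨hx, hx.2.1, fun _ _ => ⟨0, ⟨⟨trivial, trivial, nofun⟩, fun k => k.elim⟩,
    fun i μ => by simp [h0]⟩⟩, hx, fun i _ _ _ => ⟨0, fun _ _ _ => by simp [h0]⟩, fun _ _ => trivial,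
    nofun, fun i _ _ => (fld_of_zero (hx.2.1.2.2.2.1 _).1 (congrFun h0 i)).trans
      (fld_of_zero (hx.2.1.2.2.2.1 _).1 (congrFun h0 i)).symm⟩

variable {κ' : Type} [Fintype κ'] {z : ch.WG n ν κ κ' Λ}

/-- All fields are replaced by zero. -/
noncomputable def z0 (z : ch.WG n ν κ κ' Λ) : ch.WG n ν κ κ' Λ :=
  ((z.1.1, W.mk' z.1.2.Q z.1.2.p z.1.2.Ξ 0), z.2.nf)

variable (ch n ν κ κ' Λ) in
/-- The labelled curves without fields. -/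
def Y0 : Set (ch.WG n ν κ κ' Λ) :=
  {z | Gl z.1.2 z.2 ∧ z.1 ∈ ch.baseF ν κ univ ∧ z.1.2.X = 0 ∧ z.2.1.X = 0}

theorem z0_eq (G : Fam S Λ R J K) (h : G.mov = univ) : z0 z = p₁ G (p₂ G z) := by
  rw [p₁_apply, p₂_apply]
  simp only [h, mem_univ, if_true]
  rfl

theorem eqM_z0 {Y : Set (ch.WG n ν κ κ' Λ)} (hY : ∀ z ∈ Y, Gl z.1.2 z.2)
    (hb : ∀ z ∈ Y, z.1 ∈ ch.baseF ν κ univ) :
    EqM (actG Wg : ch.AG n ν κ κ' S → _) (actG (ch.oneF Wg j).toWt) Y (Y0 Λ ν κ ch n κ') id z0 := by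
  have e := fun z : ch.WG n ν κ κ' Λ => z0_eq (z := z) { ch.oneF Wg j with mov := univ } rfl
  refine .same (fun z hz => ⟨(hY z hz).congr _ _, hb z hz, rfl, rfl⟩) ?_ fun a ha z _ => ?_
  · exact ((p₁ _ ∘L p₂ _ : ch.WG n ν κ κ' Λ →L[ℂ] _).continuous.congr
      fun z => (e z).symm).continuousOn
  · rw [e, e]
    exact (congrArg _ (spt₂.p_act a ha z)).trans (spt₁.p_act a ha _)

theorem std_one (hc : ch.Cuts) : ch.Std (ch.oneF Wg j) Empty.elim univ fun r => Pi.single r 1 :=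
  ⟨oneF_inv, oneF_reg, oneF_fits, hc, oneF_wt⟩

theorem alg {A : Type} [CommRing A] {i i' k k' x x' l : A} (h : i * k = x) (h' : i' * k' = x')
    (e : x' * k = x * (l * k')) : i' * (k * k') = i * l * (k * k') := by
  linear_combination k * h' - l * k' * h + e

section seq

variable {F : Fam S Λ R J K} {e : K → ι → ℕ} {K₀ : Set K} {Y₀ Y : Set (ch.WG n ν κ κ' Λ)}

variable (F e) in
/-- Labelled solutions without movable fields. -/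
def Nf (Y₀ : Set (ch.WG n ν κ κ' Λ)) : Prop := ∀ z ∈ Y₀,
  z ∈ ZD F ((ch.re n).adm ν (κ ⊕ κ') F) ∧ z ∈ ZS F ((ch.re n).adm ν (κ ⊕ κ') F) ∧
    z ∈ ch.OD ν κ κ' n F e ∧ z ∈ ch.OS ν κ κ' n F e ∧ q₂ F z = 0

variable (hs : ch.Std F e K₀ ℓ) (hn : ch.GN n κ') (m : Nf F e Y₀)
include hs hn m

theorem zD (hz : z ∈ Y₀) : (ch.kdD ν κ κ' n F e).s z ∈ (ch.kdD ν κ κ' n F e).van z :=
  (zero_kdD hs hn (m z hz).2.2.1).2 (m z hz).1

theorem zS (hz : z ∈ Y₀) : (ch.kdS ν κ κ' n F e).s z ∈ (ch.kdS ν κ κ' n F e).van z :=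
  (zero_kdS hs hn (m z hz).2.2.2.1).2 ⟨(m z hz).2.1.1.2, (m z hz).2.1.2⟩

theorem zJ (hz : z ∈ Y₀) : (ch.kdJ ν κ κ' n F e).s z ∈ (ch.kdJ ν κ κ' n F e).van z :=
  (zero_kdJ hs hn (m z hz).2.1.1).2 (m z hz).2.1.2

theorem okD : ∃ v, (sd (ch.kdD ν κ κ' n F e)).Ok (actG F.toWt) Y₀ (v + (Module.finrank ℂ
    ((ch.re n).Fm F.mov (ch.re n).hf) + (ch.rk F ℓ K₀).toNat)) v :=
  (ok_kdD hs hn).imp fun _ o => ok_sd o (fun z hz => (m z hz).2.2.1) fun _ => zD hs hn m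

theorem okS : ∃ v, (sd (ch.kdS ν κ κ' n F e)).Ok (actG F.toWt) Y₀
    (v + (Fintype.card κ' * F.dv K₀ + ((ch.re n).rk F ℓ K₀).toNat)) v :=
  (ok_kdS hs hn).imp fun _ o => ok_sd o (fun z hz => (m z hz).2.2.2.1) fun _ => zS hs hn m

theorem okJ : ∃ v, (sd (ch.kdJ ν κ κ' n F e)).Ok (actG F.toWt) Y₀
    (v + Fintype.card κ' * F.dv K₀) v :=
  (ok_kdJ hs hn).imp fun _ o => ok_sd o (fun z hz => (m z hz).2.1.1) fun _ => zJ hs hn m

theorem okL : ∃ v, (sd (ch.kdL ν κ κ' n F e)).Ok (actG F.toWt) Y₀ (v + (ch.rk F ℓ K₀).toNat) v :=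
  hs.ok.imp fun _ o => ok_sd (PwD.ok_pb o eqM_fst (O' := Y₀) fun z hz => (m z hz).2.2.1.2)
    Subset.rfl fun _ hz => (zD hs hn m hz).1

theorem okN : ∃ v, (sd (ch.kdN ν κ κ' n F e)).Ok (actG F.toWt) Y₀
    (v + ((ch.re n).rk F ℓ K₀).toNat) v :=
  (hs.re n).ok.imp fun _ o => ok_sd (PwD.ok_pb o eqM_μG (O' := Y₀)
    fun z hz => (m z hz).2.2.1.1.2.1) Subset.rfl fun _ hz => (zD hs hn m hz).2.1

theorem okV : (sd (PwJ.kV ν κ κ' ch n F)).Ok (actG F.toWt) Y₀ (0 + Fintype.card κ' * F.dv K₀) 0 :=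
  ok_sd (PwJ.ok_kV hs) (fun z hz => (m z hz).2.1.1) fun z hz =>
    (PwJ.BV_mm (m z hz).2.1.1).symm.trans (PwJ.van_eq.le (zJ hs hn m hz)).2

variable {act : ch.AG n ν κ κ' S → ch.WG n ν κ κ' Λ → ch.WG n ν κ κ' Λ} [IsAct act Y]
  (ho : Orb.Orb (ch.AG n ν κ κ' S)ˣ (Holo.Sp act Y)) {g : ch.WG n ν κ κ' Λ → ch.WG n ν κ κ' Λ}
  (h : EqM act (actG F.toWt) Y Y₀ id g)
include ho h

theorem seq₁ : ((sd (ch.kdD ν κ κ' n F e)).pb id g).ch act Y =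
    (sdV _ (ρ₂ F)).ch act Y * ((sd (ch.kdL ν κ κ' n F e)).pb id g).ch act Y := by
  obtain ⟨vD, sD⟩ := okD hs hn m
  obtain ⟨v, sO⟩ := okL hs hn m
  have t := tt₂ (ν := ν) (κ := κ) hs hn (lev_adm hs.inv)
  have e₂ : ∀ z ∈ Y₀, p₂ F z = z := fun z hz =>
    (congrArg (fun v => z - ι₂ F v) (m z hz).2.2.2.2).trans (by rw [map_zero, sub_zero])
  have a₁ : (sdV _ (ρ₂ F)).Hom (sd (ch.kdD ν κ κ' n F e)) (actG F.toWt) Y₀ id id (E₂ F e) :=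
    hom_sdV (fun v => (continuous_E₂ v).continuousOn) (fun _ _ => E₂_obs hs.fits)
      fun _ _ _ ha => E₂_act hs.inv ha
  have a₂ := hom_lin t.lin sD (fun z hz => (m z hz).2.2.1) (fun _ => zD hs hn m) e₂
  have b := exact_pb ho h sD (ok_sdV spt₂.rep) sO a₁ a₂ (fun z hz v _ => t.inj z (m z hz).1 v)
    (fun z hz => srj_DL hs hn z (m z hz).1) (fun z _ _ _ => zero_mem (vanM F e z.1))
    fun _ => by omega
  rwa [sdV_pb] at b

theorem seq₂ : ((sd (ch.kdD ν κ κ' n F e)).pb id g).ch act Y =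
    (sdV _ (ρ₁ F)).ch act Y * ((sd (ch.kdS ν κ κ' n F e)).pb id g).ch act Y := by
  obtain ⟨vD, sD⟩ := okD hs hn m
  obtain ⟨vS, sS⟩ := okS hs hn m
  have t := tt₁ (ν := ν) (κ := κ) hs hn (lev_adm hs.inv)
  have e₁ : ∀ z ∈ Y₀, p₁ F z = z := fun z hz =>
    (congrArg (fun v => z - ι₁ F v) (q₁_eq_zero.2 (m z hz).2.2.2.1.2)).trans
      (by rw [map_zero, sub_zero])
  have a₁ : (sdV _ (ρ₁ F)).Hom (sd (ch.kdD ν κ κ' n F e)) (actG F.toWt) Y₀ id id (E₁ F e) :=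
    hom_sdV (fun v => (continuous_E₁ v).continuousOn)
      (fun z hz => E₁_obs hs.fits (PwD.mt_all (m z hz).1)) fun _ _ _ ha => E₁_act hs.inv ha
  have a₂ := hom_lin t.lin sD (fun z hz => (m z hz).2.2.1) (fun _ => zD hs hn m) e₁
  have r₁ := fun hr : Y₀.Nonempty => rk_glue hs hn (m _ hr.some_mem).1
  have s := srj_of_ker sD (ok_sdV spt₁.rep) sS a₁ a₂ (fun z hz v _ => t.inj z (m z hz).1 v)
    (fun z hz w a b => (t.ker z (m z hz).1 w a ((congrArg (fun y => w.2 ∈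
      (ch.kdS ν κ κ' n F e).van y) (e₁ z hz)).mpr b)).imp fun _ c => ⟨trivial, c⟩)
    fun hr => by have := r₁ hr; omega
  have b := exact_pb ho h sD (ok_sdV spt₁.rep) sS a₁ a₂ (fun z hz v _ => t.inj z (m z hz).1 v) s
    (fun z hz v _ => mem_vanS.2 ⟨zero_mem (vanM F e (μG z)),
      fun q => PwE.jmpF_rr (m z hz).1.1.1 q v⟩) fun hr => by have := r₁ hr; omega
  rwa [sdV_pb] at b

theorem seq₃ : ((sd (ch.kdS ν κ κ' n F e)).pb id g).ch act Y =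
    ((sd (ch.kdJ ν κ κ' n F e)).pb id g).ch act Y *
      ((sd (ch.kdN ν κ κ' n F e)).pb id g).ch act Y := by
  obtain ⟨vS, sS⟩ := okS hs hn m
  obtain ⟨vJ, sJ⟩ := okJ hs hn m
  obtain ⟨v, sN⟩ := okN hs hn m
  exact exact_pb ho h sS sJ sN
    (hom_lin (lin_JS hs hn) sJ (fun z hz => (m z hz).2.1.1) (fun _ => zJ hs hn m) fun _ _ => rfl)
    (hom_lin (lin_SN hs hn) sS (subset_univ _) (fun _ => zS hs hn m) fun _ _ => rfl)
    (fun z _ => inj_JS hs hn z trivial) (fun z hz => srj_SN hs hn z (m z hz).2.1)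
    (fun _ _ _ _ => zero_mem _) fun _ => by omega

theorem seq₄ : ((sd (ch.kdJ ν κ κ' n F e)).pb id g).ch act Y =
    ((sd (PwJ.kV ν κ κ' ch n F)).pb id g).ch act Y := by
  obtain ⟨vJ, sJ⟩ := okJ hs hn m
  have sV := okV hs hn m
  have ob := fun z hz => PwJ.obs_eq hs.fits (m z hz).1.1.1 (m z hz).1.2.2.1
  have a : (sd (ch.kdJ ν κ κ' n F e)).Hom (sd (PwJ.kV ν κ κ' ch n F)) (actG F.toWt) Y₀ id id
      (PwJ.BV F) :=
    ⟨fun v _ => PwJ.continuousOn_BV (fun z hz => (m z hz).1.1.1) v,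
      fun z hz _ a => ((ob z hz).le a).2, fun _ _ _ a => ((PwJ.van_eq (e := e)).le a).2,
      fun z hz _ ha v _ => sub_eq_zero.2 (PwJ.BV_act ha (m z hz).1.1.1 v)⟩
  exact ch_iso ho (sJ.pb h) (sV.pb h) (hom_pb a h) 
    (fun _ _ _ _ a => (PwJ.van_eq (e := e)).ge ⟨trivial, a⟩)
    fun z hz w a =>
      let ⟨v, _, b⟩ := (PwJ.BV_range (m _ (h.maps hz)).1.1.1 hn.num.a_ne).ge
        (sV.famB.le _ (h.maps hz) a)
      ⟨v, (ob _ (h.maps hz)).ge ⟨trivial, Submodule.mem_comap.2 (mem_of_eq_of_mem b a)⟩,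
        sub_eq_zero.2 b⟩

/-- the three exact sequences -/
theorem seq : (sdV _ (ρ₂ F)).ch act Y * ((sd (ch.kdL ν κ κ' n F e)).pb id g).ch act Y =
    (sdV _ (ρ₁ F)).ch act Y * (((sd (PwJ.kV ν κ κ' ch n F)).pb id g).ch act Y *
      ((sd (ch.kdN ν κ κ' n F e)).pb id g).ch act Y) := by
  rw [← seq₁ hs hn m ho h, seq₂ hs hn m ho h, seq₃ hs hn m ho h, seq₄ hs hn m ho h]

end seq

theorem nf_Y0 (hn : ch.GN n κ') : Nf (ch.oneF Wg j) Empty.elim (Y0 Λ ν κ ch n κ') := fun z hz => by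
  obtain ⟨a, b, c, d⟩ := hz
  obtain ⟨b1, b2⟩ := sol₀ (Wg := Wg) (j := j) b c
  obtain ⟨b3, b4⟩ := sol₀ (Wg := Wg) (j := j) (x := μG z) ((a.baseF_iff hn).1 b) d
  have m : ∀ i, Mt z.1.2 z.2 i := fun i μ => by simp [c, d]
  exact ⟨⟨⟨a, b4, fun i _ => m i⟩, b1, b3, mm_eq_zero.2 fun i _ => m i⟩,
    ⟨⟨⟨⟨a, b4, fun i _ => m i⟩, fun i _ => congrFun c i⟩, b3⟩, fun q => Prod.ext rfl (funext fun i =>
      (fld_of_zero (a.mem'.2.2.2.1 _).1 (congrFun d i)).trans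
        (fld_of_zero (a.mem'.2.2.2.1 _).1 (congrFun d i)).symm)⟩,
    ⟨⟨a, ⟨b4, fun _ => b3⟩, fun i _ => m i⟩, b2, fun _ => b1⟩,
    ⟨⟨a, ⟨b4, fun _ => b3⟩, fun i _ => m i⟩, fun i _ => congrFun c i⟩,
    q₂_eq_zero.2 fun i _ => congrFun d i⟩

theorem chr_ℓ (hw : ∀ j i, ch.wd j i = ∑ r, F.w j r * ℓ r i) {t : ι → ℂ} (ht : ∀ i, t i ≠ 0) :
    ∏ r, (∏ i, t i ^ ℓ r i) ^ F.w j r = ∏ i, t i ^ ch.wd j i := by
  simp only [hw j, ← Finset.prod_zpow, ← zpow_mul, zpow_sum_ne (ht _), mul_comm]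
  exact Finset.prod_comm

/-- the line at the node -/
theorem ch_V (hn : ch.GN n Unit) (hw : ∀ j i, ch.wd j i = ∑ r, F.w j r * ℓ r i)
    {Y : Set (ch.WG n ν κ Unit Λ)} [IsAct (actG F.toWt : ch.AG n ν κ Unit S → _) Y]
    (ho : Orb.Orb (ch.AG n ν κ Unit S)ˣ (Holo.Sp (actG F.toWt) Y))
    (h : EqM (actG F.toWt : ch.AG n ν κ Unit S → _) (actG (ch.oneF F.toWt j).toWt) Y
      (Y0 Λ ν κ ch n Unit) id z0) {r r' : ℕ}
    (hL : (sdV _ fun (a : ch.AG n ν κ Unit S) (c : ℂ) => chT (F.wt j) (F.w j)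
      (θv ℓ (nq () false) (θG a)) * c).Ok (actG F.toWt) Y r r') :
    (sdV _ fun (a : ch.AG n ν κ Unit S) (c : ℂ) => chT (F.wt j) (F.w j)
      (θv ℓ (nq () false) (θG a)) * c).ch (actG F.toWt) Y =
      ((sd (PwJ.kV ν κ Unit ch n (ch.oneF F.toWt j))).pb id z0).ch (actG F.toWt) Y := by
  classical
  let L : ℂ →ₗ[ℂ] Unit → J → ℂ := LinearMap.pi fun _ => LinearMap.single ℂ (fun _ => ℂ) j
  have l1 : ∀ c q, L c q j = c := fun c _ => Pi.single_eq_same (M := fun _ => ℂ) j c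
  have l2 : ∀ c q, ∀ i ≠ j, L c q i = 0 := fun c _ _ d => Pi.single_eq_of_ne (M := fun _ => ℂ) d c
  refine ch_iso ho hL ((okV (std_one hn.cuts) hn (nf_Y0 hn)).pb h)
    (L := fun z => PwJ.CV (z0 z) ∘ₗ L) (hom_sdV (fun c => (PwJ.continuous_CV (L c)).comp_continuousOn
      h.cont) (fun z _ c => ⟨L c, fun _ _ => Fam.mem_vert.2 ⟨l2 c (),
        fun k => k.elim⟩, rfl⟩) fun z hz a ha c => ?_) (fun z hz c _ b => ?_) fun z hz w b => ?_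
  · have b := (Cv.isUnit_iff.1 (AP.isUnit_iff.1 ha).2).2.2 ()
    refine Eq.trans ?_ (PwJ.CV_act (F := ch.oneF F.toWt j) oneF_wt ha (L c))
    refine congrArg₂ (fun x y => PwJ.CV x y) (h.eqv a ha z hz) (funext₂ fun q i => ?_)
    rcases eq_or_ne i j with rfl | d
    · refine (l1 _ q).trans (congrArg₂ (· * ·) (congrArg (_ * ·) ?_) (l1 c q).symm)
      exact (chr_ℓ hw b).trans (chr_ℓ (F := ch.oneF F.toWt i) oneF_wt b).symm
    · exact (l2 _ q i d).trans (mul_eq_zero_of_right _ (l2 c q i d)).symm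
  · exact (l1 c ()).symm.trans (congrFun₂ (PwJ.CV_inj (h.maps hz).1 b) () j)
  · obtain ⟨η, c, rfl⟩ := b
    refine ⟨η () j, trivial, sub_eq_zero.2 (congrArg (PwJ.CV (z0 z)) (funext₂ fun q i => ?_))⟩
    rcases eq_or_ne i j with rfl | d
    · exact l1 _ q
    · exact (l2 _ q i d).trans ((Fam.mem_vert.1 (c q trivial)).1 i d).symm

end NdI

open NdI in
/-- **the normalisation sequence** -/
theorem ind_glue (hn : ch.GN n Unit) (hZ : GZ F ℓ Z) (hZ' : GZ F ℓ Z') [Mono.FP F.actT F.cone]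
    [IsAct (actG F.toWt : ch.AG n ν κ Unit S → _) Y]
    (ho : Orb.Orb (ch.AG n ν κ Unit S)ˣ (Holo.Sp (actG F.toWt) Y)) (hY : ∀ z ∈ Y, Gl z.1.2 z.2)
    (hf : ∀ z ∈ Y, (f z).2.Q = z.2.1.Q ∧ (f z).2.p = z.2.1.p)
    (h₁ : EqM (actG F.toWt : ch.AG n ν κ Unit S → _) (actF F.toWt) Y Z (fun a => a.1) Prod.fst)
    (h₂ : EqM (actG F.toWt : ch.AG n ν κ Unit S → _) (actF F.toWt) Y Z' θG f) (j : J)
    {u : Hev (F.X F.cone)} (hu : u.1 = F.lc _ (F.wt j) (F.w j))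
    (hA : ∀ x ∈ Z', vl x (nq () false) ∈ F.cone) :
    Grr.pS h₂.map (indC F.toWt Z' j) = Grr.pS h₁.map (indC F.toWt Z j) *
      Grr.pS h₂.map (Grr.pS (hZ'.eqh_vl _ hA).toEqv.qm (1 + C u * X)) := by
  have := hZ.act
  have := hZ'.act
  have h := eqM_z0 (Wg := F.toWt) (j := j) hY fun z hz => ⟨trivial, (hZ.sol (h₁.maps hz)).1.2⟩
  have hs := std_one (Wg := F.toWt) (j := j) hn.cuts
  have m := nf_Y0 (ν := ν) (κ := κ) (Wg := F.toWt) (j := j) hn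
  obtain ⟨v, o⟩ := okL hs hn m
  obtain ⟨v', o'⟩ := okN hs hn m
  have oc := Tq.orb F.actT F.cone
  have hL : (sdV _ fun t (c : ℂ) => chT (F.wt j) (F.w j) t * c).Ok F.actT F.cone 1 0 :=
    (Module.finrank_self ℂ) ▸ ok_sdV (rep_chr (hm_chT _ _))
  have he := eqM_of (hZ'.eqh_vl _ hA)
  have a := seq hs hn m ho h
  have k := ch_K ho hZ.toOZ h₁ (g := fun z => (z0 z).1) (fun _ _ => rfl) (o.pb h)
  have k' := ch_K ho hZ'.toOZ h₂ (g := fun z => μG (z0 z))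
    (fun z hz => by simp only [gr, (hf z hz).1]; rfl) (o'.pb h)
  have l := (ch_V hn hZ.wt ho h ((hL.pb he).pb h₂)).symm.trans ((ch_pb ho hZ'.orb h₂ (hL.pb he)).trans
    (congrArg _ ((ch_pb hZ'.orb oc he hL).trans (congrArg _ (ch_line oc hL hu)))))
  have i := congrArg (Grr.pS h₁.map) (indC_mul hZ.orb hZ.cuts hZ.base j)
  have i' := congrArg (Grr.pS h₂.map) (indC_mul hZ'.orb hZ'.cuts hZ'.base j)
  have c := k ▸ mul_invOfUnit _ 1 ((o.pb h).constCoeff ho)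
  have c' := k' ▸ mul_invOfUnit _ 1 ((o'.pb h).constCoeff ho)
  rw [map_mul] at i i'
  have x := ch_X ho hZ.toOZ h₁ (spt₁ (F := ch.oneF F.toWt j) (Λ := Λ)).rep fun _ => rfl
  have x' := ch_X ho hZ'.toOZ h₂ (spt₂ (F := ch.oneF F.toWt j) (Λ := Λ)).rep fun _ => rfl
  have b := (congrArg₂ (· * ·) x' k).symm.trans
    (a.trans (congrArg₂ (· * ·) x (congrArg₂ (· * ·) l k')))
  refine ((IsUnit.of_mul_eq_one _ c).mul (IsUnit.of_mul_eq_one _ c')).mul_left_inj.1 ?_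
  exact alg i i' b

end Vale.Agent.P269.Ch
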