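import Vale.Agent.P269.Qrr.Nod
import Vale.Agent.P269.Grr.ChQ0

/-!
# Fundamental classes of presentations
-/

set_option linter.unusedSectionVars false

namespace Vale.Agent.P269

open P291Z Set Function Topology Filter Holo Base Module Loc Grr Ch

/-- a biholomorphic presentation identifies the fundamental classes -/
theorem Ch.Pres.push_fnd {A W : Type} [NormedRing A] [NormedAlgebra ℂ A] [NormedAddCommGroup W]
    [NormedSpace ℂ W] [FiniteDimensional ℂ A] [FiniteDimensional ℂ W] {act : A → W → W}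
    {S : Set W} {Y : HO} (q : Pres Y.toSp act S) [IsAct act S] (ρ : Y.G →* Aˣ)
    (hρ : IsHomeomorph ρ) (hu : ∀ g, q.u g = ρ g) (h1 : ∀ t, HolAt Y.ι q.i t)
    (h2 : ∀ t, HolAt q.i Y.ι t) (ho : Orb.HolOrb Aˣ (Holo.Sp.val : Holo.Sp act S → W) Y.n) :
    push q.e (fnd act S Y.n) = Y.fund := by
  have := q.nice
  let f : Y.T → Holo.Sp act S := fun t => Holo.Sp.of act _ (q.mem t)
  have hf : IsHomeomorph f := isHomeomorph_iff_isEmbedding_surjective.2
    ⟨q.emb.codRestrict _ q.mem, fun x => (q.surj x.1 x.2).imp fun _ => Subtype.ext⟩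
  have e1 : ∀ g, ρ g = 1 → g = 1 := fun g e => hρ.injective (e.trans (map_one ρ).symm)
  have pb : PB Y.ι Holo.Sp.val ρ f := ⟨⟨⟨hρ.surjective, hρ.continuous, hρ.isOpenMap⟩, hf.continuous,
    fun g t => Subtype.ext ((q.eqv g t).trans (congrArg (act · _) (hu g))),
    fun t t' e => ⟨1, map_one _, (one_smul _ _).trans (hf.injective e)⟩, fun _ g e _ => e1 g e,
    fun t O hO => .of_forall fun _ g e _ => e1 g e ▸ mem_of_mem_nhds hO⟩, h1, fun t => by
      have a : ∀ s, f (hf.homeomorph.symm s) = s := hf.homeomorph.apply_symm_apply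
      have b : hf.homeomorph.symm (f t) = t := hf.homeomorph.symm_apply_apply t
      obtain ⟨Φ, c, d⟩ := h2 t
      exact ⟨hf.homeomorph.symm, b, .of_forall fun _ => hf.homeomorph.symm.continuous.continuousAt,
        ⟨Φ, c, ((hf.homeomorph.symm.continuous.tendsto' _ _ b).eventually d).mono fun s e =>
          e.trans (congrArg (fun x => Φ (Holo.Sp.val x)) (a s))⟩, .of_forall a⟩⟩
  have he := q.isHomeomorph_e
  have k := he.homeomorph.symm.isHomeomorph
  rw [HO.fund, ← pb.res_fundQ Y.isQuo Orb.isQuo_sp (F := he.homeomorph.symm)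
    (fun t => he.homeomorph.symm_apply_eq.2 (q.map t).symm) Y.holOrb ho,
    ← res_push_homeo k (push q.e _), push_push (isPr_homeo he) (.of_homeomorph _),
    show he.homeomorph.symm ∘ q.e = id from funext he.homeomorph.symm_apply_apply, push_id']
  rfl

namespace Grr.IsCh

variable {S Λ R J ι ν κ : Type} [Fintype S] [Fintype Λ] [Fintype R] [Fintype J] [Fintype ι]
  [DecidableEq ι] [Fintype ν] [Fintype κ] {ch : Ch ι J} {W : Wt S Λ R J}
  {O : Set (ch.WF ν κ Λ)} {U : HO} {F : CF U ch.M ch.o ch.g ch.m} {p : Pres U.toSp (actF W) O}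
  {τ : U.G →* (ch.AF ν κ S)ˣ}

variable (τ) in
/-- the group of the universal curve -/
noncomputable def τU : U.G × Tor ι →* (ch.AU ν κ S)ˣ :=
  MulEquiv.prodUnits.symm.toMonoidHom.comp (τ.prodMap MulEquiv.piUnits.symm.toMonoidHom)

theorem isHomeomorph_τU (hτ : IsHomeomorph τ) : IsHomeomorph (τU τ : U.G × Tor ι → _) :=
  Homeomorph.prodUnits.symm.isHomeomorph.comp
    (hτ.prodMap ContinuousMulEquiv.piUnits.symm.toHomeomorph.isHomeomorph)

variable (h : IsCh F p τ) (hτ : IsHomeomorph τ) (hi : ∀ t, HolAt p.i U.ι t) [IsAct (actF W) O]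
include h hτ hi

theorem push_fnd (ho : Orb.HolOrb (ch.AF ν κ S)ˣ (Holo.Sp.val : Holo.Sp (actF W) O → _) U.n) :
    push p.e (fnd (actF W) O U.n) = U.fund := p.push_fnd τ hτ h.u h.hol hi ho

omit hτ hi in
theorem holC (x : F.UT) : HolAt F.UC.ι (fun x : F.UT => ((p.i x.t, x.c) : ch.WC ν κ Λ)) x :=
  ((h.hol x.t).comp (ι' := F.ιU) CF.UT.continuous_t.continuousAt
    (.of_an (ι := F.ιU) analyticAt_fst)).prod (.of_an (ι := F.ιU) analyticAt_snd)

omit hτ h in
theorem holC' (x : F.UT) : HolAt (fun x : F.UT => ((p.i x.t, x.c) : ch.WC ν κ Λ)) F.UC.ι x :=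
  show HolAt _ F.ιU x from ((hi x.t).comp CF.UT.continuous_t.continuousAt
    (.of_an (ι := fun x : F.UT => ((p.i x.t, x.c) : ch.WC ν κ Λ)) analyticAt_fst)).prod
    (.of_an (ι := fun x : F.UT => ((p.i x.t, x.c) : ch.WC ν κ Λ)) analyticAt_snd)

theorem push_fndC {q : Pres F.US (actC W) (unv O)}
    (hu : ∀ s : U.G × Tor ι, q.u s = (p.u s.1, fun i => (s.2 i : ℂ)))
    (hq : ∀ x : F.UT, q.i x = (p.i x.t, x.c))
    (ho : Orb.HolOrb (ch.AU ν κ S)ˣ (Holo.Sp.val : Holo.Sp (actC W) (unv O) → _) (U.n + 1)) :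
    push q.e (fnd (actC W) (unv O) (U.n + 1)) = F.UC.fund :=
  Pres.push_fnd (Y := F.UC) q (τU τ) (isHomeomorph_τU hτ)
    (fun s => (hu s).trans (Prod.ext (h.u _) rfl)) (funext hq ▸ h.holC) (funext hq ▸ holC' hi) ho

theorem push_fndN {q : Pres F.UNH.toSp (actC W) (nod O)}
    (hu : ∀ s : U.G × Tor ι, q.u s = (p.u s.1, fun i => (s.2 i : ℂ)))
    (hq : ∀ x : F.UN, q.i x = (p.i (CF.UT.t x.1), CF.UT.c x.1))
    (ho : Orb.HolOrb (ch.AU ν κ S)ˣ (Holo.Sp.val : Holo.Sp (actC W) (nod O) → _) (U.n - 1)) :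
    push q.e (fnd (actC W) (nod O) (U.n - 1)) = F.UNH.fund :=
  Pres.push_fnd (Y := F.UNH) q (τU τ) (isHomeomorph_τU hτ)
    (fun s => (hu s).trans (Prod.ext (h.u _) rfl))
    (funext hq ▸ fun x : F.UN => let ⟨Φ, a, b⟩ := h.holC x.1
      ⟨Φ, a, F.iN.cf.continuousAt.eventually b⟩)
    (funext hq ▸ fun x : F.UN => let ⟨Φ, a, b⟩ := holC' hi x.1
      ⟨Φ, a, F.iN.cf.continuousAt.eventually b⟩) ho

end Grr.IsCh

end Vale.Agent.P269
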