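import Vale.Agent.P269.Map.TZ
import Vale.Agent.P269.Bas.Cmp
import Vale.Agent.P269.Edg.FC
import Vale.Agent.P269.Prj.Quo

/-!
# Reduction of the structure group; transverse zero sets in an affine slice
-/

set_option linter.unusedSectionVars false
set_option linter.style.haveILetI false

namespace Vale.Agent.P269.Th

open Set Function Topology Filter Module Vale.Agent.P291Z Vale.Agent.P269.Holo
  Vale.Agent.P269.Orb Tq Ch Ch.KD

variable {A B W W₁ P : Type} [NormedRing A] [NormedAlgebra ℂ A] [NormedRing B] [NormedAlgebra ℂ B]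
  [NormedAddCommGroup W] [NormedSpace ℂ W] [NormedAddCommGroup W₁] [NormedSpace ℂ W₁]
  [FiniteDimensional ℂ A] [FiniteDimensional ℂ B] [FiniteDimensional ℂ W] [FiniteDimensional ℂ W₁]
  {act : A → W → W} {act₁ : B → W₁ → W₁} {O Z : Set W} {O₁ : Set W₁} {θ : B → A} {f : W₁ → W}
  {d : ℕ}

/-- A reduction of the structure group. -/
structure Rd (act₁ : B → W₁ → W₁) (act : A → W → W) (O₁ : Set W₁) (O : Set W) (θ : B → A)
    (f : W₁ → W) : Prop extends Eqh act₁ act O₁ O θ f where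
  an : ∀ x ∈ O₁, AnalyticAt ℂ f x
  inj : InjOn f O₁
  inv : ∃ θ', Hm θ' ∧ ∀ b, IsUnit b → θ' (θ b) = b
  full : ∀ s, IsUnit s → ∀ x ∈ O₁, ∀ y ∈ O₁, act s (f x) = f y → ∃ b, IsUnit b ∧ θ b = s

namespace Rd

variable (h : Rd act₁ act O₁ O θ f) [IsAct act₁ O₁] [IsAct act O]
include h

/-- the map of the spaces -/
def F (x : Holo.Sp act₁ O₁) : Holo.Sp act O := .of act (f x.val) (h.maps x.val_mem)

theorem cF : Continuous h.F := h.cont.domRestrict.subtype_mk _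

theorem F_smul (g : Bˣ) (x : Holo.Sp act₁ O₁) : h.F (g • x) = h.hm.ρ g • h.F x :=
  Sp.ext (h.eqv _ g.isUnit _ x.val_mem)

theorem F_inj : Injective h.F := fun x y e =>
  Sp.ext (h.inj x.val_mem y.val_mem (congrArg Sp.val e))

theorem exists_inv : ∃ ρ : Aˣ →ₜ* Bˣ, LeftInverse ρ h.hm.ρ :=
  let ⟨_, a, b⟩ := h.inv
  ⟨a.ρ, fun g => Units.ext (b _ g.isUnit)⟩

theorem full' {g : Aˣ} {x y : Holo.Sp act₁ O₁} (e : g • h.F x = h.F y) :
    ∃ b, h.hm.ρ b = g ∧ b • x = y := by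
  obtain ⟨_, ⟨b, rfl⟩, c⟩ := h.full _ g.isUnit _ x.val_mem _ y.val_mem (congrArg Sp.val e)
  obtain rfl : h.hm.ρ b = g := Units.ext c
  exact ⟨b, rfl, h.F_inj ((h.F_smul b x).trans e)⟩

variable (ho : Orb Aˣ (Holo.Sp act O))
include ho

theorem orb (hl : IsLocallyClosed O₁) : Orb Bˣ (Holo.Sp act₁ O₁) := by
  obtain ⟨ρ, a⟩ := h.exists_inv
  haveI := ho.proper
  haveI := FiniteDimensional.proper ℂ W₁
  haveI : LocallyCompactSpace O₁ := hl.locallyCompactSpace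
  refine ⟨inferInstance, properSMul_of_hom (a.isClosedEmbedding ρ.continuous
    h.hm.ρ.continuous).isProperMap h.cF h.F_smul, ⟨inferInstance, inferInstance, inferInstance⟩,
    fun t => ?_⟩
  obtain ⟨τ, b, c⟩ := ho.loc (h.F t)
  refine ⟨fun x => ρ (τ (h.F x)), (h.cF.continuousAt.eventually b).mono fun x e =>
    ρ.continuous.continuousAt.comp (e.comp h.cF.continuousAt),
    (((h.hm.ρ.continuous.prodMap h.cF).tendsto' (1, t) _ (by simp)).eventually c).mono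
      fun y e => ?_⟩
  exact (congrArg (fun x => ρ (τ x)) (h.F_smul _ _)).trans ((congrArg ρ e).trans
    ((map_mul ρ _ _).trans (congrArg (· * _) (a _))))

theorem slK {φ : (Fin d → ℂ) → Holo.Sp act₁ O₁} (hφ : IsSlK (expU : B → Bˣ) Sp.val φ 0)
    (hm : Mf A O d) : IsSlK (expU : A → Aˣ) Sp.val (fun z => h.F (φ z)) 0 := by
  haveI := FiniteDimensional.complete ℂ A
  haveI := FiniteDimensional.complete ℂ B
  obtain ⟨ρ, a⟩ := h.exists_inv
  have c1 := h.cF.continuousAt.comp (hφ.cont isExp_expU)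
  have c2 : Tendsto (fun q : (A × (Fin d → ℂ)) × A × (Fin d → ℂ) =>
      ((ρ ((expU q.2.1)⁻¹ * expU q.1.1), q.1.2), ((1 : Bˣ), q.2.2))) (𝓝 (0, 0) ×ˢ 𝓝 (0, 0))
      (𝓝 (1, 0) ×ˢ 𝓝 (1, 0)) := by
    rw [← nhds_prod_eq, ← nhds_prod_eq]
    have := (isExp_expU (A := A)).cont
    exact Continuous.tendsto' (by fun_prop) _ _ (by simp [isExp_expU.zero])
  have c3 : Tendsto Prod.fst (𝓝 ((0 : A), (0 : Fin d → ℂ))) (𝓝 0) := continuousAt_fst
  refine IsMfd.isParam_of_inj ?_ ((isExp_expU.cont.comp continuous_fst).continuousAt.smul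
    (c1.comp_of_eq continuousAt_snd rfl)) ((Sp.holAct (act := act) _).an_fam c1
      ((h.an _ (φ 0).val_mem).comp_of_eq (hφ.an isExp_expU) rfl)) ?_
  · rw [finrank_prod, finrank_fin_fun]
    have k : ∀ x : Holo.Sp act O, IsMfd Sp.val (finrank ℂ A + d) x := fun x =>
      (hm _ x.val_mem).2
    exact k _
  filter_upwards [c2.eventually (hφ.isSl isExp_expU).1.eventually_inj,
    (c3.prodMap c3).eventually (isExp_expU (A := A)).lh.eventually_inj] with q b c e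
  obtain ⟨g, e1, e2⟩ := h.full' ((mul_smul _ _ _).trans (inv_smul_eq_iff.2 e))
  rw [← e1, a] at b
  obtain ⟨rfl, e3⟩ := Prod.ext_iff.1 (b (e2.trans (one_smul _ _).symm))
  exact Prod.ext (c (inv_mul_eq_one.1 (e1.symm.trans (map_one _))).symm) e3

theorem res_fnd (ho₁ : Orb Bˣ (Holo.Sp act₁ O₁)) (hm : Mf A O d) (hm₁ : Mf B O₁ d) :
    IsOpenEmbedding h.toEqv.qm ∧ haveI := nice_of_orb ho
      res h.toEqv.qm (P269.fnd act O d) = P269.fnd act₁ O₁ d := by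
  haveI := FiniteDimensional.complete ℂ A
  haveI := FiniteDimensional.complete ℂ B
  haveI := FiniteDimensional.complete ℂ W₁
  haveI := nice_of_orb ho
  have k := fun t : Holo.Sp act₁ O₁ => Sp.exists_slK (x := t) (hm₁ _ t.val_mem).2
    (ho₁.finite_stabilizer t) rfl
  have e : IsOpenEmbedding h.toEqv.qm := .of_continuous_injective_isOpenMap h.toEqv.qm.continuous
    (Sp.surjective_mk.forall.2 fun x => Sp.surjective_mk.forall.2 fun y e =>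
      let ⟨_, a⟩ := (Sp.mk_eq_iff (x := h.F x) (y := h.F y)).1 e
      let ⟨g, _, b⟩ := h.full' a
      Sp.mk_eq_iff.2 ⟨g, b⟩) (isOpenMap_iff_nhds_le.2 (Sp.surjective_mk.forall.2 fun x => by
        obtain ⟨φ, rfl, a⟩ := k x
        have b := (h.slK ho a hm).lh.map_nhds
        rw [isExp_expU.zero, one_smul] at b
        refine (Sp.isOpenQuotientMap_mk.map_nhds_eq (h.F (φ 0))).ge.trans ?_
        rw [← b, map_map]
        exact ((tendsto_map (f := h.toEqv.qm)).comp ((Sp.continuous_mk.tendsto _).comp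
          ((a.cont isExp_expU).tendsto.comp (continuous_snd.tendsto (0, 0))))).congr fun p =>
            (Sp.mk_smul _ (h.F (φ p.2))).symm))
  refine ⟨e, ((holOrb_of_orb ho fun x => (hm _ x.2).2).res_fund isQuo_sp (holOrb_of_orb ho₁
    fun x => (hm₁ _ x.2).2) isQuo_sp e (isQuo_sp.meets dense_univ) fun t _ => ?_).trans
      (one_smul _ _)⟩
  obtain ⟨φ, rfl, a⟩ := k t
  obtain ⟨ρ, b⟩ := h.exists_inv
  exact ⟨φ, _, a.isSl isExp_expU, rfl, (h.slK ho a hm).isSl isExp_expU, .of_forall fun _ => rfl,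
    (congrArg _ (stab_of_bijOn (ρ := h.hm.ρ.toMonoidHom) ⟨fun g c =>
      (h.F_smul g _).symm.trans (congrArg _ c), b.injective.injOn, fun g c =>
        (h.full' c).imp fun _ c => c.symm⟩)).trans (one_mul _).symm⟩

end Rd

/-- An affine slice `Fl` with directions `E` and structure group `θ`. -/
structure Slc (act : A → W → W) (O : Set W) (θ : B → A) (Fl : Set W) (E : Submodule ℂ W) :
    Prop where
  hm : Hm θ
  an : ∀ b, IsUnit b → AnalyticAt ℂ θ b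
  inv : ∃ θ', Hm θ' ∧ ∀ b, IsUnit b → θ' (θ b) = b
  aff : ∀ x ∈ Fl, ∀ y, y ∈ Fl ↔ y - x ∈ E
  opn : ∀ x ∈ O ∩ Fl, ∀ᶠ y in 𝓝 x, y ∈ Fl → y ∈ O
  ivt : ∀ b, IsUnit b → ∀ x ∈ Fl, act (θ b) x ∈ Fl
  full : ∀ s, IsUnit s → ∀ x ∈ Fl, act s x ∈ Fl → ∃ b, IsUnit b ∧ θ b = s

namespace Slc

variable {Fl : Set W} {E : Submodule ℂ W} (h : Slc act O θ Fl E)
include h

theorem isAct [a : IsAct act Z] : IsAct (fun b => act (θ b)) (Z ∩ Fl) :=
  ⟨fun x hx => by rw [h.hm.one, a.one x hx.1], fun b c hb hc x hx => by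
    rw [h.hm.mul b c hb hc, a.mul _ _ (h.hm.isUnit hb) (h.hm.isUnit hc) x hx.1],
    fun b hb x hx => ⟨a.mem _ (h.hm.isUnit hb) x hx.1, h.ivt b hb x hx.2⟩, fun b hb x hx =>
      (a.an _ (h.hm.isUnit hb) x hx.1).comp_of_eq
        (((h.an b hb).comp_of_eq analyticAt_fst rfl).prod analyticAt_snd) rfl⟩

theorem rd : Rd (fun b => act (θ b)) act (Z ∩ Fl) Z θ id :=
  ⟨⟨h.hm, fun _ a => a.1, continuousOn_id, fun _ _ _ _ => rfl⟩, fun _ _ => analyticAt_id,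
    injOn_id _, h.inv, fun s a x b _ c e => h.full s a x b.2 (mem_of_eq_of_mem e c.2)⟩

theorem isClosed : IsClosed Fl := by
  rcases Fl.eq_empty_or_nonempty with rfl | ⟨a, ha⟩
  · exact isClosed_empty
  · exact Set.ext (h.aff a ha) ▸ E.closed_of_finiteDimensional.preimage (f := (· - a)) (by fun_prop)

theorem mfd (x : (O ∩ Fl : Set W)) :
    IsMfd Subtype.val (finrank ℂ E) x ∧ tan Subtype.val x = E :=
  Edg.isMfd_aff IsEmbedding.subtypeVal (fun z => (h.aff _ x.2.2 _).1 z.2.2) ((h.opn _ x.2).mono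
    fun y a b => ⟨⟨y, a ((h.aff _ x.2.2 _).2 b), (h.aff _ x.2.2 _).2 b⟩, rfl⟩)

variable [AddCommGroup P] [Module ℂ P] [TopologicalSpace P] [IsTopologicalAddGroup P]
  [ContinuousSMul ℂ P] [T2Space P] {D : KD A W P} {n r m : ℕ} (hD : D.Gd act Z O n r)
include hD

theorem gd : (D.pb θ id).Gd (fun b => act (θ b)) (Z ∩ Fl) (O ∩ Fl) n r :=
  haveI := hD.dom.isAct
  haveI := h.isAct (Z := O)
  ⟨⟨inter_subset_inter_left _ hD.dom.sub, ⟨univ, isOpen_univ, (inter_univ _).symm⟩, this,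
    h.rd.orb hD.dom.orb (hD.lc.inter h.isClosed.isLocallyClosed), fun x hx =>
      (hD.dom.zero x hx.1).trans (and_iff_left hx.2).symm⟩, hD.ok.pb h.hm.ρ.toMonoidHom
        h.hm.ρ.continuous (fun _ => rfl) continuousOn_id (fun _ a => a.1) fun _ _ _ _ => rfl⟩

theorem res_vr (hO : Mf A O d) (hE : finrank ℂ E = finrank ℂ B + d) :
    IsOpenEmbedding (h.rd (Z := Z)).toEqv.qm ∧ haveI := hD.niceZ
      res (h.rd (Z := Z)).toEqv.qm (D.vr act Z O (hD.fu d)) =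
        (D.pb θ id).vr _ (Z ∩ Fl) (O ∩ Fl) ((h.gd hD).fu d) := by
  haveI := hD.dom.isAct
  haveI := h.isAct (Z := O)
  haveI := hD.niceZ
  haveI := hD.nice
  haveI := (h.gd hD).niceZ
  obtain ⟨a, b⟩ := h.rd.res_fnd hD.dom.orb (h.gd hD).dom.orb hO fun x hx =>
    ⟨hx, hE ▸ (h.mfd ⟨x, hx⟩).1⟩
  obtain ⟨k, k', c1, c2, c3, c4, c5⟩ := (h.gd hD).exists_cmp hD (f := id) (B := .id)
    ⟨⟨h.hm.ρ.toMonoidHom, h.hm.ρ.continuous, fun _ => rfl⟩, fun _ a => a.1, continuousOn_id,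
      fun _ _ _ _ => rfl⟩ ⟨fun _ a => a, fun _ _ _ _ => rfl, fun _ _ _ a => a,
        fun _ _ => mem_of_eq_of_mem (sub_self _) (zero_mem _), fun _ _ _ _ a => a⟩
    (fun _ _ _ _ a => a) fun _ => rfl
  have s : ∀ z, (h.rd (Z := O)).toEqv.qm (Quo.incl _ (h.gd hD).dom.sub z) =
      Quo.incl act hD.dom.sub ((h.rd (Z := Z)).toEqv.qm z) := Tq.mk_surj.forall.2 fun _ => rfl
  refine ⟨c1.isOpenEmbedding a c3 c2 s, ?_⟩
  rw [c4, c5]
  exact (c1.res_vir a c3 c2 s _).trans (congrArg _ b)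

variable {T : Type} {φ : T → P →ₗ[ℂ] ℂ} (b1 : ∀ t x, AnalyticAt ℂ (fun y => φ t (D.s y)) x)
  (b2 : ∀ x ∈ O ∩ Fl, ∀ w ∈ D.P₀, w ∈ D.van x ↔ ∀ t, φ t w = 0)
include b1 b2

theorem vr_eq [IsAct (fun b => act (θ b)) (Z ∩ Fl)] (hE : finrank ℂ E = finrank ℂ B + (m + r))
    (hZ : Mf B (Z ∩ Fl) m) (b3 : ∀ x ∈ Z ∩ Fl, ∃ N : Submodule ℂ W,
      finrank ℂ N ≤ finrank ℂ B + m ∧ ∀ v ∈ E,
        (∀ t, fderiv ℂ (fun y => φ t (D.s y)) x v = 0) → v ∈ N) :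
    (D.pb θ id).vr _ (Z ∩ Fl) (O ∩ Fl) ((h.gd hD).fu (m + r)) =
      P269.fnd (fun b => act (θ b)) (Z ∩ Fl) m := by
  have g := h.gd hD
  have c : ∀ x t, (D.pb θ id).Tst (O ∩ Fl) x (fun _ => φ t) fun y => φ t (D.s y) := fun x t =>
    ⟨b1 t x, fun _ _ => .of_forall fun _ => continuousWithinAt_const, eventually_mem_nhdsWithin.mono
      fun y hy w hw => (b2 y hy w (g.ok.fam.le y hy hw)).1 hw t, .of_forall fun _ => rfl⟩
  have mO : Mf B (O ∩ Fl) (m + r) := fun x hx => ⟨hx, hE ▸ (h.mfd ⟨x, hx⟩).1⟩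
  have k0 : ∀ s ∈ Z ∩ Fl, ∀ t, φ t (D.s s) = 0 := fun s hs t =>
    (c s t).van.self_of_nhdsWithin (g.dom.sub hs) _ ((g.dom.zero _ (g.dom.sub hs)).2 hs)
  have k1 : ∀ x (hx : x ∈ Z ∩ Fl), ∀ v ∈ E,
      (∀ t, fderiv ℂ (fun y => φ t (D.s y)) x v = 0) → v ∈ tan Subtype.val (⟨x, hx⟩ : ↥(Z ∩ Fl)) :=
    fun x hx v hv H => by
      obtain ⟨N, e1, e2⟩ := b3 x hx
      have e4 : tan Subtype.val (⟨x, hx⟩ : ↥(Z ∩ Fl)) ≤
          tan Subtype.val (⟨x, g.dom.sub hx⟩ : ↥(O ∩ Fl)) :=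
        tan_le_of_comp (ι := Subtype.val) (u := inclusion g.dom.sub) (t' := ⟨x, hx⟩)
          (continuous_inclusion _).continuousAt
      have e3 : tan Subtype.val (⟨x, hx⟩ : ↥(Z ∩ Fl)) ≤ N := fun u hu =>
        e2 u ((h.mfd ⟨_, g.dom.sub hx⟩).2.le (e4 hu)) fun t =>
            (hZ _ hx).2.fderiv_eq_zero (b1 t _) (.of_forall fun s => k0 _ s.2 t) hu
      exact (Submodule.eq_of_le_of_finrank_le e3 (e1.trans (hZ _ hx).2.finrank_tan.ge)).ge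
        (e2 v hv H)
  refine g.vr_tz mO hZ (fun x hx v ⟨hx', hv⟩ H => ⟨hx, k1 x hx v ((h.mfd ⟨_, hx'⟩).2.le hv)
    fun t => H _ _ (c _ t)⟩) fun x hx w hw H => ?_
  exact (b2 x (g.dom.sub hx) w (g.ok.obs_le x (g.dom.sub hx)
      ((g.dom.zero x (g.dom.sub hx)).2 hx) hw)).2 fun t => H _ _ (c x t)

/-- **the virtual class of a transverse zero set in a slice** -/
theorem main (hO : Mf A O d) {C : Set W₁} [IsAct act₁ univ] [Mono.FP act₁ C]
    (hC : Tq.Dim act₁ C m) (hf : Eqh act₁ act C Z θ f) (a1 : ∀ y, AnalyticAt ℂ f y) {τ : W → W₁}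
    (a2 : ∀ x, AnalyticAt ℂ τ x) (a3 : LeftInverse τ f) (a4 : MapsTo f C Fl)
    (a5 : SurjOn f C (Z ∩ Fl))
    (b3 : ∀ y ∈ C, ∃ N : Submodule ℂ W, finrank ℂ N ≤ finrank ℂ B + m ∧ ∀ v ∈ E,
      (∀ t, fderiv ℂ (fun y => φ t (D.s y)) (f y) v = 0) → v ∈ N)
    (hd : C.Nonempty → d = m + r ∧ finrank ℂ E = finrank ℂ B + d) :
    IsOpenEmbedding hf.toEqv.qm ∧ haveI := hD.niceZ
      res hf.toEqv.qm (D.vr act Z O (hD.fu d)) = Tq.fnd act₁ C := by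
  rcases C.eq_empty_or_nonempty with e | hn
  · haveI : IsEmpty (Quo act₁ C) := ⟨fun z => e.le z.out.2⟩
    exact ⟨.of_isEmpty _, BM_eq_of_isEmpty _ _⟩
  obtain ⟨rfl, hE⟩ := hd hn
  haveI := FiniteDimensional.complete ℂ W
  haveI := FiniteDimensional.complete ℂ W₁
  haveI := hD.niceZ
  haveI := hD.isActZ
  haveI := h.isAct (Z := Z)
  haveI := (h.gd hD).niceZ
  have c1 : MapsTo f C (Z ∩ Fl) := fun y hy => ⟨hf.maps hy, a4 hy⟩
  have c2 : Mf B (Z ∩ Fl) m := fun x hx => by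
    obtain ⟨y, hy, rfl⟩ := a5 hx
    exact (hC y hy).iso (a1 y) (a2 _) (.of_forall fun s hs => ⟨c1 hs, a3 s⟩)
      (.of_forall fun s hs => by obtain ⟨y, hy, rfl⟩ := a5 hs; rw [a3]; exact ⟨hy, rfl⟩)
  have c3 : Rd act₁ (fun b => act (θ b)) C (Z ∩ Fl) (fun b => b) f :=
    ⟨⟨Hm.id, c1, hf.cont, hf.eqv⟩, fun y _ => a1 y, a3.injective.injOn,
      ⟨_, Hm.id, fun _ _ => rfl⟩, fun s a _ _ _ _ _ => ⟨s, a, rfl⟩⟩
  obtain ⟨d1, d2⟩ := h.res_vr hD hO hE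
  obtain ⟨d3, d4⟩ := c3.res_fnd (h.gd hD).orbZ (Tq.orb act₁ C) c2 hC
  have e : ⇑hf.toEqv.qm = (h.rd (Z := Z)).toEqv.qm ∘ c3.toEqv.qm :=
    funext (Tq.mk_surj.forall.2 fun _ => rfl)
  rw [e]
  exact ⟨d1.comp d3, (res_res d3 d1 _).symm.trans ((congrArg _ (d2.trans (h.vr_eq hD b1 b2 hE c2
    fun x hx => by obtain ⟨y, hy, rfl⟩ := a5 hx; exact b3 y hy))).trans (d4.trans hC.fnd_eq.symm))⟩

end Slc

end Vale.Agent.P269.Th
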