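import Vale.Agent.P269.Qrr.ThA
import Vale.Agent.P269.P1.Diag
import Vale.Agent.P269.Bas.Ev
import Vale.Agent.P269.Fg.PtB

/-!
# Constant maps from the projective line with three marked points
-/

set_option linter.unusedSectionVars false

namespace Vale.Agent.P269.Th

open Set Function Topology Filter Module Base Ch Cv P1 Tq
open OnePoint hiding some map_smul

variable {S Λ R J K ι ν κ : Type} [Fintype S] [Fintype Λ] [Fintype R] [Fintype J] [Fintype K]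
  [Fintype ι] [DecidableEq ι] [Fintype ν] [Fintype κ] {ch : Ch ι J}

section dg

variable {ν' : Type} [Fintype ν'] {x : ch.W ν'} {q : ν' → OnePoint ℂ} {t : ι → ℂ}

theorem sub_dgA {a : ι → ℕ} (μ : Tens ch.M a) : sub (dgA ch q 1 t) _ μ = chr a t • μ :=
  ContinuousMultilinearMap.ext fun v => by
    have := μ.map_smul_univ (fun s => t s.1) v
    rw [Fintype.prod_sigma] at this
    simp only [Finset.prod_const, Finset.card_univ, Fintype.card_fin] at this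
    exact (congrArg μ (funext₂ fun r j => by simp [dgA])).trans this

theorem nf_one : nf q 1 = 1 :=
  Finset.prod_eq_one fun n _ => by induction q n using OnePoint.rec <;> simp

/-- the scalars act on the standard points by rescaling the fields -/
theorem act_dgA (h : Std x q) (ht : ∀ i, t i ≠ 0) (hχ : ∏ i, t i ^ ch.χ i = 1) :
    act (dgA ch q 1 t) x = scl (fun j => (∏ i, t i ^ ch.wd j i)⁻¹) x := by
  obtain ⟨a, b, c⟩ := h.fix_dgA one_ne_zero ht (by rw [hχ, nf_one, one_mul]) fun _ => sc_one _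
  refine W.ext (congrFun a) (congrFun b) c fun j => ContinuousLinearMap.ext fun μ => funext fun e => ?_
  have := chr_ne_zero (a := ch.b j) ht
  rw [act_X, sub_dgA, map_smul, map_smul]
  simp [dgA, chr_wd ht]
  field_simp

end dg

variable (ch ν κ) in
/-- A standard point of a chart of genus zero and degree zero with the marked points `0`, `∞`, `1`,
all fields being induced by the constant one; `v` is the dual basis of `χ`, `ℓ`. -/
structure Dat (W : Wt S Λ R J) (ℓ : R → ι → ℤ) where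
  /-- the positions of the marked points -/
  q' : ν ⊕ κ → OnePoint ℂ
  /-- the point -/
  x : ch.W (Mk ν κ)
  /-- the dual basis -/
  v : Option R → ι → ℤ
  gz : Gz ch (Mk ν κ)
  std : Std x (q' ∘ Sum.map id Prod.fst)
  ind : ∀ j, Ind x (par ch) (evs ch) j 1
  wd : ∀ j i, ch.wd j i = ∑ r, W.w j r * ℓ r i
  deg : ∀ r, ∑ i, ℓ r i * ch.m i = 0
  v1 : ∀ o, ∑ i, o.elim ch.χ ℓ i * v o i = 1
  v2 : ∀ o o', o' ≠ o → ∑ i, o.elim ch.χ ℓ i * v o' i = 0
  v3 : ∀ i, (fun i' => ∑ o, v o i * o.elim ch.χ ℓ i') = Pi.single i 1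
  n0 : ∃ n : Mk ν κ, q' (n.map id Prod.fst) = (0 : ℂ)
  n1 : ∃ n : Mk ν κ, q' (n.map id Prod.fst) = ∞
  n2 : ∃ n : Mk ν κ, q' (n.map id Prod.fst) = (1 : ℂ)
  card : Fintype.card (Mk ν κ) ≤ 3

variable (ch ν κ Λ) in
/-- The directions of the slice: only the movable fields vary. -/
noncomputable def dirs (mov : Set J) : Submodule ℂ (ch.WF ν κ Λ) :=
  (⊥ : Submodule ℂ (Λ → ℂ)).prod ((⨅ l, (W.QL l).ker) ⊓ ((⨅ n, (W.pL n).ker) ⊓ (W.XiL.ker ⊓
    ⨅ j ∈ movᶜ, (W.XL j).ker)))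

theorem mem_dirs {mov : Set J} {y : ch.WF ν κ Λ} : y ∈ dirs Λ ν κ ch mov ↔ y.1 = 0 ∧
    (∀ l, y.2.Q l = 0) ∧ (∀ n, y.2.p n = 0) ∧ y.2.Ξ = 0 ∧ ∀ j ∉ mov, y.2.X j = 0 := by
  simp only [dirs, Submodule.mem_prod, Submodule.mem_inf, Submodule.mem_iInf, Submodule.mem_bot]
  rfl

namespace Dat

section wt

variable {W : Wt S Λ R J} {ℓ : R → ι → ℤ} (c : Dat ν κ ch W ℓ)

/-- the positions of the marked points -/
abbrev q : Mk ν κ → OnePoint ℂ := c.q' ∘ Sum.map id Prod.fst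

/-- the scalars that act on `L r` through `(b r)⁻¹` -/
noncomputable def t (b : R → ℂ) : ι → ℂ := fun i => ∏ r, b r ^ (-c.v (some r) i)

/-- the homomorphism of the groups -/
noncomputable def θ (b : (S → ℂ) × (R → ℂ)) : ch.AF ν κ S := (b.1, dgA ch c.q' 1 (c.t b.2))

/-- the constant map with value `z` -/
noncomputable def σ (z : (Λ → ℂ) × (J → ℂ)) : ch.WF ν κ Λ := (z.1, scl z.2 c.x)

include c in
theorem lat : ch.Lat W ℓ := ⟨c.wd, c.v, c.v1, c.v2, c.v3⟩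

theorem dup_θ (b : (S → ℂ) × (R → ℂ)) : dup (c.θ b).2 = dgA ch c.q 1 (c.t b.2) := rfl

include c in
theorem wd_deg (j : J) : ∑ i, ch.wd j i * ch.m i = 0 := by
  simp only [c.wd, Finset.sum_mul, mul_assoc]
  rw [Finset.sum_comm]
  simp only [← Finset.mul_sum, c.deg, mul_zero, Finset.sum_const_zero]

section t

variable {b : R → ℂ} (hb : ∀ r, b r ≠ 0)
include hb

theorem t_ne (i : ι) : c.t b i ≠ 0 := prod_zpow_ne hb _

theorem prod_t (a : ι → ℤ) : ∏ i, c.t b i ^ a i = ∏ r, b r ^ (-∑ i, a i * c.v (some r) i) := by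
  simpa only [t, mul_neg, Finset.sum_neg_distrib] using
    prod_prod_zpow hb (fun i r => -c.v (some r) i) a

theorem t_χ : ∏ i, c.t b i ^ ch.χ i = 1 :=
  (c.prod_t hb _).trans (Finset.prod_eq_one fun r _ => by
    rw [show ∑ i, ch.χ i * _ = 0 from c.v2 none (some r) (by simp), neg_zero, zpow_zero])

theorem t_ℓ (r : R) : ∏ i, c.t b i ^ ℓ r i = (b r)⁻¹ := by
  rw [c.prod_t hb, Finset.prod_eq_single r (fun r' _ e => by
    rw [show ∑ i, ℓ r i * _ = 0 from c.v2 (some r) (some r') (by simpa using e), neg_zero,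
      zpow_zero]) (by simp), show ∑ i, ℓ r i * _ = 1 from c.v1 (some r), zpow_neg_one]

theorem t_wd (j : J) : (∏ i, c.t b i ^ ch.wd j i)⁻¹ = ∏ r, b r ^ W.w j r := by
  simp only [c.wd, ← prod_prod_zpow (c.t_ne hb), c.t_ℓ hb, inv_zpow, Finset.prod_inv_distrib,
    inv_inv]

end t

theorem t_eq {t : ι → ℂ} (ht : ∀ i, t i ≠ 0) (hχ : ∏ i, t i ^ ch.χ i = 1) :
    c.t (fun r => (∏ i, t i ^ ℓ r i)⁻¹) = t := funext fun i => by
  have := prod_prod_zpow ht (fun o : Option R => o.elim ch.χ ℓ) (c.v · i)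
  simp only [Fintype.prod_option, Option.elim_none, Option.elim_some, hχ, one_zpow, one_mul] at this
  simp only [Dat.t, inv_zpow', neg_neg, this]
  rw [Finset.prod_eq_single i (fun i' _ e => by
    rw [show ∑ o, _ = _ from congrFun (c.v3 i) i', Pi.single_eq_of_ne e, zpow_zero]) (by simp),
    show ∑ o, _ = _ from congrFun (c.v3 i) i, Pi.single_eq_same, zpow_one]

theorem an_θ (b : (S → ℂ) × (R → ℂ)) (hb : IsUnit b) : AnalyticAt ℂ c.θ b :=
  analyticAt_fst.prod (an_dgA analyticAt_const (analyticAt_pi_iff.2 fun _ =>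
    an_prod_zpow analyticAt_snd (isUnit_T.1 hb).2 _) one_ne_zero (c.t_ne (isUnit_T.1 hb).2))

theorem hm_θ : Hm (c.θ : (S → ℂ) × (R → ℂ) → _) :=
  ⟨Prod.ext rfl ((congrArg (dgA ch c.q' 1) (funext fun i => by simp [t])).trans dgA_one),
    fun a b _ _ => Prod.ext rfl ((congrArg₂ (dgA ch c.q') (mul_one 1).symm
      (funext fun _ => prod_zpow_mul _ _ _)).trans (dgA_mul _ _)),
    fun a ha => (c.an_θ a ha).continuousAt⟩

theorem θv_θ (n : Mk ν κ) (b : (S → ℂ) × (R → ℂ)) (hb : IsUnit b) : θv ℓ n (c.θ b) = b :=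
  Prod.ext rfl (funext fun r => by
    simp only [θv, dup_θ, dgA, wt_one, mul_one, inv_zpow, Finset.prod_inv_distrib,
      c.t_ℓ (isUnit_T.1 hb).2, inv_inv])

theorem act_θ {b : (S → ℂ) × (R → ℂ)} (hb : IsUnit b) {y : ch.WF ν κ Λ} (h : Std y.2 c.q) :
    actF W (c.θ b) y = (W.actL b.1 y.1, scl (fun j => chT (W.wt j) (W.w j) b) y.2) := by
  have a := (isUnit_T.1 hb).2
  refine Prod.ext rfl ?_
  rw [actF_snd, dup_θ, act_dgA (x := scl _ y.2) (h.congr rfl rfl rfl) (c.t_ne a) (c.t_χ a),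
    ← scl_mul]
  exact congrArg (scl · _) (funext fun j => by rw [Pi.mul_apply, c.t_wd a, mul_comm]; rfl)

theorem std_σ (z : (Λ → ℂ) × (J → ℂ)) : Std (c.σ z).2 c.q := c.std.congr rfl rfl rfl

theorem σ_act {b : (S → ℂ) × (R → ℂ)} (hb : IsUnit b) (z : (Λ → ℂ) × (J → ℂ)) :
    c.σ (W.actT b z) = actF W (c.θ b) (c.σ z) :=
  Eq.trans (congrArg (Prod.mk _) (scl_mul _ z.2 c.x)) (c.act_θ hb (c.std_σ z)).symm

theorem an_σ (z : (Λ → ℂ) × (J → ℂ)) : AnalyticAt ℂ c.σ z :=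
  analyticAt_fst.prod (Ch.W.an_iff.2 ⟨fun _ => analyticAt_const, fun _ => analyticAt_const,
    analyticAt_const, fun j => an_smul_clm (analyticAt_pi_iff.1 analyticAt_snd j) analyticAt_const⟩)

theorem ind_σ (z : (Λ → ℂ) × (J → ℂ)) (j : J) :
    Ind (c.σ z).2 (par ch) (evs ch) j fun _ => z.2 j := fun y μ =>
  (map_smul (evs ch y (some j)) (z.2 j) _).trans
    (congrArg (z.2 j * ·) ((c.ind j y μ).trans (one_mul _)))

theorem vl_σ (z : (Λ → ℂ) × (J → ℂ)) (n : Mk ν κ) : vl (c.σ z) n = z :=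
  let ⟨_, _, a⟩ := (c.std_σ z).exists_cr c.gz
  Prod.ext rfl (funext fun j => (congrArg (fld _ · j) ((c.std_σ z).p n)).trans
    (a.fld_π (c.ind_σ z j) _))

theorem exists_τ : ∃ τ : ch.WF ν κ Λ → (Λ → ℂ) × (J → ℂ), (∀ y, AnalyticAt ℂ τ y) ∧
    LeftInverse τ c.σ := by
  choose μ hμ using fun j => exists_val_one (a := ch.b j) (c.gz.par_ne ∞)
  refine ⟨fun y => (y.1, fun j => evs ch ∞ (some j) (y.2.X j (μ j))), fun y => analyticAt_fst.prod
    (analyticAt_pi_iff.2 fun j => ?_), fun z => Prod.ext rfl (funext fun j =>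
      (c.ind_σ z j _ _).trans (by rw [hμ, mul_one]))⟩
  exact ((evs ch ∞ (some j) ∘L ContinuousLinearMap.apply ℂ _ (μ j) ∘L Ch.W.XL j).analyticAt _).comp
    analyticAt_snd

/-- induced fields at a standard point are constant -/
theorem eq_σ {y : ch.WF ν κ Λ} (h : Std y.2 c.q) (hy : ∀ j, ∃ s, Ind y.2 (par ch) (evs ch) j s) :
    ∃ z, y = c.σ (y.1, z) := by
  obtain ⟨_, -, a⟩ := h.exists_cr c.gz
  choose s hs using hy
  choose z hz using fun j => const_of_mem (R := P1) (s := s j) (by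
    have := (c.gz.ind_iff.1 (hs j)).1
    rwa [c.wd_deg, O_zero] at this)
  obtain ⟨e1, e2, e3⟩ := (c.std_σ (y.1, z)).unique h
  exact ⟨z, Prod.ext rfl (Ch.W.ext (congrFun e1) (congrFun e2) e3 fun j => a.X_ext (hs j) (by
    simpa only [hz j, smul_eq_mul, mul_one, Pi.smul_def, Pi.one_apply] using c.ind_σ (y.1, z) j))⟩

end wt

variable {F : Fam S Λ R J K} {ℓ : R → ι → ℤ} (c : Dat ν κ ch F.toWt ℓ)

/-- the slice -/
def Fl : Set (ch.WF ν κ Λ) := {y | y.1 ∈ F.B ∧ Std y.2 c.q ∧ ∀ j ∉ F.mov, y.2.X j = 0}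

theorem exists_σ {y : ch.WF ν κ Λ} (hy : y ∈ ch.solF ν κ F) (h : Std y.2 c.q) :
    ∃ z ∈ F.cone, y = c.σ z := by
  obtain ⟨_, -, a⟩ := h.exists_cr c.gz
  obtain ⟨s, b, -⟩ := a.mem_sol.1 hy.2
  obtain ⟨z, e⟩ := c.eq_σ h fun j => ⟨_, b j⟩
  obtain ⟨n, -⟩ := c.n0
  exact ⟨_, c.vl_σ (y.1, z) n ▸ e ▸ vl_mem hy n, e⟩

variable [IsEmpty κ]

theorem mem_baseF {y : ch.WF ν κ Λ} (hy : y.1 ∈ F.B) (h : Std y.2 c.q) : y ∈ ch.baseF ν κ F.B :=
  ⟨hy, h.mem_base c.gz, isEmptyElim⟩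

variable (hF : F.Inv)
include hF

theorem σ_mem {z : (Λ → ℂ) × (J → ℂ)} (hz : z ∈ F.cone) : c.σ z ∈ ch.solF ν κ F := by
  obtain ⟨_, -, a⟩ := (c.std_σ z).exists_cr c.gz
  refine ⟨c.mem_baseF hz.1 (c.std_σ z), a.mem_sol.2 ⟨_, c.ind_σ z, fun y t ht => ?_⟩⟩
  have := (hF.cone_act (t := (1, fun r => ∏ i, t i ^ ℓ r i))
    (isUnit_T.2 ⟨fun _ => one_ne_zero, fun _ => prod_zpow_ne ht _⟩) hz).2
  simpa [Wt.actT, Wt.actL_one, prod_prod_zpow ht, c.wd, σ] using this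

/-- **the section of the evaluation maps** -/
theorem eqh {Z : Set (ch.WF ν κ Λ)} (hZ : ch.solF ν κ F ⊆ Z) :
    Eqh F.actT (actF F.toWt) F.cone Z c.θ c.σ :=
  ⟨c.hm_θ, fun _ a => hZ (c.σ_mem hF a), fun z _ => (c.an_σ z).continuousAt.continuousWithinAt,
    fun _ a z _ => c.σ_act a z⟩

variable [DecidableEq R] (hA : F.Abs)
include hA

theorem σ_mem_Fl {z : (Λ → ℂ) × (J → ℂ)} (hz : z ∈ F.cone) : c.σ z ∈ c.Fl :=
  ⟨hz.1, c.std_σ z, ((hA.mem_cyc hF).1 (hA.sol_subset hF (c.σ_mem hF hz))).2⟩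

theorem slc {l : Λ → ℂ} (hB : F.B = {l}) {U : Set (ch.WF ν κ Λ)} (hU : IsOpen U) :
    Slc (actF F.toWt) (ch.cyc κ F (0 : ν → J → ℕ) ∩ U) c.θ c.Fl (dirs Λ ν κ ch F.mov) := by
  obtain ⟨n₀, e₀⟩ := c.n0
  obtain ⟨n₁, e₁⟩ := c.n1
  obtain ⟨n₂, e₂⟩ := c.n2
  refine ⟨c.hm_θ, c.an_θ, ⟨_, hm_θv ℓ n₀, c.θv_θ n₀⟩, fun x hx y => ⟨fun hy => ?_, fun hy => ?_⟩,
    fun x hx => (hU.eventually_mem hx.1.2).mono fun y a b =>
      ⟨(hA.mem_cyc hF).2 ⟨c.mem_baseF b.1 b.2.1, b.2.2⟩, a⟩, fun b hb x hx => ?_,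
    fun s hs x hx hy => ?_⟩
  · obtain ⟨a1, a2, a3⟩ := hx.2.1.unique hy.2.1
    exact mem_dirs.2 ⟨sub_eq_zero.2 ((hB.le hy.1).trans (hB.le hx.1).symm),
      fun l => sub_eq_zero.2 (congrFun a1 l), fun n => sub_eq_zero.2 (congrFun a2 n),
      sub_eq_zero.2 a3, fun j hj => sub_eq_zero.2 ((hy.2.2 j hj).trans (hx.2.2 j hj).symm)⟩
  · obtain ⟨a1, a2, a3, a4, a5⟩ := mem_dirs.1 hy
    exact ⟨mem_of_eq_of_mem (sub_eq_zero.1 a1) hx.1, hx.2.1.congr
      (funext fun l => sub_eq_zero.1 (a2 l)) (funext fun n => sub_eq_zero.1 (a3 n))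
      (sub_eq_zero.1 a4), fun j hj => (sub_eq_zero.1 (a5 j hj)).trans (hx.2.2 j hj)⟩
  · rw [c.act_θ hb hx.2.1]
    exact ⟨hF.invB _ (Prod.isUnit_iff.1 hb).1 _ hx.1, hx.2.1.congr rfl rfl rfl, fun j hj =>
      (congrArg (_ • ·) (hx.2.2 j hj)).trans (by ext; simp)⟩
  have h : Std (scl (fun j => ∏ i, s.1 i ^ F.wt j i) x.2) c.q := hx.2.1.congr rfl rfl rfl
  have k : ∀ n, Orb (par ch (c.q n)) fun i => (dup s.2).1 i (par ch (c.q n) i) := fun n => by
    have := (orb_p (x := scl (fun j => ∏ i, s.1 i ^ F.wt j i) x.2) (isUnit_dupF hs) n).symm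
    rwa [h.p, show (act _ _).p n = _ from hy.2.1.p n] at this
  obtain ⟨a, t, -, ht, d1, d2, d3⟩ := h.eq_dgA c.gz (isUnit_dupF hs) hy.2.1
    (e₀ ▸ k n₀) (e₁ ▸ k n₁)
  obtain rfl : a = 1 := by
    have := congrFun d2 n₂
    rw [comp_apply (f := sc a), show c.q n₂ = _ from e₂, sc_coe, mul_one] at this
    exact (coe_injective this).symm
  rw [nf_one, one_pow, mul_one] at d3
  refine ⟨(s.1, fun r => (∏ i, t i ^ ℓ r i)⁻¹), isUnit_T.2 ⟨ne_S hs, fun r =>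
    inv_ne_zero (prod_zpow_ne ht _)⟩, Prod.ext rfl ?_⟩
  change dgA ch c.q' 1 (c.t _) = _
  rw [c.t_eq ht d3]
  refine Prod.ext (congrArg Prod.fst d1).symm (Prod.ext (congrArg (·.2.1) d1).symm
    (funext fun n => ?_))
  rcases n with n | n
  exacts [(congrArg (·.2.2 (.inl n)) d1).symm, isEmptyElim n]

end Dat

/-- the data exist in the standard chart -/
theorem exists_dat [DecidableEq R] {F : Fam S Λ R J K} {k D : ℕ} (hk : F.Big k) (hD : F.BigD k D)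
    [IsEmpty κ] (hν : Fintype.card ν = 3) :
    Nonempty (Dat ν κ (F.sch ν κ k D 0 0) F.toWt ℓs) := by
  have hc : Fintype.card (Mk ν κ) = 3 := by simp [hν]
  have hm : ∀ o, (F.sch ν κ k D 0 0).m o = k := fun o => by
    cases o <;> simp [Fam.chart, Tgt.chart, hν]
  obtain ⟨_, _, -, hk⟩ := hk
  obtain ⟨l, hl⟩ := (Fam.chart_cuts (g := 0) (n := Fintype.card (Mk ν κ)) (d := 0) hD).cut
  have hs := Cv.sum_χ 0 (Fintype.card (Mk ν κ)) 0 hD
  have r : Gz (F.sch ν κ k D 0 0) (Mk ν κ) := by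
    refine ⟨rfl, fun o => ?_, fun o => by rw [hm]; omega, by rw [hm]; omega, fun l => ?_,
      (Fam.chart_cuts hD).ne, ⟨l, fun i => le_trans (by norm_num) (hl i),
        le_trans (by norm_num) (hl _)⟩, ?_, hs⟩
    · refine (Int.toNat_of_nonneg (a := (F.sch ν κ k D 0 0).m o + 1 - 0) ?_).trans (sub_zero _)
      rw [hm]
      omega
    · refine (Int.toNat_of_nonneg (a := ∑ o, (F.sch ν κ k D 0 0).a l o *
        (F.sch ν κ k D 0 0).m o + 1 - 0) ?_).trans (sub_zero _)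
      simp only [hm, sub_zero]
      positivity
    · simp only [hm, ← Finset.sum_mul, hs, hc]
      exact (one_mul _).trans (mul_one _).symm
  obtain ⟨e⟩ := Fintype.card_eq.1 (hν.trans (Fintype.card_fin 3).symm)
  let q' : ν ⊕ κ → OnePoint ℂ := Sum.elim (![((0 : ℂ) : OnePoint ℂ), ∞, (1 : ℂ)] ∘ e) isEmptyElim
  have hq : Injective (q' ∘ Sum.map id Prod.fst : Mk ν κ → _) := by
    rintro (a | a) (b | b) h
    · refine congrArg _ (e.injective ?_)
      change ![_, _, _] (e a) = ![_, _, _] (e b) at h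
      generalize e a = i, e b = j at h
      fin_cases i <;> fin_cases j <;> simp_all
    exacts [isEmptyElim b.1, isEmptyElim a.1, isEmptyElim a.1]
  have hd : ∀ r, ∑ i, ℓs r i * (F.sch ν κ k D 0 0).m i = 0 := fun r => by
    simp only [hm, ← Finset.sum_mul, ℓs, Cv.sum_hat, zero_mul]
  obtain ⟨x₀, h₀, -⟩ := r.exists_std hq 0
  obtain ⟨_, -, a⟩ := h₀.exists_cr r
  choose G hG using fun j => a.exists_field (j := j) (s := 1) (r.a _) (by
    change _ ∈ H0 ∅ (bz _ ((F.sch ν κ k D 0 0).wd j))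
    rw [H0_empty, bz_Os]
    simp only [hm, ← Finset.sum_mul, Cv.chart_wd, Cv.sum_hat, zero_mul, O_zero]
    exact LB.one_mem)
  obtain ⟨x, h, rfl⟩ := r.exists_std hq G
  obtain ⟨v, v1, v2, v3⟩ := (Fam.chart_lat (g := 0) (n := Fintype.card (Mk ν κ)) (d := 0) hD).dual
  exact ⟨⟨q', x, v, r, h, hG, Fam.chart_wd', hd, v1, v2, v3, ⟨.inl (e.symm 0), by simp [q']⟩,
    ⟨.inl (e.symm 1), by simp [q']⟩, ⟨.inl (e.symm 2), by simp [q']⟩, hc.le⟩⟩

end Vale.Agent.P269.Th
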