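import Vale.Agent.P269.Qrr.ThD

set_option linter.unusedSectionVars false

/-!
# Genus zero, three points, degree zero: all maps are constant maps from the projective line
-/

namespace Vale.Agent.P269.Th

open P291Z Set Function Topology Filter Module Base Ch Cv P1 Tq

variable {S Λ R J K ι ν κ : Type} [Fintype S] [Fintype Λ] [Fintype R] [Fintype J] [Fintype K]
  [Fintype ι] [DecidableEq ι] [Fintype ν] [Fintype κ] {ch : Ch ι J} {F : Fam S Λ R J K}

theorem smooth_of_typ {m : AM Λ R J ν κ} {θ : R → ℤ} (hs : m.Stable θ) (ht : m.Typ 0 0)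
    (hν : Fintype.card (Mk ν κ) = 3) : m.Conn ∧ m.N = ∅ := by
  have a : deg (m.ω * bz m.L θ) = 1 := by
    simp [deg_mul, AC.deg_ω, deg_bz, ht.1, ht.2, hν]
  have n : Nonempty m.X := (Fintype.card_pos_iff.1 (by omega)).map m.p
  have b : ∀ U : Set m.X, IsClopen U → U = ∅ ∨ U = univ := fun U hU => by
    by_contra c
    have d := not_or.1 c
    have := hs U hU (nonempty_iff_ne_empty.2 d.1)
    have := hs _ hU.compl (nonempty_compl.2 d.2)
    have := degOn_add_compl (L := m.ω * bz m.L θ) hU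
    omega
  have : ConnectedSpace m.X := connectedSpace_iff_clopen.2 ⟨n, b⟩
  refine ⟨⟨n, fun U hU _ => b U hU⟩, Finset.card_eq_zero.1 ?_⟩
  have c := (degOn_K_ge (R := m.R) isClopen_univ isConnected_univ).1
  have d := ht.1
  rw [degOn_univ, deg_K] at c
  rw [gen] at d
  omega

section ThP

variable [DecidableEq R] [IsEmpty κ] {k D : ℕ} {u : ν → J → ℕ}

theorem sel_conn (hF : F.Inv) (hD : F.BigD k D) (hν : Fintype.card ν = 3) :
    (F.sel (fun m => m.Conn) : Set (F.Mod κ k D 0 0 u)) = univ :=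
  (Fam.sel_congr hF hD (fun _ _ a => a.conn) (fun _ _ _ => id) fun _ _ a b =>
    iff_true_intro (smooth_of_typ a b (by simp [hν])).1).trans (Fam.sel_true hD)

theorem Dat.exists_act {ℓ : R → ι → ℤ} (c : Dat ν κ ch F.toWt ℓ) (hF : F.Inv) {x : ch.WF ν κ Λ}
    (hx : x ∈ ch.solF ν κ F) {m : AM Λ R J ν κ} (r : Rep ℓ univ x m) (h : m.Conn) (h' : m.N = ∅) :
    ∃ a, IsUnit a ∧ ∃ z ∈ F.cone, actF F.toWt a x = c.σ z := by
  obtain ⟨B, π, v, t, d⟩ := r.exists_data hx.1.2.1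
  obtain ⟨s, hs, b⟩ := c.gz.hom_mark hx.1.2.1 (d.conn.1 h) (fun y hy => by
    obtain ⟨y, t, a, rfl⟩ := (d.cr.par.img y).1 hy
    simp [d.cr.par.isNode_iff a, Sm, h']) c.card c.std.inj
  let a : ch.AF ν κ S := (1, s.1, s.2.1, fun n => s.2.2 (n.map id fun q => (q, false)))
  have e : dup a.2 = s := Prod.ext rfl (Prod.ext rfl (funext fun n => by
    rcases n with n | n
    exacts [rfl, isEmptyElim n.1]))
  have ha : IsUnit a := Prod.isUnit_iff.2 ⟨isUnit_one, Cv.isUnit_iff.2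
    ⟨(Cv.isUnit_iff.1 hs).1, (Cv.isUnit_iff.1 hs).2.1, fun _ => (Cv.isUnit_iff.1 hs).2.2 _⟩⟩
  refine ⟨a, ha, c.exists_σ (actF_mem_solF hF ha hx) ?_⟩
  rw [actF_snd, e, ← scl_act]
  exact b.congr rfl rfl rfl

theorem Dat.surj_qm (c : Dat ν κ (F.sch ν κ k D 0 0) F.toWt ℓs) (hF : F.Inv) (hD : F.BigD k D)
    (hν : Fintype.card ν = 3) (h : Eqh F.actT (actF F.toWt) F.cone (F.Zs κ k D 0 0 u) c.θ c.σ) :
    Surjective h.toEqv.qm := fun y => by
  obtain ⟨x, m, rfl, r⟩ := Fam.exists_mk hD y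
  have f := smooth_of_typ (Fam.rep_stable hD r x.2.1.1.2.1) (Fam.rep_typ r x.2.1.1.2.1)
    (by simp [hν])
  obtain ⟨a, ha, z, hz, e⟩ := c.exists_act hF x.2.1 r f.1 f.2
  exact ⟨Quo.mk _ ⟨z, hz⟩, (Quot.sound ⟨a, ha, e.symm⟩).symm⟩

end ThP

end Vale.Agent.P269.Th
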