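import Vale.Agent.P269.Qrr.Bas
import Vale.Agent.P269.Prj.Tgt
import Vale.Agent.P269.Asm.Ci

/-!
# The three point invariants of genus zero and degree zero
-/

namespace Vale.Agent.P269

open P291Z Set

theorem St.three_of (h : St.ThreeT) : St.Three := by
  intro R J K _ _ _ _ F k hF hk m₁ m₂ m₃ a b c
  haveI := hF.toGood.fp
  refine (F.cor_ofFnP k (fun _ _ m => m.Conn) 1 0 (-1) ![(m₁, a), (m₂, b), (m₃, c)]).trans
    ((h F k 1 (fun j => ⟨_, Wt.lc_mem 0 (F.w j)⟩) (hF.one hF.nice hk) (fun _ => rfl) _).trans ?_)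
  rw [map_one, OneMemClass.coe_one, one_mul]
  exact if_congr (Fin.forall_fin_succ.trans (and_congr_right' Fin.forall_fin_two)) rfl rfl

end Vale.Agent.P269
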